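import Vale.Agent.N154A.Rec

/-!
# P154, four spins: a basin of attraction of the trivial fixed point

The function `mean + (55/9) chi` is submultiplicative under products of symmetric channels.
-/

set_option linter.all false

namespace Vale.Agent.N154A

open Vale.Agent.P154 Equiv Filter Topology

theorem chi4 (v : V) : chi v = ((v 0 ^ 2 + v 1 ^ 2 + v 2 ^ 2 + v 3 ^ 2) / (v 0 + v 1 + v 2 + v 3)
    - (v 0 + v 1 + v 2 + v 3) / 4) / 3 := by
  unfold chi
  rw [Fin.sum_univ_four, Fin.sum_univ_four]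
  norm_num

theorem chi_nn {v : V} (hv : Nn v) : 0 ≤ chi v := by
  have hs0 : 0 ≤ ∑ i, v i := Finset.sum_nonneg fun i _ => hv i
  rcases hs0.eq_or_lt with hs | hs
  · have hz : ∀ i, v i = 0 := fun i =>
      (Finset.sum_eq_zero_iff_of_nonneg (fun i _ => hv i)).1 hs.symm i (Finset.mem_univ i)
    have hc : chi v = 0 := by unfold chi; simp [hz]
    exact hc.ge
  · exact chi_nonneg (by norm_num) hs

theorem chi_le {v : V} (hv : Nn v) : chi v ≤ mean v := by
  have := homBdd_chi (q := 4) (by norm_num) v hv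
  linarith [le_abs_self (chi v)]

theorem nb_chi : NB (chi : V → ℝ) := ⟨1, fun v hv => ⟨chi_nn hv, by rw [one_mul]; exact chi_le hv⟩⟩

theorem chi_smul (a : ℝ) (v : V) : chi (fun i => a * v i) = a * chi v := by
  rcases eq_or_ne a 0 with rfl | ha
  · rw [chi4]; simp
  · rw [chi4, chi4]
    rcases eq_or_ne (v 0 + v 1 + v 2 + v 3) 0 with h | h
    · have : a * v 0 + a * v 1 + a * v 2 + a * v 3 = 0 := by linear_combination a * h
      rw [this, h]; simp
    · have e : a * v 0 + a * v 1 + a * v 2 + a * v 3 = a * (v 0 + v 1 + v 2 + v 3) := by ring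
      rw [e]
      field_simp

theorem chi_pl' (lam : ℝ) {v : V} (hv : Nn v) : chi (pl lam v) = lam ^ 2 * chi v := by
  have hs0 : 0 ≤ ∑ i, v i := Finset.sum_nonneg fun i _ => hv i
  rcases hs0.eq_or_lt with hs | hs
  · have hz : ∀ i, v i = 0 := fun i =>
      (Finset.sum_eq_zero_iff_of_nonneg (fun i _ => hv i)).1 hs.symm i (Finset.mem_univ i)
    have e : pl lam v = v := by funext i; unfold pl mean; simp [hz]
    have hc : chi v = 0 := by unfold chi; simp [hz]
    rw [e, hc, mul_zero]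
  · exact chi_pl (by norm_num) lam hs

/-- polynomial upper bound of `chi` -/
noncomputable def ub (a b c d : ℝ) : ℝ :=
  ((a ^ 2 + b ^ 2 + c ^ 2 + d ^ 2) / 4 - ((a + b + c + d) / 4) ^ 2) * (2 - (a + b + c + d) / 4) / 3
    + (a + b + c + d) / 4 * (1 - (a + b + c + d) / 4) ^ 2

theorem chi_le_ub {v : V} (hv : Nn v) : chi v ≤ ub (v 0) (v 1) (v 2) (v 3) := by
  have h1 := chi_le hv
  rw [mean4] at h1
  have hs : 0 ≤ v 0 + v 1 + v 2 + v 3 := by have := mean_nn hv; rw [mean4] at this; linarith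
  unfold ub
  rcases hs.eq_or_lt with h | h
  · have h0 : v 0 = 0 := by linarith [hv 0, hv 1, hv 2, hv 3]
    have h2 : v 1 = 0 := by linarith [hv 0, hv 1, hv 2, hv 3]
    have h3 : v 2 = 0 := by linarith [hv 0, hv 1, hv 2, hv 3]
    have h4 : v 3 = 0 := by linarith [hv 0, hv 1, hv 2, hv 3]
    rw [chi4, h0, h2, h3, h4]
    norm_num
  · set Z := (v 0 + v 1 + v 2 + v 3) / 4 with hZ
    have e : (v 0 ^ 2 + v 1 ^ 2 + v 2 ^ 2 + v 3 ^ 2) / 4 - Z ^ 2 = 3 * Z * chi v := by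
      rw [chi4, hZ]
      field_simp
    rw [e]
    have := mul_le_mul_of_nonneg_right h1 (sq_nonneg (1 - Z))
    nlinarith only [this]

theorem skew0 {a b c d : ℝ} (h : a + b + c + d = 0) (h0 : -1 ≤ a) (hb : a ≤ b) (hc : a ≤ c)
    (hd : a ≤ d) : -(2 / 3) * (a ^ 2 + b ^ 2 + c ^ 2 + d ^ 2) ≤ a ^ 3 + b ^ 3 + c ^ 3 + d ^ 3 := by
  have ha : a ≤ 0 := by linarith
  have h1 := mul_nonneg (sub_nonneg.2 hb) (sq_nonneg (b + a / 3))
  have h2 := mul_nonneg (sub_nonneg.2 hc) (sq_nonneg (c + a / 3))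
  have h3 := mul_nonneg (sub_nonneg.2 hd) (sq_nonneg (d + a / 3))
  have hd' : d = -a - b - c := by linarith
  have h4 : 4 / 3 * a ^ 2 ≤ a ^ 2 + b ^ 2 + c ^ 2 + d ^ 2 := by
    rw [hd']
    nlinarith [sq_nonneg (b - c), sq_nonneg (b + c + 2 / 3 * a)]
  set S := a ^ 2 + b ^ 2 + c ^ 2 + d ^ 2 with hS
  have h5 : a / 3 * S + 4 / 9 * a ^ 3 ≤ a ^ 3 + b ^ 3 + c ^ 3 + d ^ 3 := by
    have e : a ^ 3 + b ^ 3 + c ^ 3 + d ^ 3 - (a / 3 * S + 4 / 9 * a ^ 3)
        = (b - a) * (b + a / 3) ^ 2 + (c - a) * (c + a / 3) ^ 2 + (d - a) * (d + a / 3) ^ 2 := by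
      rw [hS, hd']; ring
    linarith
  have h6 := mul_le_mul_of_nonneg_left h4 (neg_nonneg.2 ha)
  have h7 : 0 ≤ S := by positivity
  have h8 := mul_le_mul_of_nonneg_right h0 h7
  nlinarith

theorem skew {a b c d : ℝ} (h : a + b + c + d = 0) (ha : -1 ≤ a) (hb : -1 ≤ b) (hc : -1 ≤ c)
    (hd : -1 ≤ d) :
    -(2 / 3) * (a ^ 2 + b ^ 2 + c ^ 2 + d ^ 2) ≤ a ^ 3 + b ^ 3 + c ^ 3 + d ^ 3 := by
  rcases le_total a b with h1 | h1 <;> rcases le_total c d with h2 | h2
  · rcases le_total a c with h3 | h3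
    · exact skew0 h ha h1 h3 (h3.trans h2)
    · linarith [skew0 (a := c) (b := a) (c := b) (d := d) (by linarith) hc h3 (h3.trans h1) h2]
  · rcases le_total a d with h3 | h3
    · exact skew0 h ha h1 (h3.trans h2) h3
    · linarith [skew0 (a := d) (b := a) (c := b) (d := c) (by linarith) hd h3 (h3.trans h1) h2]
  · rcases le_total b c with h3 | h3
    · linarith [skew0 (a := b) (b := a) (c := c) (d := d) (by linarith) hb h1 h3 (h3.trans h2)]
    · linarith [skew0 (a := c) (b := a) (c := b) (d := d) (by linarith) hc (h3.trans h1) h3 h2]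
  · rcases le_total b d with h3 | h3
    · linarith [skew0 (a := b) (b := a) (c := c) (d := d) (by linarith) hb h1 (h3.trans h2) h3]
    · linarith [skew0 (a := d) (b := a) (c := b) (d := c) (by linarith) hd (h3.trans h1) h3 h2]

theorem skew' {a b c d : ℝ} (h : a + b + c + d = 0) (ha : -1 ≤ a) (hb : -1 ≤ b) (hc : -1 ≤ c)
    (hd : -1 ≤ d) : a ^ 3 + b ^ 3 + c ^ 3 + d ^ 3 ≤ 3 * (a ^ 2 + b ^ 2 + c ^ 2 + d ^ 2) := by
  have h1 := mul_nonneg (sq_nonneg a) (show 0 ≤ 3 - a by linarith)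
  have h2 := mul_nonneg (sq_nonneg b) (show 0 ≤ 3 - b by linarith)
  have h3 := mul_nonneg (sq_nonneg c) (show 0 ≤ 3 - c by linarith)
  have h4 := mul_nonneg (sq_nonneg d) (show 0 ≤ 3 - d by linarith)
  nlinarith

theorem fin_ineq {A B C D : ℝ} (A0 : 0 ≤ A) (B0 : 0 ≤ B) (k1 : -(2 / 3) * A ≤ C) (k2 : C ≤ 3 * A)
    (k3 : -(2 / 3) * B ≤ D) (k4 : D ≤ 3 * B) :
    2 * A + 2 * B + A * B / 2 - (A * D + B * C) / 3 + C * D / 6
      ≤ 24 * (A / 12 + B / 12 + 55 / 9 * (A / 12 * (B / 12))) := by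
  have m1 := mul_nonneg (show 0 ≤ C + 2 / 3 * A by linarith) (show 0 ≤ 3 * B - D by linarith)
  have m2 := mul_nonneg (show 0 ≤ D + 2 / 3 * B by linarith) (show 0 ≤ 3 * A - C by linarith)
  have m3 := mul_nonneg (show 0 ≤ C + 2 / 3 * A by linarith) B0
  have m4 := mul_nonneg (show 0 ≤ D + 2 / 3 * B by linarith) A0
  linear_combination 1 / 12 * m1 + 1 / 12 * m2 + 5 / 36 * m3 + 5 / 36 * m4

theorem pair_norm {u w : V} (hu : Nn u) (hw : Nn w) (su : mean u = 1) (sw : mean w = 1) :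
    sy (fun x => chi (u * x)) w ≤ 24 * (chi u + chi w + 55 / 9 * (chi u * chi w)) := by
  have h1 : sy (fun x => chi (u * x)) w ≤ ∑ τ : Perm (Fin 4),
      (fun i j k l => ub (u 0 * w i) (u 1 * w j) (u 2 * w k) (u 3 * w l)) (τ 0) (τ 1) (τ 2) (τ 3) :=
    Finset.sum_le_sum fun τ _ => chi_le_ub (hu.mul (hw.perm τ))
  refine h1.trans ?_
  rw [Q4.sum_perm4 (fun i j k l => ub (u 0 * w i) (u 1 * w j) (u 2 * w k) (u 3 * w l))]
  simp only [Q4.permList, List.map_cons, List.map_nil, List.sum_cons, List.sum_nil]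
  rw [mean4] at su sw
  obtain ⟨a0, e0⟩ : ∃ a, u 0 = 1 + a := ⟨u 0 - 1, by ring⟩
  obtain ⟨a1, e1⟩ : ∃ a, u 1 = 1 + a := ⟨u 1 - 1, by ring⟩
  obtain ⟨a2, e2⟩ : ∃ a, u 2 = 1 + a := ⟨u 2 - 1, by ring⟩
  obtain ⟨a3, e3⟩ : ∃ a, u 3 = 1 + a := ⟨u 3 - 1, by ring⟩
  obtain ⟨b0, f0⟩ : ∃ a, w 0 = 1 + a := ⟨w 0 - 1, by ring⟩
  obtain ⟨b1, f1⟩ : ∃ a, w 1 = 1 + a := ⟨w 1 - 1, by ring⟩
  obtain ⟨b2, f2⟩ : ∃ a, w 2 = 1 + a := ⟨w 2 - 1, by ring⟩
  obtain ⟨b3, f3⟩ : ∃ a, w 3 = 1 + a := ⟨w 3 - 1, by ring⟩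
  have p0 := hu 0; have p1 := hu 1; have p2 := hu 2; have p3 := hu 3
  have q0 := hw 0; have q1 := hw 1; have q2 := hw 2; have q3 := hw 3
  have sa : a0 + a1 + a2 + a3 = 0 := by linarith
  have sb : b0 + b1 + b2 + b3 = 0 := by linarith
  have cu : chi u = (a0 ^ 2 + a1 ^ 2 + a2 ^ 2 + a3 ^ 2) / 12 := by
    rw [chi4, show u 0 + u 1 + u 2 + u 3 = 4 by linarith, e0, e1, e2, e3]
    linear_combination (1 / 6) * sa
  have cw : chi w = (b0 ^ 2 + b1 ^ 2 + b2 ^ 2 + b3 ^ 2) / 12 := by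
    rw [chi4, show w 0 + w 1 + w 2 + w 3 = 4 by linarith, f0, f1, f2, f3]
    linear_combination (1 / 6) * sb
  have k1 := skew sa (by linarith) (by linarith) (by linarith) (by linarith)
  have k2 := skew' sa (by linarith) (by linarith) (by linarith) (by linarith)
  have k3 := skew sb (by linarith) (by linarith) (by linarith) (by linarith)
  have k4 := skew' sb (by linarith) (by linarith) (by linarith) (by linarith)
  rw [cu, cw, e0, e1, e2, e3, f0, f1, f2, f3]
  have ea : a3 = -a0 - a1 - a2 := by linarith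
  have eb : b3 = -b0 - b1 - b2 := by linarith
  refine le_trans (le_of_eq ?_) (fin_ineq (by positivity) (by positivity) k1 k2 k3 k4)
  rw [ea, eb]
  unfold ub
  ring

/-- the submultiplicative function -/
noncomputable def GG (v : V) : ℝ := mean v + 55 / 9 * chi v

theorem nb_GG : NB GG := nb_mean.add (nb_chi.smul (by norm_num))

theorem mean_smul (a : ℝ) (v : V) : mean (fun i => a * v i) = a * mean v := by
  rw [mean4, mean4]; ring

theorem zero_of_mean {v : V} (hv : Nn v) (h : mean v = 0) (i : Fin 4) : v i = 0 :=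
  le_antisymm (by have := le_mean hv i; rw [h] at this; linarith) (hv i)

theorem pair_chi {u w : V} (hu : Nn u) (hw : Nn w) : sy (fun x => chi (u * x)) w
    ≤ 24 * (chi u * mean w + mean u * chi w + 55 / 9 * (chi u * chi w)) := by
  have z : chi (fun _ : Fin 4 => (0 : ℝ)) = 0 := by rw [chi4]; simp
  have r0 : 0 ≤ 24 * (chi u * mean w + mean u * chi w + 55 / 9 * (chi u * chi w)) := by
    have := chi_nn hu; have := chi_nn hw; have := mean_nn hu; have := mean_nn hw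
    positivity
  rcases (mean_nn hu).eq_or_lt with h | h
  · refine le_trans (le_of_eq (Finset.sum_eq_zero fun τ _ => ?_)) r0
    exact (congrArg chi (funext fun i => by simp [zero_of_mean hu h.symm])).trans z
  rcases (mean_nn hw).eq_or_lt with h' | h'
  · refine le_trans (le_of_eq (Finset.sum_eq_zero fun τ _ => ?_)) r0
    exact (congrArg chi (funext fun i => by simp [zero_of_mean hw h'.symm])).trans z
  obtain ⟨a, ha⟩ : ∃ a, a = mean u := ⟨_, rfl⟩
  obtain ⟨b, hb⟩ : ∃ b, b = mean w := ⟨_, rfl⟩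
  rw [← ha] at h ⊢
  rw [← hb] at h' ⊢
  have k := pair_norm (u := fun i => a⁻¹ * u i) (w := fun i => b⁻¹ * w i)
    (fun i => mul_nonneg (inv_nonneg.2 h.le) (hu i)) (fun i => mul_nonneg (inv_nonneg.2 h'.le) (hw i))
    (by rw [mean_smul, ← ha]; exact inv_mul_cancel₀ h.ne')
    (by rw [mean_smul, ← hb]; exact inv_mul_cancel₀ h'.ne')
  have e : sy (fun x => chi ((fun i => a⁻¹ * u i) * x)) (fun i => b⁻¹ * w i)
      = a⁻¹ * b⁻¹ * sy (fun x => chi (u * x)) w := by
    unfold sy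
    rw [Finset.mul_sum]
    refine Finset.sum_congr rfl fun τ _ => ?_
    rw [← chi_smul]
    refine congrArg chi (funext fun i => ?_)
    show a⁻¹ * u i * (b⁻¹ * w (τ i)) = a⁻¹ * b⁻¹ * (u i * w (τ i))
    ring
  rw [e, chi_smul, chi_smul] at k
  have k2 := mul_le_mul_of_nonneg_left k (mul_pos h h').le
  have e1 : ∀ z : ℝ, a * b * (a⁻¹ * b⁻¹ * z) = z := by
    intro z
    field_simp
  have e2 : a * b * (24 * (a⁻¹ * chi u + b⁻¹ * chi w + 55 / 9 * (a⁻¹ * chi u * (b⁻¹ * chi w))))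
      = 24 * (chi u * b + a * chi w + 55 / 9 * (chi u * chi w)) := by
    field_simp
  rwa [e1, e2] at k2

variable {Φ Ψ : (V → ℝ) → ℝ}

theorem Ch.GG_eq (h : Ch Φ) : Φ GG = 1 + 55 / 9 * Φ chi := by
  have := h.add _ _ nb_mean (nb_chi.smul (a := 55 / 9) (by norm_num))
  rw [h.mass, h.smul _ _ nb_chi (by norm_num)] at this
  exact this

theorem lift_GG (h : Ch Ψ) {u : V} (hu : Nn u) : lift Ψ GG u ≤ Ψ GG * GG u := by
  have c0 := chi_nn hu
  have m0 := mean_nn hu
  have e : lift Ψ GG u = mean u + 55 / 9 * lift Ψ chi u := by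
    have := h.add _ _ (nb_mean.mul hu) ((nb_chi.mul hu).smul (a := 55 / 9) (by norm_num))
    rw [h.mean_mul hu, h.smul _ _ (nb_chi.mul hu) (by norm_num)] at this
    exact this
  have e2 := lift_sy h nb_chi hu
  have a0 : 0 ≤ 24 * chi u := by positivity
  have b0 : 0 ≤ 24 * (mean u + 55 / 9 * chi u) := by positivity
  have k := h.mono _ _ (nb_chi.mul hu).sy ((nb_mean.smul a0).add (nb_chi.smul b0)) fun w hw => by
    have := pair_chi hu hw
    show sy (fun x => chi (u * x)) w ≤ _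
    linarith
  rw [h.add _ _ (nb_mean.smul a0) (nb_chi.smul b0), h.smul _ _ nb_mean a0,
    h.smul _ _ nb_chi b0, h.mass, ← e2] at k
  rw [e, h.GG_eq]
  unfold GG
  nlinarith

theorem pw_GG {E : (V → ℝ) → ℝ} (h : Ch E) : ∀ k, pw E k GG ≤ E GG ^ k
  | 0 => by
    change GG 1 ≤ _
    have : chi (1 : V) = 0 := chi_const (by norm_num)
    unfold GG
    rw [this, mean_one]
    simp
  | k + 1 => by
    have h0 := h.nonneg nb_GG
    have := (h.pw k).mono _ _ (h.lift_nb nb_GG) (nb_GG.smul h0) fun u hu => lift_GG h hu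
    rw [(h.pw k).smul _ _ nb_GG h0] at this
    refine this.trans ?_
    rw [pow_succ']
    exact mul_le_mul_of_nonneg_left (pw_GG h k) h0

theorem p3 : ∀ i j : Fin 4, 0 ≤ potts 4 (-1 / 3) i j := by
  intro i j
  unfold potts
  split_ifs <;> norm_num

variable {ν : ℕ → ℝ}

/-- the generating function of `ν` is at most that of the Poisson law of mean `d` -/
def GenLe (ν : ℕ → ℝ) (d : ℝ) : Prop :=
  ∀ y : ℝ, 0 ≤ y → ∃ s, HasSum (fun k => ν k * (1 + y) ^ k) s ∧ s ≤ Real.exp (d * y)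

theorem step_chi (hν : ∀ k, 0 ≤ ν k) (hs : HasSum ν 1) {d : ℝ} (hg : GenLe ν d) (n : ℕ) :
    1 + 55 / 9 * ev ν 4 (-1 / 3) (n + 1) chi
      ≤ Real.exp (d * (55 / 81 * ev ν 4 (-1 / 3) n chi)) := by
  have hc := ch_ev p3 hν hs n
  have hE := hc.edge p3
  have x0 := hc.nonneg nb_chi
  obtain ⟨s, h1, h2⟩ := hg (55 / 81 * ev ν 4 (-1 / 3) n chi) (by positivity)
  rw [← (ch_ev p3 hν hs (n + 1)).GG_eq, ev_succ p3 hν hs n nb_GG]
  refine le_trans ?_ h2
  rw [← h1.tsum_eq]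
  refine (summable_pw hE hν hs nb_GG).tsum_le_tsum (fun k => ?_) h1.summable
  refine mul_le_mul_of_nonneg_left ((pw_GG hE k).trans (le_of_eq ?_)) (hν k)
  rw [hE.GG_eq]
  have e : edge (-1 / 3) (ev ν 4 (-1 / 3) n) chi = 1 / 9 * ev ν 4 (-1 / 3) n chi := by
    rw [← hc.smul _ _ nb_chi (by norm_num)]
    refine hc.congr (nb_chi.pl p3) (nb_chi.smul (by norm_num)) fun v hv => ?_
    rw [chi_pl' _ hv]
    norm_num
  rw [e]
  ring

/-- **The basin**: once `chi` is small it tends to zero. -/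
theorem nonrec_of_small (hν : ∀ k, 0 ≤ ν k) (hs : HasSum ν 1) {d t : ℝ} (hd : 0 < d)
    (hg : GenLe ν d) (ht : t ≤ 1) (ht0 : 0 ≤ t) (hθ : d / 9 * (1 + t / 2 + 2 / 9 * t ^ 2) < 1) {n : ℕ}
    (hn : d * (55 / 81 * ev ν 4 (-1 / 3) n chi) ≤ t) : Nonreconstruction ν 4 (-1 / 3) := by
  set θ := d / 9 * (1 + t / 2 + 2 / 9 * t ^ 2) with hθd
  have θ0 : 0 ≤ θ := by positivity
  have x0 : ∀ m, 0 ≤ ev ν 4 (-1 / 3) m chi := fun m => (ch_ev p3 hν hs m).nonneg nb_chi
  have key : ∀ m, d * (55 / 81 * ev ν 4 (-1 / 3) m chi) ≤ t →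
      ev ν 4 (-1 / 3) (m + 1) chi ≤ θ * ev ν 4 (-1 / 3) m chi := by
    intro m hm
    have h1 := step_chi hν hs hg m
    have := x0 m
    set x := ev ν 4 (-1 / 3) m chi
    set z := d * (55 / 81 * x) with hz
    have z0 : 0 ≤ z := by positivity
    have h2 := Real.exp_bound' z0 (hm.trans ht) (n := 3) (by norm_num)
    simp only [Finset.sum_range_succ, Finset.sum_range_zero, Nat.factorial] at h2
    norm_num at h2
    have h3 : z ^ 2 ≤ z * t := by nlinarith
    have h4 : z ^ 3 ≤ z * t ^ 2 := by nlinarith [mul_le_mul hm hm z0 ht0]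
    have h5 : 55 / 9 * (θ * x) = z * (1 + t / 2 + 2 / 9 * t ^ 2) := by rw [hθd, hz]; ring
    nlinarith
  have ind : ∀ k, ev ν 4 (-1 / 3) (k + n) chi ≤ θ ^ k * ev ν 4 (-1 / 3) n chi := by
    intro k
    induction k with
    | zero => simp
    | succ k ih =>
      have h1 : θ ^ k ≤ 1 := pow_le_one₀ θ0 hθ.le
      have h2 : ev ν 4 (-1 / 3) (k + n) chi ≤ ev ν 4 (-1 / 3) n chi :=
        ih.trans (mul_le_of_le_one_left (x0 n) h1)
      have h3 := key (k + n) (le_trans (by gcongr) hn)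
      rw [show k + 1 + n = k + n + 1 by ring, pow_succ', mul_assoc]
      exact h3.trans (mul_le_mul_of_nonneg_left ih θ0)
  refine nonrec_of_ev_chi (by norm_num) p3 hν hs ?_
  rw [← tendsto_add_atTop_iff_nat n]
  refine squeeze_zero (fun k => x0 _) ind ?_
  have := (tendsto_pow_atTop_nhds_zero_of_lt_one θ0 hθ).mul_const (ev ν 4 (-1 / 3) n chi)
  rwa [zero_mul] at this

theorem genLe_reg (d : ℕ) : GenLe (regularOffspring d) d := by
  intro y hy
  refine ⟨(1 + y) ^ d, ?_, ?_⟩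
  · have := hasSum_single (f := fun k => regularOffspring d k * (1 + y) ^ k) d
      (fun k hk => by simp [regularOffspring, hk])
    simpa [regularOffspring] using this
  · rw [Real.exp_nat_mul]
    exact pow_le_pow_left₀ (by linarith) (by linarith [Real.add_one_le_exp y]) d

theorem genLe_poi (d : ℝ) : GenLe (poissonOffspring d) d := by
  intro y _
  refine ⟨Real.exp (d * y), ?_, le_rfl⟩
  have h := (NormedSpace.expSeries_div_hasSum_exp (𝔸 := ℝ) (d * (1 + y))).mul_left (Real.exp (-d))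
  rw [← Real.exp_eq_exp_ℝ, ← Real.exp_add, show -d + d * (1 + y) = d * y by ring] at h
  refine h.congr_fun fun k => ?_
  rw [poissonOffspring, mul_pow]
  ring

/-- the test function of the second moment -/
noncomputable def mc (v : V) : ℝ := mean v - chi v

theorem mc_add {u v : V} (hu : Nn u) (hv : Nn v) : chi (u + v) ≤ chi u + chi v := by
  rcases (mean_nn hu).eq_or_lt with h | h
  · have e : u + v = v := by funext i; simp [zero_of_mean hu h.symm]
    rw [e]; linarith [chi_nn hu]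
  rcases (mean_nn hv).eq_or_lt with h' | h'
  · have e : u + v = u := by funext i; simp [zero_of_mean hv h'.symm]
    rw [e]; linarith [chi_nn hv]
  rw [mean4] at h h'
  rw [chi4, chi4, chi4]
  simp only [Pi.add_apply]
  have hs : 0 < u 0 + u 1 + u 2 + u 3 := by linarith
  have ht : 0 < v 0 + v 1 + v 2 + v 3 := by linarith
  set s := u 0 + u 1 + u 2 + u 3 with hs'
  set t := v 0 + v 1 + v 2 + v 3 with ht'
  have e : u 0 + v 0 + (u 1 + v 1) + (u 2 + v 2) + (u 3 + v 3) = s + t := by rw [hs', ht']; ring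
  rw [e]
  have k : ∀ a b : ℝ, (a + b) ^ 2 / (s + t) ≤ a ^ 2 / s + b ^ 2 / t := fun a b => by
    rw [div_add_div _ _ hs.ne' ht.ne', div_le_div_iff₀ (by positivity) (by positivity)]
    nlinarith only [sq_nonneg (a * t - b * s)]
  have k0 := k (u 0) (v 0); have k1 := k (u 1) (v 1)
  have k2 := k (u 2) (v 2); have k3 := k (u 3) (v 3)
  rw [add_div _ ((u 3 + v 3) ^ 2), add_div _ ((u 2 + v 2) ^ 2), add_div ((u 0 + v 0) ^ 2),
    add_div _ (u 3 ^ 2), add_div _ (u 2 ^ 2), add_div (u 0 ^ 2),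
    add_div _ (v 3 ^ 2), add_div _ (v 2 ^ 2), add_div (v 0 ^ 2)]
  linarith only [k0, k1, k2, k3]

theorem tst_mc : Tst mc := by
  refine ⟨?_, fun v hv => sub_nonneg.2 (chi_le hv), fun τ v => ?_⟩
  · intro ι s w v hw hv
    have h2 := sup_mean ι s w v hw hv
    have h1 : chi (fun i => ∑ a ∈ s, w a * v a i) ≤ ∑ a ∈ s, w a * chi (v a) := by
      classical
      clear h2
      induction s using Finset.induction_on with
      | empty => simp only [Finset.sum_empty]; rw [chi4]; simp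
      | insert a s ha ih =>
        simp only [Finset.sum_insert ha]
        have hw' : ∀ b ∈ s, 0 ≤ w b := fun b hb => hw b (Finset.mem_insert_of_mem hb)
        have hv' : ∀ b ∈ s, ∀ i, 0 ≤ v b i := fun b hb => hv b (Finset.mem_insert_of_mem hb)
        have := mc_add (u := fun i => w a * v a i) (v := fun i => ∑ b ∈ s, w b * v b i)
          (fun i => mul_nonneg (hw a (Finset.mem_insert_self _ _))
            (hv a (Finset.mem_insert_self _ _) i))
          (fun i => Finset.sum_nonneg fun b hb => mul_nonneg (hw' b hb) (hv' b hb i))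
        rw [chi_smul] at this
        exact this.trans (add_le_add le_rfl (ih hw' hv'))
    unfold mc
    simp only [mul_sub]
    rw [Finset.sum_sub_distrib]
    linarith
  · unfold mc chi
    rw [mean_perm, Equiv.sum_comp τ v, Equiv.sum_comp τ fun i => v i ^ 2]

theorem Ch.mc_eq (h : Ch Φ) : Φ chi = 1 - Φ mc := by
  have := h.add _ _ tst_mc.nb nb_chi
  have e2 : (fun v => mc v + chi v) = mean := by
    funext v; unfold mc; ring
  rw [e2, h.mass] at this
  linarith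

end Vale.Agent.N154A
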