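import Mathlib.Data.Nat.Basic

/-!
# P154, four spins, proper colourings: certificates of reconstruction, the computation

Lists of likelihood vectors with integer entries are multiplied; the products are sorted and merged
into cells chosen by a decision tree that looks at the labels.
-/

set_option linter.all false

namespace Vale.Agent.N154A.Dn

/-- a likelihood vector `(x0, x1, x2, x3)` with a label `(l0, l1, l2, l3)` -/
structure It where
  (l0 l1 l2 l3 x0 x1 x2 x3 : Nat)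

/-- product of labels (high part) and of entries (low part) -/
def ky (a x b y : Nat) : Nat := Nat.add (Nat.shiftLeft (Nat.mul a b) 72) (Nat.mul x y)

def lo (a : Nat) : Nat := Nat.land a 4722366482869645213695

def s6 (f : Nat → Nat → Nat → Nat → Nat) (a b c d : Nat) : Nat :=
  Nat.shiftLeft (Nat.add (Nat.land a 4722366482869645213695) (Nat.add (Nat.shiftLeft (Nat.land b 4722366482869645213695) 72)
    (Nat.add (Nat.shiftLeft (Nat.land c 4722366482869645213695) 144) (Nat.shiftLeft (Nat.land d 4722366482869645213695) 216))))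
    (f (Nat.shiftRight a 72) (Nat.shiftRight b 72) (Nat.shiftRight c 72) (Nat.shiftRight d 72))

noncomputable def s5 (f : Nat → Nat → Nat → Nat → Nat) (a b c d : Nat) : Nat :=
  Bool.rec (motive := fun _ => Nat) (s6 f a c b d) (s6 f a b c d) (Nat.ble c b)

noncomputable def s4 (f : Nat → Nat → Nat → Nat → Nat) (a b c d : Nat) : Nat :=
  Bool.rec (motive := fun _ => Nat) (s5 f a d c b) (s5 f a b c d) (Nat.ble d b)

noncomputable def s3 (f : Nat → Nat → Nat → Nat → Nat) (a b c d : Nat) : Nat :=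
  Bool.rec (motive := fun _ => Nat) (s4 f c b a d) (s4 f a b c d) (Nat.ble c a)

noncomputable def s2 (f : Nat → Nat → Nat → Nat → Nat) (a b c d : Nat) : Nat :=
  Bool.rec (motive := fun _ => Nat) (s3 f a b d c) (s3 f a b c d) (Nat.ble d c)

noncomputable def s1 (f : Nat → Nat → Nat → Nat → Nat) (a b c d : Nat) : Nat :=
  Bool.rec (motive := fun _ => Nat) (s2 f b a c d) (s2 f a b c d) (Nat.ble b a)

noncomputable def j24 (f : Nat → Nat → Nat → Nat → Nat)
    (p00 p01 p02 p03 p10 p11 p12 p13 p20 p21 p22 p23 p30 p31 p32 p33 : Nat) : Nat :=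
  Nat.add (s1 f p00 p11 p22 p33)
    (Nat.add (s1 f p00 p11 p23 p32)
    (Nat.add (s1 f p00 p12 p21 p33)
    (Nat.add (s1 f p00 p12 p23 p31)
    (Nat.add (s1 f p00 p13 p21 p32)
    (Nat.add (s1 f p00 p13 p22 p31)
    (Nat.add (s1 f p01 p10 p22 p33)
    (Nat.add (s1 f p01 p10 p23 p32)
    (Nat.add (s1 f p01 p12 p20 p33)
    (Nat.add (s1 f p01 p12 p23 p30)
    (Nat.add (s1 f p01 p13 p20 p32)
    (Nat.add (s1 f p01 p13 p22 p30)
    (Nat.add (s1 f p02 p10 p21 p33)
    (Nat.add (s1 f p02 p10 p23 p31)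
    (Nat.add (s1 f p02 p11 p20 p33)
    (Nat.add (s1 f p02 p11 p23 p30)
    (Nat.add (s1 f p02 p13 p20 p31)
    (Nat.add (s1 f p02 p13 p21 p30)
    (Nat.add (s1 f p03 p10 p21 p32)
    (Nat.add (s1 f p03 p10 p22 p31)
    (Nat.add (s1 f p03 p11 p20 p32)
    (Nat.add (s1 f p03 p11 p22 p30)
    (Nat.add (s1 f p03 p12 p20 p31)
    (s1 f p03 p12 p21 p30)))))))))))))))))))))))

noncomputable def k24 (f : Nat → Nat → Nat → Nat → Nat)
    (a0 a1 a2 a3 x0 x1 x2 x3 b0 b1 b2 b3 y0 y1 y2 y3 : Nat) : Nat :=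
  j24 f (ky a0 x0 b0 y0) (ky a0 x0 b1 y1) (ky a0 x0 b2 y2) (ky a0 x0 b3 y3)
    (ky a1 x1 b0 y0) (ky a1 x1 b1 y1) (ky a1 x1 b2 y2) (ky a1 x1 b3 y3)
    (ky a2 x2 b0 y0) (ky a2 x2 b1 y1) (ky a2 x2 b2 y2) (ky a2 x2 b3 y3)
    (ky a3 x3 b0 y0) (ky a3 x3 b1 y1) (ky a3 x3 b2 y2) (ky a3 x3 b3 y3)

noncomputable def row (f : Nat → Nat → Nat → Nat → Nat) (a0 a1 a2 a3 x0 x1 x2 x3 : Nat) (X : List It) : Nat :=
  List.rec (motive := fun _ => Nat) 0 (fun o _ ih => It.rec (motive := fun _ => Nat)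
    (fun b0 b1 b2 b3 y0 y1 y2 y3 =>
      Nat.add (k24 f a0 a1 a2 a3 x0 x1 x2 x3 b0 b1 b2 b3 y0 y1 y2 y3) ih) o) X

/-- two independent observations, merged into cells -/
noncomputable def sq (f : Nat → Nat → Nat → Nat → Nat) (X : List It) : Nat :=
  List.rec (motive := fun _ => Nat) 0 (fun o X' ih => It.rec (motive := fun _ => Nat)
    (fun a0 a1 a2 a3 x0 x1 x2 x3 =>
      Nat.add (Nat.add (k24 f a0 a1 a2 a3 x0 x1 x2 x3 a0 a1 a2 a3 x0 x1 x2 x3)
        (Nat.mul 2 (row f a0 a1 a2 a3 x0 x1 x2 x3 X'))) ih) o) X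

/-- the position of the cell chosen by `f` -/
def md (G : Nat) (f : Nat → Nat → Nat → Nat → Nat) (a b c d : Nat) : Nat := Nat.mul 288 (Nat.mod (f a b c d) G)

def dg (Z k : Nat) : Nat := Nat.land (Nat.shiftRight Z k) 4722366482869645213695

def c2 (r0 r1 r2 r3 r : Nat) : Bool :=
  and (Nat.ble r (Nat.mul 5 r0)) (and (Nat.ble r (Nat.mul 5 r1))
    (and (Nat.ble r (Nat.mul 5 r2)) (Nat.ble r (Nat.mul 5 r3))))

def c1 (y0 y1 y2 y3 v0 v1 v2 v3 R : Nat) (f : Nat → Bool) : Bool :=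
  and (and (Nat.ble v0 y0) (and (Nat.ble v1 y1) (and (Nat.ble v2 y2) (Nat.ble v3 y3))))
    (and (c2 (Nat.sub y0 v0) (Nat.sub y1 v1) (Nat.sub y2 v2) (Nat.sub y3 v3)
      (Nat.add (Nat.sub y0 v0) (Nat.add (Nat.sub y1 v1) (Nat.add (Nat.sub y2 v2) (Nat.sub y3 v3)))))
    (f (Nat.add R (Nat.add (Nat.sub y0 v0) (Nat.add (Nat.sub y1 v1) (Nat.add (Nat.sub y2 v2)
      (Nat.sub y3 v3)))))))

def c0 (p x0 x1 x2 x3 R T0 T : Nat) : Bool :=
  and (and (Nat.ble x0 x1) (and (Nat.ble x0 x2) (Nat.ble x0 x3)))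
    (and (Nat.ble (Nat.mul 2 T) (Nat.mul 5 T0)) (and (Nat.ble R T)
      (Nat.ble T (Nat.add R (Nat.mul 4 (Nat.mul p x0))))))

/-- the packed cells `Z` are more informative than `p / (k + 1)` times the list -/
noncomputable def ck (k p : Nat) (X : List It) : Nat → Nat → Nat → Nat → Bool :=
  List.rec (motive := fun _ => Nat → Nat → Nat → Nat → Bool) (fun _ _ _ _ => false)
    (fun o X' ih Z R T0 T => List.rec (motive := fun _ => Bool) (c0 p o.x0 o.x1 o.x2 o.x3 R T0 T)
      (fun _ _ _ => c1 (Nat.mul p o.x0) (Nat.mul p o.x1) (Nat.mul p o.x2) (Nat.mul p o.x3)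
        (Nat.mul k (dg Z 0)) (Nat.mul k (dg Z 72)) (Nat.mul k (dg Z 144)) (Nat.mul k (dg Z 216)) R
        (fun R' => ih (Nat.shiftRight Z 288) R' (Nat.add T0 (dg Z 0))
          (Nat.add T (Nat.add (dg Z 0) (Nat.add (dg Z 72) (Nat.add (dg Z 144) (dg Z 216))))))) X') X

noncomputable def t1n1 (a b c d : Nat) : Nat := Bool.rec (motive := fun _ => Nat) 0 78
  (Nat.ble (Nat.mul 2560 (Nat.add a b)) (Nat.shiftLeft (Nat.add c d) 20))
noncomputable def t1n2 (a b c d : Nat) : Nat := Bool.rec (motive := fun _ => Nat) 24 72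
  (Nat.ble (Nat.mul 2048 a) (Nat.shiftLeft d 20))
noncomputable def t1n3 (a b c d : Nat) : Nat := Bool.rec (motive := fun _ => Nat) (t1n1 a b c d) (t1n2 a b c d)
  (Nat.ble (Nat.mul 6144 a) (Nat.shiftLeft c 20))
noncomputable def t1n4 (a b c d : Nat) : Nat := Bool.rec (motive := fun _ => Nat) 11 36
  (Nat.ble (Nat.mul 40960 a) (Nat.shiftLeft c 20))
noncomputable def t1n5 (a b c d : Nat) : Nat := Bool.rec (motive := fun _ => Nat) 23 50
  (Nat.ble (Nat.mul 19968 (Nat.add a b)) (Nat.shiftLeft (Nat.add c d) 20))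
noncomputable def t1n6 (a b c d : Nat) : Nat := Bool.rec (motive := fun _ => Nat) (t1n4 a b c d) (t1n5 a b c d)
  (Nat.ble (Nat.mul 196608 c) (Nat.shiftLeft d 20))
noncomputable def t1n7 (a b c d : Nat) : Nat := Bool.rec (motive := fun _ => Nat) (t1n3 a b c d) (t1n6 a b c d)
  (Nat.ble (Nat.mul 9984 (Nat.add a b)) (Nat.shiftLeft (Nat.add c d) 20))
noncomputable def t1n8 (a b c d : Nat) : Nat := Bool.rec (motive := fun _ => Nat) 4 82
  (Nat.ble (Nat.mul 81920 b) (Nat.shiftLeft c 20))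
noncomputable def t1n9 (a b c d : Nat) : Nat := Bool.rec (motive := fun _ => Nat) 30 64
  (Nat.ble (Nat.mul 36864 c) (Nat.shiftLeft d 20))
noncomputable def t1n10 (a b c d : Nat) : Nat := Bool.rec (motive := fun _ => Nat) (t1n8 a b c d) (t1n9 a b c d)
  (Nat.ble (Nat.mul 50688 (Nat.add a b)) (Nat.shiftLeft (Nat.add c d) 20))
noncomputable def t1n11 (a b c d : Nat) : Nat := Bool.rec (motive := fun _ => Nat) 12 60
  (Nat.ble (Nat.mul 98304 (Nat.add a b)) (Nat.shiftLeft (Nat.add c d) 20))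
noncomputable def t1n12 (a b c d : Nat) : Nat := Bool.rec (motive := fun _ => Nat) 44 77
  (Nat.ble (Nat.mul 196608 a) (Nat.shiftLeft c 20))
noncomputable def t1n13 (a b c d : Nat) : Nat := Bool.rec (motive := fun _ => Nat) (t1n11 a b c d) (t1n12 a b c d)
  (Nat.ble (Nat.mul 1146880 a) (Nat.shiftLeft (Nat.add b (Nat.add c d)) 20))
noncomputable def t1n14 (a b c d : Nat) : Nat := Bool.rec (motive := fun _ => Nat) 33 63
  (Nat.ble (Nat.mul 203776 b) (Nat.shiftLeft c 20))
noncomputable def t1n15 (a b c d : Nat) : Nat := Bool.rec (motive := fun _ => Nat) (t1n13 a b c d) (t1n14 a b c d)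
  (Nat.ble (Nat.mul 33056 c) (Nat.shiftLeft d 20))
noncomputable def t1n16 (a b c d : Nat) : Nat := Bool.rec (motive := fun _ => Nat) (t1n10 a b c d) (t1n15 a b c d)
  (Nat.ble (Nat.mul 74064 (Nat.add a b)) (Nat.shiftLeft (Nat.add c d) 20))
noncomputable def t1n17 (a b c d : Nat) : Nat := Bool.rec (motive := fun _ => Nat) 8 67
  (Nat.ble (Nat.mul 49152 (Nat.add a b)) (Nat.shiftLeft (Nat.add c d) 20))
noncomputable def t1n18 (a b c d : Nat) : Nat := Bool.rec (motive := fun _ => Nat) 40 83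
  (Nat.ble (Nat.mul 49664 (Nat.add a b)) (Nat.shiftLeft (Nat.add c d) 20))
noncomputable def t1n19 (a b c d : Nat) : Nat := Bool.rec (motive := fun _ => Nat) (t1n17 a b c d) (t1n18 a b c d)
  (Nat.ble (Nat.mul 409600 c) (Nat.shiftLeft d 20))
noncomputable def t1n20 (a b c d : Nat) : Nat := Bool.rec (motive := fun _ => Nat) 15 66
  (Nat.ble (Nat.mul 102528 (Nat.add a b)) (Nat.shiftLeft (Nat.add c d) 20))
noncomputable def t1n21 (a b c d : Nat) : Nat := Bool.rec (motive := fun _ => Nat) 31 80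
  (Nat.ble (Nat.mul 100352 (Nat.add a b)) (Nat.shiftLeft (Nat.add c d) 20))
noncomputable def t1n22 (a b c d : Nat) : Nat := Bool.rec (motive := fun _ => Nat) (t1n20 a b c d) (t1n21 a b c d)
  (Nat.ble (Nat.mul 413696 c) (Nat.shiftLeft d 20))
noncomputable def t1n23 (a b c d : Nat) : Nat := Bool.rec (motive := fun _ => Nat) (t1n19 a b c d) (t1n22 a b c d)
  (Nat.ble (Nat.mul 71424 (Nat.add a b)) (Nat.shiftLeft (Nat.add c d) 20))
noncomputable def t1n24 (a b c d : Nat) : Nat := Bool.rec (motive := fun _ => Nat) (t1n16 a b c d) (t1n23 a b c d)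
  (Nat.ble (Nat.mul 135168 c) (Nat.shiftLeft d 20))
noncomputable def t1n25 (a b c d : Nat) : Nat := Bool.rec (motive := fun _ => Nat) (t1n7 a b c d) (t1n24 a b c d)
  (Nat.ble (Nat.mul 32704 (Nat.add a b)) (Nat.shiftLeft (Nat.add c d) 20))
noncomputable def t1n26 (a b c d : Nat) : Nat := Bool.rec (motive := fun _ => Nat) 1 57
  (Nat.ble (Nat.mul 245760 (Nat.add a b)) (Nat.shiftLeft (Nat.add c d) 20))
noncomputable def t1n27 (a b c d : Nat) : Nat := Bool.rec (motive := fun _ => Nat) (t1n26 a b c d) 37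
  (Nat.ble (Nat.mul 19456 c) (Nat.shiftLeft d 20))
noncomputable def t1n28 (a b c d : Nat) : Nat := Bool.rec (motive := fun _ => Nat) 18 27
  (Nat.ble (Nat.mul 9216 a) (Nat.shiftLeft d 20))
noncomputable def t1n29 (a b c d : Nat) : Nat := Bool.rec (motive := fun _ => Nat) (t1n27 a b c d) (t1n28 a b c d)
  (Nat.ble (Nat.mul 280064 (Nat.add a b)) (Nat.shiftLeft (Nat.add c d) 20))
noncomputable def t1n30 (a b c d : Nat) : Nat := Bool.rec (motive := fun _ => Nat) 6 68
  (Nat.ble (Nat.mul 24576 c) (Nat.shiftLeft d 20))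
noncomputable def t1n31 (a b c d : Nat) : Nat := Bool.rec (motive := fun _ => Nat) 41 61
  (Nat.ble (Nat.mul 6144 a) (Nat.shiftLeft d 20))
noncomputable def t1n32 (a b c d : Nat) : Nat := Bool.rec (motive := fun _ => Nat) (t1n30 a b c d) (t1n31 a b c d)
  (Nat.ble (Nat.mul 286720 a) (Nat.shiftLeft c 20))
noncomputable def t1n33 (a b c d : Nat) : Nat := Bool.rec (motive := fun _ => Nat) 20 65
  (Nat.ble (Nat.mul 327680 a) (Nat.shiftLeft c 20))
noncomputable def t1n34 (a b c d : Nat) : Nat := Bool.rec (motive := fun _ => Nat) (t1n33 a b c d) 43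
  (Nat.ble (Nat.mul 6144 b) (Nat.shiftLeft d 20))
noncomputable def t1n35 (a b c d : Nat) : Nat := Bool.rec (motive := fun _ => Nat) (t1n32 a b c d) (t1n34 a b c d)
  (Nat.ble (Nat.mul 897024 a) (Nat.shiftLeft b 20))
noncomputable def t1n36 (a b c d : Nat) : Nat := Bool.rec (motive := fun _ => Nat) 34 74
  (Nat.ble (Nat.mul 917504 a) (Nat.shiftLeft b 20))
noncomputable def t1n37 (a b c d : Nat) : Nat := Bool.rec (motive := fun _ => Nat) 10 (t1n36 a b c d)
  (Nat.ble (Nat.mul 253952 (Nat.add a b)) (Nat.shiftLeft (Nat.add c d) 20))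
noncomputable def t1n38 (a b c d : Nat) : Nat := Bool.rec (motive := fun _ => Nat) 22 53
  (Nat.ble (Nat.mul 274944 (Nat.add a b)) (Nat.shiftLeft (Nat.add c d) 20))
noncomputable def t1n39 (a b c d : Nat) : Nat := Bool.rec (motive := fun _ => Nat) (t1n37 a b c d) (t1n38 a b c d)
  (Nat.ble (Nat.mul 9440 b) (Nat.shiftLeft d 20))
noncomputable def t1n40 (a b c d : Nat) : Nat := Bool.rec (motive := fun _ => Nat) (t1n35 a b c d) (t1n39 a b c d)
  (Nat.ble (Nat.mul 391648 a) (Nat.shiftLeft c 20))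
noncomputable def t1n41 (a b c d : Nat) : Nat := Bool.rec (motive := fun _ => Nat) (t1n29 a b c d) (t1n40 a b c d)
  (Nat.ble (Nat.mul 727552 a) (Nat.shiftLeft b 20))
noncomputable def t1n42 (a b c d : Nat) : Nat := Bool.rec (motive := fun _ => Nat) 38 79
  (Nat.ble (Nat.mul 2028 b) (Nat.shiftLeft d 20))
noncomputable def t1n43 (a b c d : Nat) : Nat := Bool.rec (motive := fun _ => Nat) 3 (t1n42 a b c d)
  (Nat.ble (Nat.mul 758528 b) (Nat.shiftLeft c 20))
noncomputable def t1n44 (a b c d : Nat) : Nat := Bool.rec (motive := fun _ => Nat) 17 62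
  (Nat.ble (Nat.mul 804608 b) (Nat.shiftLeft c 20))
noncomputable def t1n45 (a b c d : Nat) : Nat := Bool.rec (motive := fun _ => Nat) 46 81
  (Nat.ble (Nat.mul 828416 b) (Nat.shiftLeft c 20))
noncomputable def t1n46 (a b c d : Nat) : Nat := Bool.rec (motive := fun _ => Nat) (t1n44 a b c d) (t1n45 a b c d)
  (Nat.ble (Nat.mul 30272 b) (Nat.shiftLeft d 20))
noncomputable def t1n47 (a b c d : Nat) : Nat := Bool.rec (motive := fun _ => Nat) (t1n43 a b c d) (t1n46 a b c d)
  (Nat.ble (Nat.mul 9888 b) (Nat.shiftLeft d 20))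
noncomputable def t1n48 (a b c d : Nat) : Nat := Bool.rec (motive := fun _ => Nat) 9 55
  (Nat.ble (Nat.mul 2176 b) (Nat.shiftLeft d 20))
noncomputable def t1n49 (a b c d : Nat) : Nat := Bool.rec (motive := fun _ => Nat) (t1n48 a b c d) 28
  (Nat.ble (Nat.mul 2016896 a) (Nat.shiftLeft (Nat.add b (Nat.add c d)) 20))
noncomputable def t1n50 (a b c d : Nat) : Nat := Bool.rec (motive := fun _ => Nat) (t1n47 a b c d) (t1n49 a b c d)
  (Nat.ble (Nat.mul 1905664 a) (Nat.shiftLeft (Nat.add b (Nat.add c d)) 20))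
noncomputable def t1n51 (a b c d : Nat) : Nat := Bool.rec (motive := fun _ => Nat) (t1n41 a b c d) (t1n50 a b c d)
  (Nat.ble (Nat.mul 640320 a) (Nat.shiftLeft c 20))
noncomputable def t1n52 (a b c d : Nat) : Nat := Bool.rec (motive := fun _ => Nat) 2 56
  (Nat.ble (Nat.mul 885760 a) (Nat.shiftLeft b 20))
noncomputable def t1n53 (a b c d : Nat) : Nat := Bool.rec (motive := fun _ => Nat) 51 71
  (Nat.ble (Nat.mul 70528 b) (Nat.shiftLeft d 20))
noncomputable def t1n54 (a b c d : Nat) : Nat := Bool.rec (motive := fun _ => Nat) 29 (t1n53 a b c d)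
  (Nat.ble (Nat.mul 1290240 a) (Nat.shiftLeft (Nat.add b (Nat.add c d)) 20))
noncomputable def t1n55 (a b c d : Nat) : Nat := Bool.rec (motive := fun _ => Nat) (t1n52 a b c d) (t1n54 a b c d)
  (Nat.ble (Nat.mul 194688 (Nat.add a b)) (Nat.shiftLeft (Nat.add c d) 20))
noncomputable def t1n56 (a b c d : Nat) : Nat := Bool.rec (motive := fun _ => Nat) 14 59
  (Nat.ble (Nat.mul 611328 c) (Nat.shiftLeft d 20))
noncomputable def t1n57 (a b c d : Nat) : Nat := Bool.rec (motive := fun _ => Nat) 49 75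
  (Nat.ble (Nat.mul 540672 c) (Nat.shiftLeft d 20))
noncomputable def t1n58 (a b c d : Nat) : Nat := Bool.rec (motive := fun _ => Nat) 25 (t1n57 a b c d)
  (Nat.ble (Nat.mul 921600 a) (Nat.shiftLeft b 20))
noncomputable def t1n59 (a b c d : Nat) : Nat := Bool.rec (motive := fun _ => Nat) (t1n56 a b c d) (t1n58 a b c d)
  (Nat.ble (Nat.mul 202880 (Nat.add a b)) (Nat.shiftLeft (Nat.add c d) 20))
noncomputable def t1n60 (a b c d : Nat) : Nat := Bool.rec (motive := fun _ => Nat) (t1n55 a b c d) (t1n59 a b c d)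
  (Nat.ble (Nat.mul 323584 c) (Nat.shiftLeft d 20))
noncomputable def t1n61 (a b c d : Nat) : Nat := Bool.rec (motive := fun _ => Nat) 7 47
  (Nat.ble (Nat.mul 73728 a) (Nat.shiftLeft d 20))
noncomputable def t1n62 (a b c d : Nat) : Nat := Bool.rec (motive := fun _ => Nat) 32 69
  (Nat.ble (Nat.mul 77824 a) (Nat.shiftLeft d 20))
noncomputable def t1n63 (a b c d : Nat) : Nat := Bool.rec (motive := fun _ => Nat) (t1n61 a b c d) (t1n62 a b c d)
  (Nat.ble (Nat.mul 720896 b) (Nat.shiftLeft c 20))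
noncomputable def t1n64 (a b c d : Nat) : Nat := Bool.rec (motive := fun _ => Nat) 19 39
  (Nat.ble (Nat.mul 110912 b) (Nat.shiftLeft d 20))
noncomputable def t1n65 (a b c d : Nat) : Nat := Bool.rec (motive := fun _ => Nat) 26 52
  (Nat.ble (Nat.mul 176256 c) (Nat.shiftLeft d 20))
noncomputable def t1n66 (a b c d : Nat) : Nat := Bool.rec (motive := fun _ => Nat) (t1n64 a b c d) (t1n65 a b c d)
  (Nat.ble (Nat.mul 363640 (Nat.add a b)) (Nat.shiftLeft (Nat.add c d) 20))
noncomputable def t1n67 (a b c d : Nat) : Nat := Bool.rec (motive := fun _ => Nat) (t1n63 a b c d) (t1n66 a b c d)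
  (Nat.ble (Nat.mul 1309824 a) (Nat.shiftLeft (Nat.add b (Nat.add c d)) 20))
noncomputable def t1n68 (a b c d : Nat) : Nat := Bool.rec (motive := fun _ => Nat) (t1n60 a b c d) (t1n67 a b c d)
  (Nat.ble (Nat.mul 470784 b) (Nat.shiftLeft c 20))
noncomputable def t1n69 (a b c d : Nat) : Nat := Bool.rec (motive := fun _ => Nat) 5 58
  (Nat.ble (Nat.mul 1387264 a) (Nat.shiftLeft (Nat.add b (Nat.add c d)) 20))
noncomputable def t1n70 (a b c d : Nat) : Nat := Bool.rec (motive := fun _ => Nat) 35 54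
  (Nat.ble (Nat.mul 351232 b) (Nat.shiftLeft d 20))
noncomputable def t1n71 (a b c d : Nat) : Nat := Bool.rec (motive := fun _ => Nat) (t1n70 a b c d) 42
  (Nat.ble (Nat.mul 1533952 a) (Nat.shiftLeft (Nat.add b (Nat.add c d)) 20))
noncomputable def t1n72 (a b c d : Nat) : Nat := Bool.rec (motive := fun _ => Nat) (t1n69 a b c d) (t1n71 a b c d)
  (Nat.ble (Nat.mul 435840 b) (Nat.shiftLeft c 20))
noncomputable def t1n73 (a b c d : Nat) : Nat := Bool.rec (motive := fun _ => Nat) 13 73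
  (Nat.ble (Nat.mul 456704 c) (Nat.shiftLeft d 20))
noncomputable def t1n74 (a b c d : Nat) : Nat := Bool.rec (motive := fun _ => Nat) 48 76
  (Nat.ble (Nat.mul 204544 a) (Nat.shiftLeft d 20))
noncomputable def t1n75 (a b c d : Nat) : Nat := Bool.rec (motive := fun _ => Nat) (t1n73 a b c d) (t1n74 a b c d)
  (Nat.ble (Nat.mul 1328384 a) (Nat.shiftLeft (Nat.add b (Nat.add c d)) 20))
noncomputable def t1n76 (a b c d : Nat) : Nat := Bool.rec (motive := fun _ => Nat) 21 70
  (Nat.ble (Nat.mul 786432 c) (Nat.shiftLeft d 20))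
noncomputable def t1n77 (a b c d : Nat) : Nat := Bool.rec (motive := fun _ => Nat) (t1n75 a b c d) (t1n76 a b c d)
  (Nat.ble (Nat.mul 473768 b) (Nat.shiftLeft d 20))
noncomputable def t1n78 (a b c d : Nat) : Nat := Bool.rec (motive := fun _ => Nat) 16 45
  (Nat.ble (Nat.mul 497920 a) (Nat.shiftLeft d 20))
noncomputable def t1n79 (a b c d : Nat) : Nat := Bool.rec (motive := fun _ => Nat) (t1n77 a b c d) (t1n78 a b c d)
  (Nat.ble (Nat.mul 1743616 a) (Nat.shiftLeft (Nat.add b (Nat.add c d)) 20))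
noncomputable def t1n80 (a b c d : Nat) : Nat := Bool.rec (motive := fun _ => Nat) (t1n72 a b c d) (t1n79 a b c d)
  (Nat.ble (Nat.mul 626688 b) (Nat.shiftLeft c 20))
noncomputable def t1n81 (a b c d : Nat) : Nat := Bool.rec (motive := fun _ => Nat) (t1n68 a b c d) (t1n80 a b c d)
  (Nat.ble (Nat.mul 227072 b) (Nat.shiftLeft d 20))
noncomputable def t1n82 (a b c d : Nat) : Nat := Bool.rec (motive := fun _ => Nat) (t1n51 a b c d) (t1n81 a b c d)
  (Nat.ble (Nat.mul 84304 c) (Nat.shiftLeft d 20))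
noncomputable def t1 (a b c d : Nat) : Nat := Bool.rec (motive := fun _ => Nat) (t1n25 a b c d) (t1n82 a b c d)
  (Nat.ble (Nat.mul 132992 (Nat.add a b)) (Nat.shiftLeft (Nat.add c d) 20))

noncomputable def t2n1 (a b c d : Nat) : Nat := Bool.rec (motive := fun _ => Nat) 0 29
  (Nat.ble (Nat.mul 5864 a) (Nat.shiftLeft b 20))
noncomputable def t2n2 (a b c d : Nat) : Nat := Bool.rec (motive := fun _ => Nat) 10 39
  (Nat.ble (Nat.mul 46080 a) (Nat.shiftLeft (Nat.add b (Nat.add c d)) 20))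
noncomputable def t2n3 (a b c d : Nat) : Nat := Bool.rec (motive := fun _ => Nat) 23 44
  (Nat.ble (Nat.mul 49896 a) (Nat.shiftLeft (Nat.add b (Nat.add c d)) 20))
noncomputable def t2n4 (a b c d : Nat) : Nat := Bool.rec (motive := fun _ => Nat) (t2n2 a b c d) (t2n3 a b c d)
  (Nat.ble (Nat.mul 185856 b) (Nat.shiftLeft c 20))
noncomputable def t2n5 (a b c d : Nat) : Nat := Bool.rec (motive := fun _ => Nat) (t2n1 a b c d) (t2n4 a b c d)
  (Nat.ble (Nat.mul 26304 a) (Nat.shiftLeft (Nat.add b (Nat.add c d)) 20))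
noncomputable def t2n6 (a b c d : Nat) : Nat := Bool.rec (motive := fun _ => Nat) 38 60
  (Nat.ble (Nat.mul 6048 (Nat.add a b)) (Nat.shiftLeft (Nat.add c d) 20))
noncomputable def t2n7 (a b c d : Nat) : Nat := Bool.rec (motive := fun _ => Nat) 3 (t2n6 a b c d)
  (Nat.ble (Nat.mul 134272 a) (Nat.shiftLeft (Nat.add b (Nat.add c d)) 20))
noncomputable def t2n8 (a b c d : Nat) : Nat := Bool.rec (motive := fun _ => Nat) 14 57
  (Nat.ble (Nat.mul 256576 a) (Nat.shiftLeft b 20))
noncomputable def t2n9 (a b c d : Nat) : Nat := Bool.rec (motive := fun _ => Nat) (t2n8 a b c d) 28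
  (Nat.ble (Nat.mul 34688 b) (Nat.shiftLeft c 20))
noncomputable def t2n10 (a b c d : Nat) : Nat := Bool.rec (motive := fun _ => Nat) (t2n7 a b c d) (t2n9 a b c d)
  (Nat.ble (Nat.mul 189920 a) (Nat.shiftLeft (Nat.add b (Nat.add c d)) 20))
noncomputable def t2n11 (a b c d : Nat) : Nat := Bool.rec (motive := fun _ => Nat) 8 48
  (Nat.ble (Nat.mul 413696 b) (Nat.shiftLeft c 20))
noncomputable def t2n12 (a b c d : Nat) : Nat := Bool.rec (motive := fun _ => Nat) (t2n11 a b c d) 41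
  (Nat.ble (Nat.mul 70144 b) (Nat.shiftLeft d 20))
noncomputable def t2n13 (a b c d : Nat) : Nat := Bool.rec (motive := fun _ => Nat) 17 34
  (Nat.ble (Nat.mul 408320 b) (Nat.shiftLeft c 20))
noncomputable def t2n14 (a b c d : Nat) : Nat := Bool.rec (motive := fun _ => Nat) (t2n13 a b c d) 26
  (Nat.ble (Nat.mul 60992 b) (Nat.shiftLeft d 20))
noncomputable def t2n15 (a b c d : Nat) : Nat := Bool.rec (motive := fun _ => Nat) (t2n12 a b c d) (t2n14 a b c d)
  (Nat.ble (Nat.mul 184044 a) (Nat.shiftLeft (Nat.add b (Nat.add c d)) 20))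
noncomputable def t2n16 (a b c d : Nat) : Nat := Bool.rec (motive := fun _ => Nat) (t2n10 a b c d) (t2n15 a b c d)
  (Nat.ble (Nat.mul 148544 b) (Nat.shiftLeft c 20))
noncomputable def t2n17 (a b c d : Nat) : Nat := Bool.rec (motive := fun _ => Nat) (t2n5 a b c d) (t2n16 a b c d)
  (Nat.ble (Nat.mul 86832 a) (Nat.shiftLeft (Nat.add b (Nat.add c d)) 20))
noncomputable def t2n18 (a b c d : Nat) : Nat := Bool.rec (motive := fun _ => Nat) 1 50
  (Nat.ble (Nat.mul 401664 a) (Nat.shiftLeft b 20))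
noncomputable def t2n19 (a b c d : Nat) : Nat := Bool.rec (motive := fun _ => Nat) 19 43
  (Nat.ble (Nat.mul 4384 (Nat.add a b)) (Nat.shiftLeft (Nat.add c d) 20))
noncomputable def t2n20 (a b c d : Nat) : Nat := Bool.rec (motive := fun _ => Nat) (t2n18 a b c d) (t2n19 a b c d)
  (Nat.ble (Nat.mul 480000 a) (Nat.shiftLeft (Nat.add b (Nat.add c d)) 20))
noncomputable def t2n21 (a b c d : Nat) : Nat := Bool.rec (motive := fun _ => Nat) 42 58
  (Nat.ble (Nat.mul 123392 c) (Nat.shiftLeft d 20))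
noncomputable def t2n22 (a b c d : Nat) : Nat := Bool.rec (motive := fun _ => Nat) 11 (t2n21 a b c d)
  (Nat.ble (Nat.mul 27040 (Nat.add a b)) (Nat.shiftLeft (Nat.add c d) 20))
noncomputable def t2n23 (a b c d : Nat) : Nat := Bool.rec (motive := fun _ => Nat) 40 53
  (Nat.ble (Nat.mul 102656 c) (Nat.shiftLeft d 20))
noncomputable def t2n24 (a b c d : Nat) : Nat := Bool.rec (motive := fun _ => Nat) 20 (t2n23 a b c d)
  (Nat.ble (Nat.mul 28624 (Nat.add a b)) (Nat.shiftLeft (Nat.add c d) 20))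
noncomputable def t2n25 (a b c d : Nat) : Nat := Bool.rec (motive := fun _ => Nat) (t2n22 a b c d) (t2n24 a b c d)
  (Nat.ble (Nat.mul 442816 a) (Nat.shiftLeft b 20))
noncomputable def t2n26 (a b c d : Nat) : Nat := Bool.rec (motive := fun _ => Nat) (t2n20 a b c d) (t2n25 a b c d)
  (Nat.ble (Nat.mul 36072 b) (Nat.shiftLeft c 20))
noncomputable def t2n27 (a b c d : Nat) : Nat := Bool.rec (motive := fun _ => Nat) 4 62
  (Nat.ble (Nat.mul 758528 a) (Nat.shiftLeft b 20))
noncomputable def t2n28 (a b c d : Nat) : Nat := Bool.rec (motive := fun _ => Nat) (t2n27 a b c d) 49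
  (Nat.ble (Nat.mul 3124 (Nat.add a b)) (Nat.shiftLeft (Nat.add c d) 20))
noncomputable def t2n29 (a b c d : Nat) : Nat := Bool.rec (motive := fun _ => Nat) 16 65
  (Nat.ble (Nat.mul 979016 a) (Nat.shiftLeft b 20))
noncomputable def t2n30 (a b c d : Nat) : Nat := Bool.rec (motive := fun _ => Nat) (t2n29 a b c d) 25
  (Nat.ble (Nat.mul 2208 (Nat.add a b)) (Nat.shiftLeft (Nat.add c d) 20))
noncomputable def t2n31 (a b c d : Nat) : Nat := Bool.rec (motive := fun _ => Nat) (t2n28 a b c d) (t2n30 a b c d)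
  (Nat.ble (Nat.mul 880128 a) (Nat.shiftLeft b 20))
noncomputable def t2n32 (a b c d : Nat) : Nat := Bool.rec (motive := fun _ => Nat) 37 55
  (Nat.ble (Nat.mul 73152 c) (Nat.shiftLeft d 20))
noncomputable def t2n33 (a b c d : Nat) : Nat := Bool.rec (motive := fun _ => Nat) 7 (t2n32 a b c d)
  (Nat.ble (Nat.mul 864200 a) (Nat.shiftLeft b 20))
noncomputable def t2n34 (a b c d : Nat) : Nat := Bool.rec (motive := fun _ => Nat) 24 47
  (Nat.ble (Nat.mul 849056 a) (Nat.shiftLeft b 20))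
noncomputable def t2n35 (a b c d : Nat) : Nat := Bool.rec (motive := fun _ => Nat) (t2n33 a b c d) (t2n34 a b c d)
  (Nat.ble (Nat.mul 60896 b) (Nat.shiftLeft c 20))
noncomputable def t2n36 (a b c d : Nat) : Nat := Bool.rec (motive := fun _ => Nat) (t2n31 a b c d) (t2n35 a b c d)
  (Nat.ble (Nat.mul 9757 (Nat.add a b)) (Nat.shiftLeft (Nat.add c d) 20))
noncomputable def t2n37 (a b c d : Nat) : Nat := Bool.rec (motive := fun _ => Nat) (t2n26 a b c d) (t2n36 a b c d)
  (Nat.ble (Nat.mul 668416 a) (Nat.shiftLeft b 20))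
noncomputable def t2n38 (a b c d : Nat) : Nat := Bool.rec (motive := fun _ => Nat) 2 35
  (Nat.ble (Nat.mul 348612 a) (Nat.shiftLeft b 20))
noncomputable def t2n39 (a b c d : Nat) : Nat := Bool.rec (motive := fun _ => Nat) 22 31
  (Nat.ble (Nat.mul 337024 a) (Nat.shiftLeft b 20))
noncomputable def t2n40 (a b c d : Nat) : Nat := Bool.rec (motive := fun _ => Nat) (t2n38 a b c d) (t2n39 a b c d)
  (Nat.ble (Nat.mul 124672 (Nat.add a b)) (Nat.shiftLeft (Nat.add c d) 20))
noncomputable def t2n41 (a b c d : Nat) : Nat := Bool.rec (motive := fun _ => Nat) 13 59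
  (Nat.ble (Nat.mul 335936 a) (Nat.shiftLeft b 20))
noncomputable def t2n42 (a b c d : Nat) : Nat := Bool.rec (motive := fun _ => Nat) 30 52
  (Nat.ble (Nat.mul 294080 a) (Nat.shiftLeft b 20))
noncomputable def t2n43 (a b c d : Nat) : Nat := Bool.rec (motive := fun _ => Nat) (t2n41 a b c d) (t2n42 a b c d)
  (Nat.ble (Nat.mul 140480 (Nat.add a b)) (Nat.shiftLeft (Nat.add c d) 20))
noncomputable def t2n44 (a b c d : Nat) : Nat := Bool.rec (motive := fun _ => Nat) (t2n40 a b c d) (t2n43 a b c d)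
  (Nat.ble (Nat.mul 110336 c) (Nat.shiftLeft d 20))
noncomputable def t2n45 (a b c d : Nat) : Nat := Bool.rec (motive := fun _ => Nat) 27 61
  (Nat.ble (Nat.mul 87392 (Nat.add a b)) (Nat.shiftLeft (Nat.add c d) 20))
noncomputable def t2n46 (a b c d : Nat) : Nat := Bool.rec (motive := fun _ => Nat) 6 (t2n45 a b c d)
  (Nat.ble (Nat.mul 920448 a) (Nat.shiftLeft (Nat.add b (Nat.add c d)) 20))
noncomputable def t2n47 (a b c d : Nat) : Nat := Bool.rec (motive := fun _ => Nat) 21 64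
  (Nat.ble (Nat.mul 138752 (Nat.add a b)) (Nat.shiftLeft (Nat.add c d) 20))
noncomputable def t2n48 (a b c d : Nat) : Nat := Bool.rec (motive := fun _ => Nat) (t2n47 a b c d) 32
  (Nat.ble (Nat.mul 728320 a) (Nat.shiftLeft b 20))
noncomputable def t2n49 (a b c d : Nat) : Nat := Bool.rec (motive := fun _ => Nat) (t2n46 a b c d) (t2n48 a b c d)
  (Nat.ble (Nat.mul 259456 b) (Nat.shiftLeft c 20))
noncomputable def t2n50 (a b c d : Nat) : Nat := Bool.rec (motive := fun _ => Nat) 45 63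
  (Nat.ble (Nat.mul 72448 a) (Nat.shiftLeft d 20))
noncomputable def t2n51 (a b c d : Nat) : Nat := Bool.rec (motive := fun _ => Nat) 15 (t2n50 a b c d)
  (Nat.ble (Nat.mul 132736 (Nat.add a b)) (Nat.shiftLeft (Nat.add c d) 20))
noncomputable def t2n52 (a b c d : Nat) : Nat := Bool.rec (motive := fun _ => Nat) (t2n49 a b c d) (t2n51 a b c d)
  (Nat.ble (Nat.mul 18829 b) (Nat.shiftLeft d 20))
noncomputable def t2n53 (a b c d : Nat) : Nat := Bool.rec (motive := fun _ => Nat) (t2n44 a b c d) (t2n52 a b c d)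
  (Nat.ble (Nat.mul 525376 a) (Nat.shiftLeft b 20))
noncomputable def t2n54 (a b c d : Nat) : Nat := Bool.rec (motive := fun _ => Nat) 46 56
  (Nat.ble (Nat.mul 928768 a) (Nat.shiftLeft (Nat.add b (Nat.add c d)) 20))
noncomputable def t2n55 (a b c d : Nat) : Nat := Bool.rec (motive := fun _ => Nat) 5 (t2n54 a b c d)
  (Nat.ble (Nat.mul 748288 b) (Nat.shiftLeft c 20))
noncomputable def t2n56 (a b c d : Nat) : Nat := Bool.rec (motive := fun _ => Nat) 18 54
  (Nat.ble (Nat.mul 491520 b) (Nat.shiftLeft c 20))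
noncomputable def t2n57 (a b c d : Nat) : Nat := Bool.rec (motive := fun _ => Nat) (t2n55 a b c d) (t2n56 a b c d)
  (Nat.ble (Nat.mul 717824 a) (Nat.shiftLeft b 20))
noncomputable def t2n58 (a b c d : Nat) : Nat := Bool.rec (motive := fun _ => Nat) 12 51
  (Nat.ble (Nat.mul 871744 a) (Nat.shiftLeft b 20))
noncomputable def t2n59 (a b c d : Nat) : Nat := Bool.rec (motive := fun _ => Nat) (t2n58 a b c d) 33
  (Nat.ble (Nat.mul 749824 a) (Nat.shiftLeft c 20))
noncomputable def t2n60 (a b c d : Nat) : Nat := Bool.rec (motive := fun _ => Nat) (t2n57 a b c d) (t2n59 a b c d)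
  (Nat.ble (Nat.mul 552704 a) (Nat.shiftLeft c 20))
noncomputable def t2n61 (a b c d : Nat) : Nat := Bool.rec (motive := fun _ => Nat) 9 36
  (Nat.ble (Nat.mul 142976 a) (Nat.shiftLeft d 20))
noncomputable def t2n62 (a b c d : Nat) : Nat := Bool.rec (motive := fun _ => Nat) (t2n60 a b c d) (t2n61 a b c d)
  (Nat.ble (Nat.mul 38944 b) (Nat.shiftLeft d 20))
noncomputable def t2n63 (a b c d : Nat) : Nat := Bool.rec (motive := fun _ => Nat) (t2n53 a b c d) (t2n62 a b c d)
  (Nat.ble (Nat.mul 317320 a) (Nat.shiftLeft c 20))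
noncomputable def t2n64 (a b c d : Nat) : Nat := Bool.rec (motive := fun _ => Nat) (t2n37 a b c d) (t2n63 a b c d)
  (Nat.ble (Nat.mul 57826 (Nat.add a b)) (Nat.shiftLeft (Nat.add c d) 20))
noncomputable def t2 (a b c d : Nat) : Nat := Bool.rec (motive := fun _ => Nat) (t2n17 a b c d) (t2n64 a b c d)
  (Nat.ble (Nat.mul 322704 a) (Nat.shiftLeft (Nat.add b (Nat.add c d)) 20))

noncomputable def t3n1 (a b c d : Nat) : Nat := Bool.rec (motive := fun _ => Nat) 0 44
  (Nat.ble (Nat.mul 282 a) (Nat.shiftLeft (Nat.add b (Nat.add c d)) 20))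
noncomputable def t3n2 (a b c d : Nat) : Nat := Bool.rec (motive := fun _ => Nat) (t3n1 a b c d) 21
  (Nat.ble (Nat.mul 744 a) (Nat.shiftLeft (Nat.add b (Nat.add c d)) 20))
noncomputable def t3n3 (a b c d : Nat) : Nat := Bool.rec (motive := fun _ => Nat) 14 23
  (Nat.ble (Nat.mul 3449 a) (Nat.shiftLeft (Nat.add b (Nat.add c d)) 20))
noncomputable def t3n4 (a b c d : Nat) : Nat := Bool.rec (motive := fun _ => Nat) (t3n2 a b c d) (t3n3 a b c d)
  (Nat.ble (Nat.mul 1854 a) (Nat.shiftLeft (Nat.add b (Nat.add c d)) 20))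
noncomputable def t3n5 (a b c d : Nat) : Nat := Bool.rec (motive := fun _ => Nat) 7 25
  (Nat.ble (Nat.mul 8956 a) (Nat.shiftLeft (Nat.add b (Nat.add c d)) 20))
noncomputable def t3n6 (a b c d : Nat) : Nat := Bool.rec (motive := fun _ => Nat) 17 38
  (Nat.ble (Nat.mul 17400 a) (Nat.shiftLeft (Nat.add b (Nat.add c d)) 20))
noncomputable def t3n7 (a b c d : Nat) : Nat := Bool.rec (motive := fun _ => Nat) (t3n5 a b c d) (t3n6 a b c d)
  (Nat.ble (Nat.mul 12842 a) (Nat.shiftLeft (Nat.add b (Nat.add c d)) 20))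
noncomputable def t3n8 (a b c d : Nat) : Nat := Bool.rec (motive := fun _ => Nat) (t3n4 a b c d) (t3n7 a b c d)
  (Nat.ble (Nat.mul 5814 a) (Nat.shiftLeft (Nat.add b (Nat.add c d)) 20))
noncomputable def t3n9 (a b c d : Nat) : Nat := Bool.rec (motive := fun _ => Nat) 3 29
  (Nat.ble (Nat.mul 30080 a) (Nat.shiftLeft (Nat.add b (Nat.add c d)) 20))
noncomputable def t3n10 (a b c d : Nat) : Nat := Bool.rec (motive := fun _ => Nat) 12 31
  (Nat.ble (Nat.mul 49440 a) (Nat.shiftLeft (Nat.add b (Nat.add c d)) 20))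
noncomputable def t3n11 (a b c d : Nat) : Nat := Bool.rec (motive := fun _ => Nat) (t3n9 a b c d) (t3n10 a b c d)
  (Nat.ble (Nat.mul 39264 a) (Nat.shiftLeft (Nat.add b (Nat.add c d)) 20))
noncomputable def t3n12 (a b c d : Nat) : Nat := Bool.rec (motive := fun _ => Nat) 6 35
  (Nat.ble (Nat.mul 76752 a) (Nat.shiftLeft (Nat.add b (Nat.add c d)) 20))
noncomputable def t3n13 (a b c d : Nat) : Nat := Bool.rec (motive := fun _ => Nat) 16 32
  (Nat.ble (Nat.mul 111284 a) (Nat.shiftLeft (Nat.add b (Nat.add c d)) 20))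
noncomputable def t3n14 (a b c d : Nat) : Nat := Bool.rec (motive := fun _ => Nat) (t3n12 a b c d) (t3n13 a b c d)
  (Nat.ble (Nat.mul 92766 a) (Nat.shiftLeft (Nat.add b (Nat.add c d)) 20))
noncomputable def t3n15 (a b c d : Nat) : Nat := Bool.rec (motive := fun _ => Nat) (t3n11 a b c d) (t3n14 a b c d)
  (Nat.ble (Nat.mul 62376 a) (Nat.shiftLeft (Nat.add b (Nat.add c d)) 20))
noncomputable def t3n16 (a b c d : Nat) : Nat := Bool.rec (motive := fun _ => Nat) (t3n8 a b c d) (t3n15 a b c d)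
  (Nat.ble (Nat.mul 22860 a) (Nat.shiftLeft (Nat.add b (Nat.add c d)) 20))
noncomputable def t3n17 (a b c d : Nat) : Nat := Bool.rec (motive := fun _ => Nat) 26 43
  (Nat.ble (Nat.mul 204800 b) (Nat.shiftLeft c 20))
noncomputable def t3n18 (a b c d : Nat) : Nat := Bool.rec (motive := fun _ => Nat) 1 (t3n17 a b c d)
  (Nat.ble (Nat.mul 160528 a) (Nat.shiftLeft (Nat.add b (Nat.add c d)) 20))
noncomputable def t3n19 (a b c d : Nat) : Nat := Bool.rec (motive := fun _ => Nat) 10 42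
  (Nat.ble (Nat.mul 202752 b) (Nat.shiftLeft c 20))
noncomputable def t3n20 (a b c d : Nat) : Nat := Bool.rec (motive := fun _ => Nat) 22 39
  (Nat.ble (Nat.mul 209920 b) (Nat.shiftLeft c 20))
noncomputable def t3n21 (a b c d : Nat) : Nat := Bool.rec (motive := fun _ => Nat) (t3n19 a b c d) (t3n20 a b c d)
  (Nat.ble (Nat.mul 220640 a) (Nat.shiftLeft (Nat.add b (Nat.add c d)) 20))
noncomputable def t3n22 (a b c d : Nat) : Nat := Bool.rec (motive := fun _ => Nat) (t3n18 a b c d) (t3n21 a b c d)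
  (Nat.ble (Nat.mul 188848 a) (Nat.shiftLeft (Nat.add b (Nat.add c d)) 20))
noncomputable def t3n23 (a b c d : Nat) : Nat := Bool.rec (motive := fun _ => Nat) 4 34
  (Nat.ble (Nat.mul 42528 (Nat.add a b)) (Nat.shiftLeft (Nat.add c d) 20))
noncomputable def t3n24 (a b c d : Nat) : Nat := Bool.rec (motive := fun _ => Nat) (t3n23 a b c d) 20
  (Nat.ble (Nat.mul 290176 a) (Nat.shiftLeft b 20))
noncomputable def t3n25 (a b c d : Nat) : Nat := Bool.rec (motive := fun _ => Nat) 11 36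
  (Nat.ble (Nat.mul 394496 a) (Nat.shiftLeft (Nat.add b (Nat.add c d)) 20))
noncomputable def t3n26 (a b c d : Nat) : Nat := Bool.rec (motive := fun _ => Nat) (t3n25 a b c d) 19
  (Nat.ble (Nat.mul 200704 b) (Nat.shiftLeft c 20))
noncomputable def t3n27 (a b c d : Nat) : Nat := Bool.rec (motive := fun _ => Nat) (t3n24 a b c d) (t3n26 a b c d)
  (Nat.ble (Nat.mul 348992 a) (Nat.shiftLeft (Nat.add b (Nat.add c d)) 20))
noncomputable def t3n28 (a b c d : Nat) : Nat := Bool.rec (motive := fun _ => Nat) (t3n22 a b c d) (t3n27 a b c d)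
  (Nat.ble (Nat.mul 258864 a) (Nat.shiftLeft (Nat.add b (Nat.add c d)) 20))
noncomputable def t3n29 (a b c d : Nat) : Nat := Bool.rec (motive := fun _ => Nat) 2 40
  (Nat.ble (Nat.mul 100352 b) (Nat.shiftLeft c 20))
noncomputable def t3n30 (a b c d : Nat) : Nat := Bool.rec (motive := fun _ => Nat) (t3n29 a b c d) 30
  (Nat.ble (Nat.mul 495088 a) (Nat.shiftLeft b 20))
noncomputable def t3n31 (a b c d : Nat) : Nat := Bool.rec (motive := fun _ => Nat) 15 28
  (Nat.ble (Nat.mul 630368 a) (Nat.shiftLeft (Nat.add b (Nat.add c d)) 20))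
noncomputable def t3n32 (a b c d : Nat) : Nat := Bool.rec (motive := fun _ => Nat) (t3n30 a b c d) (t3n31 a b c d)
  (Nat.ble (Nat.mul 553824 a) (Nat.shiftLeft b 20))
noncomputable def t3n33 (a b c d : Nat) : Nat := Bool.rec (motive := fun _ => Nat) 8 41
  (Nat.ble (Nat.mul 572032 a) (Nat.shiftLeft (Nat.add b (Nat.add c d)) 20))
noncomputable def t3n34 (a b c d : Nat) : Nat := Bool.rec (motive := fun _ => Nat) 18 37
  (Nat.ble (Nat.mul 308736 a) (Nat.shiftLeft c 20))
noncomputable def t3n35 (a b c d : Nat) : Nat := Bool.rec (motive := fun _ => Nat) (t3n33 a b c d) (t3n34 a b c d)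
  (Nat.ble (Nat.mul 701696 a) (Nat.shiftLeft (Nat.add b (Nat.add c d)) 20))
noncomputable def t3n36 (a b c d : Nat) : Nat := Bool.rec (motive := fun _ => Nat) (t3n32 a b c d) (t3n35 a b c d)
  (Nat.ble (Nat.mul 125408 a) (Nat.shiftLeft c 20))
noncomputable def t3n37 (a b c d : Nat) : Nat := Bool.rec (motive := fun _ => Nat) 33 45
  (Nat.ble (Nat.mul 55296 a) (Nat.shiftLeft c 20))
noncomputable def t3n38 (a b c d : Nat) : Nat := Bool.rec (motive := fun _ => Nat) 5 (t3n37 a b c d)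
  (Nat.ble (Nat.mul 772480 a) (Nat.shiftLeft b 20))
noncomputable def t3n39 (a b c d : Nat) : Nat := Bool.rec (motive := fun _ => Nat) 13 27
  (Nat.ble (Nat.mul 951808 a) (Nat.shiftLeft b 20))
noncomputable def t3n40 (a b c d : Nat) : Nat := Bool.rec (motive := fun _ => Nat) (t3n38 a b c d) (t3n39 a b c d)
  (Nat.ble (Nat.mul 863488 a) (Nat.shiftLeft b 20))
noncomputable def t3n41 (a b c d : Nat) : Nat := Bool.rec (motive := fun _ => Nat) 9 24
  (Nat.ble (Nat.mul 457472 a) (Nat.shiftLeft c 20))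
noncomputable def t3n42 (a b c d : Nat) : Nat := Bool.rec (motive := fun _ => Nat) (t3n40 a b c d) (t3n41 a b c d)
  (Nat.ble (Nat.mul 197504 a) (Nat.shiftLeft c 20))
noncomputable def t3n43 (a b c d : Nat) : Nat := Bool.rec (motive := fun _ => Nat) (t3n36 a b c d) (t3n42 a b c d)
  (Nat.ble (Nat.mul 694528 a) (Nat.shiftLeft b 20))
noncomputable def t3n44 (a b c d : Nat) : Nat := Bool.rec (motive := fun _ => Nat) (t3n28 a b c d) (t3n43 a b c d)
  (Nat.ble (Nat.mul 448064 a) (Nat.shiftLeft (Nat.add b (Nat.add c d)) 20))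
noncomputable def t3 (a b c d : Nat) : Nat := Bool.rec (motive := fun _ => Nat) (t3n16 a b c d) (t3n44 a b c d)
  (Nat.ble (Nat.mul 133720 a) (Nat.shiftLeft (Nat.add b (Nat.add c d)) 20))

def X0 : List It :=
  [⟨0, 0, 0, 0, 71861401, 8351, 2866, 645⟩, ⟨0, 0, 0, 0, 88401644, 11831339, 793292, 51743⟩, ⟨0,
  0, 0, 0, 47737430, 21424375, 253349, 20559⟩, ⟨0, 0, 0, 0, 131796996, 3113300, 365032, 44308⟩,
  ⟨0, 0, 0, 0, 57078409, 14826581, 456375, 28216⟩, ⟨0, 0, 0, 0, 48048840, 33622631, 486069,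
  25886⟩, ⟨0, 0, 0, 0, 95397154, 5968522, 557368, 48770⟩, ⟨0, 0, 0, 0, 182834614, 1087458,
  277733, 38450⟩, ⟨0, 0, 0, 0, 7608817, 2363093, 1369731, 37257⟩, ⟨0, 0, 0, 0, 7119815, 5813350,
  2113642, 54156⟩, ⟨0, 0, 0, 0, 69816483, 13524293, 279309, 23568⟩, ⟨0, 0, 0, 0, 55324956,
  19460720, 324191, 23982⟩, ⟨0, 0, 0, 0, 107217836, 4246273, 441700, 45656⟩, ⟨0, 0, 0, 0,
  48234189, 41640821, 525963, 19979⟩, ⟨0, 0, 0, 0, 394576684, 892038, 209771, 29455⟩, ⟨0, 0, 0,
  0, 59205492, 33448435, 189349, 11040⟩, ⟨0, 0, 0, 0, 88959044, 8237431, 614206, 47752⟩, ⟨0, 0,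
  0, 0, 138158369, 1825479, 284093, 41012⟩, ⟨0, 0, 0, 0, 7471561, 4134075, 1576805, 69474⟩, ⟨0,
  0, 0, 0, 12337611, 3226687, 1472593, 50131⟩, ⟨0, 0, 0, 0, 69475126, 21134990, 233519, 18396⟩,
  ⟨0, 0, 0, 0, 328734389, 374209, 85353, 15142⟩, ⟨0, 0, 0, 0, 71598429, 16241025, 307778, 28163⟩,
  ⟨0, 0, 0, 0, 270063861, 1026349, 242600, 34690⟩, ⟨0, 0, 0, 0, 4219398, 3533122, 2584598,
  53242⟩, ⟨0, 0, 0, 0, 197240700, 1917231, 282098, 40807⟩, ⟨0, 0, 0, 0, 59349643, 9807687,
  235947, 24870⟩, ⟨0, 0, 0, 0, 57718581, 55147047, 465025, 32619⟩, ⟨0, 0, 0, 0, 51258798,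
  32135540, 757877, 37277⟩, ⟨0, 0, 0, 0, 130177821, 4032236, 445293, 47178⟩, ⟨0, 0, 0, 0,
  53597101, 26849619, 440773, 26986⟩, ⟨0, 0, 0, 0, 118290181, 5962266, 533966, 51187⟩, ⟨0, 0, 0,
  0, 87156510, 9591815, 741936, 48970⟩, ⟨0, 0, 0, 0, 49324685, 38530360, 231063, 14787⟩, ⟨0, 0,
  0, 0, 15904390, 3167926, 1479047, 59949⟩, ⟨0, 0, 0, 0, 89111574, 6848399, 559346, 44452⟩, ⟨0,
  0, 0, 0, 58473948, 23103029, 360163, 23895⟩, ⟨0, 0, 0, 0, 6683375, 3460272, 2647206, 59578⟩,
  ⟨0, 0, 0, 0, 131810841, 2344379, 335090, 40103⟩, ⟨0, 0, 0, 0, 9953161, 1568742, 728796, 29448⟩,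
  ⟨0, 0, 0, 0, 10001644, 4036046, 816206, 42888⟩, ⟨0, 0, 0, 0, 7164740, 2900715, 1483638, 36618⟩,
  ⟨0, 0, 0, 0, 9034625, 1220527, 556231, 26686⟩, ⟨0, 0, 0, 0, 10141537, 1163152, 550027, 26364⟩,
  ⟨0, 0, 0, 0, 134550707, 63831, 14000, 2677⟩, ⟨0, 0, 0, 0, 3480596, 2704212, 384971, 14253⟩, ⟨0,
  0, 0, 0, 3591, 3591, 3591, 3591⟩]

def X1 : List It :=
  [⟨35, 262121, 262138, 262144, 11862, 71864912, 71870397, 71872618⟩, ⟨32242, 231981, 260401,
  262144, 12676374, 89246679, 100284726, 101026275⟩, ⟨81589, 181527, 261361, 262144, 21698283,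
  48011338, 69182364, 69415154⟩, ⟨6412, 256494, 261596, 262144, 3522640, 132206336, 134954604,
  135275328⟩, ⟨54868, 208924, 260748, 262144, 15311172, 57563000, 71933206, 72361365⟩, ⟨108722,
  154958, 260810, 262144, 34134586, 48560795, 81697357, 82157540⟩, ⟨16287, 247353, 260964,
  262144, 6574660, 96003292, 101414446, 101923044⟩, ⟨1793, 260784, 261846, 262144, 1403641,
  183150797, 183960522, 184199805⟩, ⟨86137, 208675, 231756, 262144, 3770081, 9015805, 10009167,
  11341641⟩, ⟨138606, 161573, 226579, 262144, 7981148, 9287613, 12987321, 15046807⟩, ⟨42790,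
  220246, 261434, 262144, 13827170, 70119360, 83364344, 83620085⟩, ⟨68695, 194582, 261216,
  262144, 19808893, 55673129, 74809658, 75109867⟩, ⟨10561, 252682, 261314, 262144, 4733629,
  107705192, 111509765, 111905809⟩, ⟨122273, 141325, 260829, 262144, 42186763, 48780131,
  89894989, 90400973⟩, ⟨651, 261641, 262042, 262144, 1131264, 394815910, 395498177, 395678493⟩,
  ⟨94766, 167895, 261702, 262144, 33648824, 59405881, 92664967, 92843276⟩, ⟨23194, 240625,
  260789, 262144, 8899389, 89621002, 97244227, 97810681⟩, ⟨3697, 259038, 261744, 262144, 2150584,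
  138483474, 140024860, 140267941⟩, ⟨114159, 181305, 232519, 262144, 5780354, 9117840, 11675110,
  13182441⟩, ⟨71993, 213675, 240662, 262144, 4749411, 13860335, 15614429, 17036891⟩, ⟨61279,
  201543, 261596, 262144, 21386905, 69727041, 90628512, 90843635⟩, ⟨323, 261897, 262097, 262144,
  474704, 328834884, 329123740, 329193951⟩, ⟨48749, 214339, 261406, 262144, 16576966, 71934370,
  87867617, 88147232⟩, ⟨1108, 261289, 261971, 262144, 1303639, 270341151, 271124900, 271332810⟩,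
  ⟨156183, 173700, 197952, 262144, 6170962, 6857238, 7805762, 10337118⟩, ⟨2692, 259857, 261871,
  262144, 2240136, 197563605, 199198738, 199440029⟩, ⟨37416, 225668, 261438, 262144, 10068504,
  59610460, 69182200, 69393277⟩, ⟨128629, 134578, 261259, 262144, 55644691, 58216225, 112898247,
  113330653⟩, ⟨102278, 162185, 260108, 262144, 32930694, 52053952, 83431615, 84152215⟩, ⟨8333,
  254727, 261457, 262144, 4524707, 130670292, 134257235, 134655350⟩, ⟨88252, 175307, 260941,
  262144, 27317378, 54064860, 80473706, 80887493⟩, ⟨13181, 250133, 261242, 262144, 6547419,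
  118875334, 124303634, 124786413⟩, ⟨27244, 236912, 260461, 262144, 10382721, 87947416, 96797295,
  97490261⟩, ⟨115303, 147517, 261574, 262144, 38776210, 49570535, 87869832, 88086108⟩, ⟨58892,
  222971, 244454, 262144, 4706922, 17443386, 19132265, 20551363⟩, ⟨19590, 244117, 260885, 262144,
  7452197, 89715372, 96004425, 96519319⟩, ⟨74787, 188501, 261185, 262144, 23487087, 58858006,
  81600872, 81937140⟩, ⟨125752, 192464, 209292, 262144, 6167056, 9390159, 10203225, 12790853⟩,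
  ⟨4931, 257917, 261635, 262144, 2719572, 132186034, 134195323, 134490310⟩, ⟨48627, 229736,
  247615, 262144, 2326986, 10711405, 11551351, 12250699⟩, ⟨85449, 191966, 248873, 262144,
  4895140, 10860738, 14080578, 14853896⟩, ⟨99500, 197306, 229681, 262144, 4420971, 8684996,
  10102073, 11549093⟩, ⟨42596, 233687, 249711, 262144, 1803444, 9617542, 10281838, 10811383⟩,
  ⟨37311, 237540, 250977, 262144, 1739543, 10717928, 11331053, 11854716⟩, ⟨131, 262042, 262126,
  262144, 80508, 134567384, 134617215, 134628538⟩, ⟨123384, 154669, 247722, 262144, 3103436,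
  3879820, 6199061, 6569779⟩, ⟨262144, 262144, 262144, 262144, 10773, 10773, 10773, 10773⟩]

def X2 : List It :=
  [⟨262144, 261828, 585, 194, 63845883, 63757755, 164967, 56682⟩, ⟨262144, 173365, 90044, 563,
  26356652, 17422821, 9079034, 65989⟩, ⟨262144, 201235, 62554, 9770, 18814573, 14426877, 4523679,
  738638⟩, ⟨262144, 259666, 173534, 545, 40566596, 40148910, 26830060, 96138⟩, ⟨262144, 254456,
  17154, 735, 29464971, 28573135, 1999461, 95623⟩, ⟨262144, 186678, 63590, 51084, 10109017,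
  7191158, 2469006, 1990659⟩, ⟨262144, 198676, 64738, 563, 20633079, 15616817, 5130637, 51669⟩,
  ⟨262144, 169980, 94918, 12110, 15840847, 10270472, 5757958, 766281⟩, ⟨262144, 251988, 16237,
  3760, 18957647, 18202224, 1219095, 294978⟩, ⟨262144, 259926, 232653, 164, 49565535, 49104334,
  43923602, 36175⟩, ⟨262144, 256955, 111864, 672, 34355318, 33622606, 14680725, 100961⟩, ⟨262144,
  258188, 6701, 518, 69226901, 68127214, 1883994, 159722⟩, ⟨262144, 223815, 40386, 560, 20409175,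
  17397731, 3191988, 50824⟩, ⟨262144, 136176, 111181, 38363, 8979036, 4668406, 3811722, 1337850⟩,
  ⟨262144, 226116, 54663, 23181, 17069571, 14705731, 3596213, 1548890⟩, ⟨262144, 241274, 33401,
  7707, 18566066, 17066376, 2413527, 577774⟩, ⟨262144, 213138, 169060, 96997, 4734490, 3864333,
  3064625, 1757476⟩, ⟨262144, 255301, 177327, 4369, 14477127, 14083904, 9780154, 252600⟩,
  ⟨262144, 142147, 123932, 716, 44598563, 24232272, 21109350, 141336⟩, ⟨262144, 242493, 130380,
  16818, 21255113, 19629706, 10573918, 1392275⟩, ⟨262144, 258022, 74439, 526, 18815703, 18495926,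
  5377778, 43865⟩, ⟨262144, 132560, 113650, 70851, 12727866, 6444988, 5526965, 3461754⟩, ⟨262144,
  254264, 116269, 4945, 18980374, 18377261, 8418839, 378726⟩, ⟨262144, 259156, 4753, 2341,
  38611903, 38143795, 753704, 380163⟩, ⟨262144, 260704, 2667, 230, 44029220, 43767120, 491769,
  46044⟩, ⟨262144, 201814, 71842, 33724, 16596162, 12760667, 4576473, 2175519⟩, ⟨262144, 209615,
  172422, 20411, 12598781, 10073024, 8290933, 997373⟩, ⟨262144, 144693, 121134, 5060, 29454091,
  16290754, 13624726, 612153⟩, ⟨262144, 261269, 256509, 46, 161364487, 160748028, 157611333,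
  35272⟩, ⟨262144, 191098, 77406, 14606, 8418757, 6136992, 2503597, 488674⟩, ⟨262144, 243403,
  30163, 478, 32852077, 30467952, 3864832, 69938⟩, ⟨262144, 243513, 25324, 15572, 14999992,
  13915811, 1486158, 925646⟩, ⟨262144, 143727, 121427, 13502, 12391373, 6805358, 5743886,
  666413⟩, ⟨262144, 242664, 40260, 3018, 20233812, 18709572, 3157308, 253935⟩, ⟨262144, 207252,
  135144, 595, 4748139, 3752534, 2458686, 12473⟩, ⟨262144, 180093, 90740, 48469, 11754100,
  8072448, 4085298, 2198447⟩, ⟨262144, 254916, 11964, 708, 50842343, 49390491, 2426170, 159361⟩,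
  ⟨262144, 170433, 93528, 3763, 23646057, 15365448, 8464912, 368845⟩, ⟨262144, 255170, 204018,
  173, 30066694, 29221397, 23368682, 23204⟩, ⟨262144, 212407, 116051, 32048, 10891683, 8824936,
  4830893, 1352303⟩, ⟨262144, 253255, 12300, 7918, 16179175, 15611481, 793432, 517216⟩, ⟨262144,
  190312, 77942, 554, 17562375, 12751877, 5260545, 43305⟩, ⟨262144, 233755, 120123, 91804,
  4204791, 3748568, 1934545, 1478789⟩, ⟨262144, 255360, 82177, 3473, 18884555, 18364602, 5947766,
  269364⟩, ⟨262144, 259160, 43499, 523, 19349422, 19110264, 3259523, 44897⟩, ⟨262144, 229930,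
  192316, 164140, 4938096, 4329869, 3619326, 3091145⟩, ⟨262144, 245037, 171264, 9660, 7682203,
  7171625, 5013877, 291438⟩, ⟨262144, 168846, 93562, 25206, 11196586, 7210184, 4010072, 1106271⟩,
  ⟨262144, 170480, 137338, 44523, 10753104, 6997945, 5643219, 1842051⟩, ⟨262144, 255848, 90334,
  35944, 7751265, 7553125, 2671304, 1072450⟩, ⟨262144, 256344, 8888, 3781, 35722980, 34897811,
  1276507, 559181⟩, ⟨262144, 251670, 97490, 12367, 8786438, 8423395, 3274359, 427884⟩, ⟨262144,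
  195730, 148875, 34047, 9993014, 7471958, 5691865, 1313254⟩, ⟨262144, 246357, 143286, 6023,
  22441547, 21038219, 12277872, 539188⟩, ⟨262144, 161549, 82416, 66850, 9906284, 6106122,
  3129599, 2543023⟩, ⟨262144, 254729, 232751, 1475, 24102384, 23393750, 21361420, 146260⟩,
  ⟨262144, 249198, 67204, 11269, 15562134, 14769035, 4020092, 695714⟩, ⟨262144, 159852, 106085,
  714, 24632997, 15029203, 9998140, 77805⟩, ⟨262144, 246685, 77770, 64380, 6968319, 6543683,
  2082571, 1725643⟩, ⟨262144, 228236, 44154, 33617, 13833433, 12027394, 2361063, 1806891⟩,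
  ⟨262144, 213550, 51954, 567, 22151967, 18020886, 4447755, 55914⟩, ⟨262144, 190303, 78625, 3347,
  10099644, 7333172, 3053103, 140792⟩, ⟨262144, 240848, 207957, 4048, 15667882, 14368935,
  12409979, 253304⟩, ⟨262144, 228530, 51974, 3194, 20403643, 17774416, 4094939, 270948⟩, ⟨262144,
  245681, 27255, 1959, 22596107, 21155305, 2408223, 187125⟩, ⟨262144, 258180, 91227, 484,
  14958363, 14712410, 5224820, 32091⟩, ⟨262144, 231790, 44968, 10419, 16425499, 14510043,
  2856734, 685181⟩, ⟨262144, 246500, 23784, 5542, 17000840, 15966283, 1585374, 384436⟩, ⟨262144,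
  199059, 65006, 2945, 10601554, 8041594, 2647964, 130572⟩, ⟨262144, 144242, 120622, 24270,
  10852112, 5980628, 4996686, 1033726⟩, ⟨262144, 127851, 97956, 85155, 14000987, 6839478,
  5251939, 4569662⟩, ⟨262144, 248627, 97507, 23250, 9825291, 9301279, 3655667, 885420⟩, ⟨262144,
  260629, 2610, 957, 62479093, 62087869, 683187, 260623⟩, ⟨262144, 142810, 102093, 55053,
  8488234, 4623922, 3309609, 1799296⟩, ⟨262144, 260357, 140597, 617, 47201302, 46846017,
  25356323, 127071⟩, ⟨262144, 255433, 71594, 47812, 8092939, 7874149, 2215364, 1486042⟩, ⟨262144,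
  169580, 133308, 61123, 10448376, 6778693, 5325453, 2457844⟩, ⟨262144, 257931, 58336, 556,
  14422756, 14173569, 3243380, 35505⟩, ⟨262144, 261570, 991, 608, 48349038, 48229775, 208746,
  129626⟩, ⟨262144, 250330, 201266, 1236, 22247260, 21215951, 17067643, 113946⟩, ⟨262144, 237593,
  33402, 21752, 13296400, 12033784, 1727951, 1134819⟩, ⟨262144, 221540, 197445, 10072, 8663739,
  7310956, 6517161, 341756⟩, ⟨262144, 247166, 21650, 621, 31120321, 29305572, 2646679, 85846⟩,
  ⟨262144, 249561, 17873, 11220, 14106757, 13411342, 995976, 632271⟩, ⟨262144, 262144, 262144,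
  262144, 7563, 7563, 7563, 7563⟩]

def X3 : List It :=
  [⟨262144, 790, 476, 153, 105445031, 366043, 224891, 74649⟩, ⟨262144, 89827, 1048, 268,
  56975059, 19613438, 259445, 69169⟩, ⟨262144, 69663, 28630, 525, 33361963, 8929424, 3720187,
  76594⟩, ⟨262144, 26017, 1155, 280, 74260516, 7551282, 373450, 94241⟩, ⟨262144, 175481, 543, 86,
  42409983, 28394473, 101269, 16640⟩, ⟨262144, 156980, 93350, 292, 28998154, 17357891, 10363166,
  37725⟩, ⟨262144, 163962, 30371, 418, 31517013, 19743889, 3720129, 57663⟩, ⟨262144, 191691,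
  6934, 840, 49794381, 36422470, 1382643, 179711⟩, ⟨262144, 26686, 6389, 417, 46619516, 4862425,
  1205608, 85943⟩, ⟨262144, 171594, 117338, 16030, 11452684, 7510510, 5155714, 726526⟩, ⟨262144,
  7470, 613, 185, 57900055, 1749008, 157361, 48875⟩, ⟨262144, 90897, 5134, 547, 45294650,
  15785069, 944255, 108902⟩, ⟨262144, 188268, 157497, 409, 17795754, 12803122, 10717131, 31852⟩,
  ⟨262144, 66637, 23231, 8159, 14288143, 3663489, 1296476, 465771⟩, ⟨262144, 55820, 731, 234,
  42831883, 9224137, 137543, 45334⟩, ⟨262144, 183177, 29051, 9461, 17256405, 12076303, 1954502,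
  650411⟩, ⟨262144, 234596, 386, 54, 59379793, 53074662, 101049, 14914⟩, ⟨262144, 50568, 11736,
  530, 44242674, 8638357, 2067355, 102795⟩, ⟨262144, 238176, 95272, 327, 25826840, 23415471,
  9407668, 37281⟩, ⟨262144, 139710, 625, 116, 91320706, 48775048, 250981, 48448⟩, ⟨262144,
  135634, 6679, 493, 53910255, 27956260, 1447994, 116770⟩, ⟨262144, 152782, 45014, 317, 19699121,
  11496597, 3425891, 27603⟩, ⟨262144, 66812, 51491, 747, 38446363, 9866964, 7629099, 124496⟩,
  ⟨262144, 5811, 2758, 547, 68289683, 1612103, 786019, 164368⟩, ⟨262144, 188063, 16771, 821,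
  29552109, 21216229, 1946956, 104192⟩, ⟨262144, 245893, 2395, 156, 106238503, 99476604, 1048352,
  74072⟩, ⟨262144, 38042, 17229, 6845, 27288455, 4025441, 1852364, 754215⟩, ⟨262144, 231655,
  33633, 251, 30876551, 27249245, 4030283, 34234⟩, ⟨262144, 58439, 4325, 769, 64729910, 14573157,
  1146495, 217249⟩, ⟨262144, 3052, 862, 246, 139598119, 1772054, 526527, 156283⟩, ⟨262144, 55360,
  40707, 17861, 12276515, 2620332, 1934372, 859707⟩, ⟨262144, 105625, 60298, 700, 41260025,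
  16678651, 9571003, 125237⟩, ⟨262144, 214682, 66011, 228, 35258012, 28857555, 8943683, 35721⟩,
  ⟨262144, 247321, 223976, 177, 26563153, 24985428, 22589119, 21139⟩, ⟨262144, 38820, 24273, 470,
  37641932, 5662797, 3573428, 77774⟩, ⟨262144, 108060, 30497, 438, 42900711, 17730200, 5080312,
  82544⟩, ⟨262144, 182516, 127231, 68804, 5768083, 4028503, 2818356, 1535122⟩, ⟨262144, 244638,
  8627, 59, 66491637, 61934685, 2294274, 17931⟩, ⟨262144, 39971, 615, 174, 38390634, 5943938,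
  104394, 30161⟩, ⟨262144, 14494, 913, 276, 86062995, 4952012, 343600, 107395⟩, ⟨262144, 137246,
  15658, 251, 38798811, 20352421, 2389837, 43320⟩, ⟨262144, 19098, 9134, 3800, 31107800, 2342855,
  1141177, 487930⟩, ⟨262144, 88172, 13410, 329, 35810639, 12104547, 1901933, 52062⟩, ⟨262144,
  141077, 2889, 559, 55280691, 29818681, 657845, 134871⟩, ⟨262144, 11153, 4830, 763, 75003221,
  3335708, 1481289, 250001⟩, ⟨262144, 178654, 60980, 9105, 6560442, 4479507, 1545661, 239126⟩,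
  ⟨262144, 109525, 93498, 380, 16910218, 7083886, 6056874, 28243⟩, ⟨262144, 238593, 20049, 352,
  47237930, 42923698, 3709119, 72728⟩, ⟨262144, 20325, 12688, 370, 38124719, 3045896, 1922679,
  62375⟩, ⟨262144, 192774, 2338, 329, 51180910, 37658140, 495685, 73658⟩, ⟨262144, 110329, 1079,
  227, 48087170, 20291898, 225317, 49946⟩, ⟨262144, 245442, 159885, 255, 19622454, 18332906,
  11985910, 22281⟩, ⟨262144, 98013, 52484, 20764, 12379111, 4658918, 2512876, 1009611⟩, ⟨262144,
  137139, 11729, 3963, 12839397, 6736055, 597219, 207549⟩, ⟨262144, 216498, 119412, 452,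
  24084088, 19853479, 10986990, 47338⟩, ⟨262144, 236748, 7153, 2265, 16170461, 14607196, 462626,
  150924⟩, ⟨262144, 143763, 120128, 248, 24524078, 13480751, 11258242, 27221⟩, ⟨262144, 71852,
  808, 239, 38938782, 10752883, 137887, 42200⟩, ⟨262144, 87466, 9993, 3744, 13597169, 4563388,
  542373, 208465⟩, ⟨262144, 105884, 23938, 8528, 14108230, 5721141, 1316976, 478242⟩, ⟨262144,
  37583, 2807, 635, 33769174, 4924604, 395198, 93805⟩, ⟨262144, 229688, 48147, 255, 28327700,
  24788280, 5266334, 32132⟩, ⟨262144, 205287, 528, 81, 53992462, 42257696, 125067, 20153⟩,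
  ⟨262144, 185932, 55204, 33106, 5659665, 4020544, 1209250, 730897⟩, ⟨262144, 153809, 65897, 293,
  22509401, 13229067, 5704579, 29069⟩, ⟨262144, 256197, 336, 27, 170545116, 166421465, 253686,
  22047⟩, ⟨262144, 262144, 262144, 262144, 7697, 7697, 7697, 7697⟩]


set_option maxRecDepth 100000 in
theorem run1 : ck 131071 30399297484750848 X2 (sq (md 84 t1) X1) 0 0 0 = true := by decide +kernel

set_option maxRecDepth 100000 in
theorem run2 : ck 131071 3377699720527872 X3 (sq (md 66 t2) X2) 0 0 0 = true := by decide +kernel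

set_option maxRecDepth 100000 in
theorem run3 : ck 131071 3377699720527872 X0 (sq (md 46 t3) X3) 0 0 0 = true := by decide +kernel

end Vale.Agent.N154A.Dn
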