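import Vale.Agent.N154A.Up
import Vale.Agent.N154A.DnC

/-!
# P154, four spins, proper colourings: soundness of the certificates of reconstruction
-/

set_option linter.all false
set_option exponentiation.threshold 300

namespace Vale.Agent.N154A

open Vale.Agent.P154 Equiv

theorem W02 {F : V → ℝ} (hF : Tst F) (a b c d : ℝ) : W F a b c d = W F c b a d :=
  (W01 hF _ _ _ _).trans ((W12 hF _ _ _ _).trans (W01 hF _ _ _ _))

theorem W13 {F : V → ℝ} (hF : Tst F) (a b c d : ℝ) : W F a b c d = W F a d c b :=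
  (W12 hF _ _ _ _).trans ((W23 hF _ _ _ _).trans (W12 hF _ _ _ _))

theorem W_zero {F : V → ℝ} (hF : Tst F) : W F 0 0 0 0 = 0 :=
  (congrArg F (funext fun i => by fin_cases i <;> rfl)).trans (sup_zero hF.sup)

theorem W_add {F : V → ℝ} (hF : Tst F) {a b c d x y z w : ℝ} (h : Nn ![a, b, c, d])
    (h' : Nn ![x, y, z, w]) : W F a b c d + W F x y z w ≤ W F (a + x) (b + y) (c + z) (d + w) :=
  (sup_add hF.sup h h').trans (le_of_eq (congrArg F (funext fun i => by fin_cases i <;> rfl)))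

theorem W_smul {F : V → ℝ} (hF : Tst F) {a b c d r : ℝ} (h : Nn ![a, b, c, d]) (hr : 0 ≤ r) :
    W F (r * a) (r * b) (r * c) (r * d) = r * W F a b c d :=
  (congrArg F (funext fun i => by fin_cases i <;> rfl)).trans (sup_smul hF.sup hr h)

theorem nnN (a b c d : ℕ) : Nn ![(a : ℝ), b, c, d] :=
  nn4 (Nat.cast_nonneg _) (Nat.cast_nonneg _) (Nat.cast_nonneg _) (Nat.cast_nonneg _)

theorem sy_comm {F : V → ℝ} (hF : Tst F) (u w : V) :
    sy (fun x => F (u * x)) w = sy (fun x => F (w * x)) u := by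
  unfold sy
  rw [← Equiv.sum_comp (Equiv.inv (Perm (Fin 4)))]
  refine Finset.sum_congr rfl fun τ _ => (hF.sym τ _).symm.trans (congrArg F (funext fun i => ?_))
  simp [mul_comm]

/-- the reservoir -/
noncomputable def hh (F : V → ℝ) : ℝ := W F (8 / 5) (4 / 5) (4 / 5) (4 / 5)

theorem hh_le {F : V → ℝ} (hF : Tst F) : hh F ≤ F 1 := by
  have := hF.le_const (nn4 (a := 8 / 5) (b := 4 / 5) (c := 4 / 5) (d := 4 / 5) (by norm_num)
    (by norm_num) (by norm_num) (by norm_num))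
  have e : mean ![8 / 5, 4 / 5, 4 / 5, 4 / 5] = 1 := by
    rw [mean4]
    show (8 / 5 + 4 / 5 + 4 / 5 + 4 / 5) / 4 = (1 : ℝ)
    norm_num
  rw [e, one_mul] at this
  exact this

theorem res1 {F : V → ℝ} (hF : Tst F) {T : V} (hT : Nn T) (h : 8 * mean T ≤ 5 * T 0) :
    F T ≤ mean T * hh F := by
  have m0 := mean_nn hT
  have h0 := hT 0; have h1 := hT 1; have h2 := hT 2; have h3 := hT 3
  set t := (T 1 + T 2 + T 3) / 3 with ht
  have t0 : 0 ≤ t := by positivity
  have a : F T ≤ W F (T 0) t t t := by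
    have k := hF.sup (Fin 3) Finset.univ (fun _ => 1 / 3)
      ![![T 0, T 1, T 2, T 3], ![T 0, T 2, T 3, T 1], ![T 0, T 3, T 1, T 2]]
      (fun _ _ => by norm_num) (fun x _ => by fin_cases x <;> exact nn4 h0 ‹_› ‹_› ‹_›)
    rw [Fin.sum_univ_three] at k
    have e1 : F T = W F (T 0) (T 1) (T 2) (T 3) :=
      congrArg F (funext fun i => by fin_cases i <;> rfl)
    have e2 := (W12 hF (T 0) (T 1) (T 2) (T 3)).trans (W23 hF _ _ _ _)
    have e3 := (W23 hF (T 0) (T 1) (T 2) (T 3)).trans (W12 hF _ _ _ _)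
    have e4 : F (fun i => ∑ x : Fin 3, 1 / 3 *
        ![![T 0, T 1, T 2, T 3], ![T 0, T 2, T 3, T 1], ![T 0, T 3, T 1, T 2]] x i)
        = W F (T 0) t t t := by
      refine congrArg F (funext fun i => ?_)
      rw [Fin.sum_univ_three]
      fin_cases i
      · show 1 / 3 * T 0 + 1 / 3 * T 0 + 1 / 3 * T 0 = T 0
        ring
      · show 1 / 3 * T 1 + 1 / 3 * T 2 + 1 / 3 * T 3 = t
        rw [ht]; ring
      · show 1 / 3 * T 2 + 1 / 3 * T 3 + 1 / 3 * T 1 = t
        rw [ht]; ring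
      · show 1 / 3 * T 3 + 1 / 3 * T 1 + 1 / 3 * T 2 = t
        rw [ht]; ring
    rw [e4] at k
    change 1 / 3 * W F (T 0) (T 1) (T 2) (T 3) + 1 / 3 * W F (T 0) (T 2) (T 3) (T 1)
      + 1 / 3 * W F (T 0) (T 3) (T 1) (T 2) ≤ _ at k
    linarith
  have hm : mean T = (T 0 + 3 * t) / 4 := by rw [mean4, ht]; ring
  set m := mean T
  rcases m0.eq_or_lt with z | z
  · have : F T ≤ m * F 1 := hF.le_const hT
    rw [← z] at this ⊢
    linarith
  have d0 : 0 < T 0 - m := by linarith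
  have b := hF.le_pl (μ := 3 / 5 * m / (T 0 - m)) (by positivity)
    (by rw [div_le_one d0]; linarith) (nn4 h0 t0 t0 t0)
  unfold hh
  rw [← W_smul hF (nn4 (by norm_num) (by norm_num) (by norm_num) (by norm_num)) m0]
  refine a.trans (b.trans (le_of_eq (congrArg F (funext fun i => ?_))))
  have e : mean ![T 0, t, t, t] = m := by
    rw [mean4, hm]
    show (T 0 + t + t + t) / 4 = _
    ring
  have e2 : t = (4 * m - T 0) / 3 := by rw [hm]; ring
  unfold pl
  rw [e]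
  fin_cases i
  · show _ * T 0 + _ = m * (8 / 5)
    field_simp
    ring
  all_goals
    show _ * t + _ = m * (4 / 5)
    rw [e2]
    field_simp
    ring

theorem res2 {F : V → ℝ} (hF : Tst F) {a b c d : ℝ} (ha : a + (b + (c + d)) ≤ 5 * a)
    (hb : a + (b + (c + d)) ≤ 5 * b) (hc : a + (b + (c + d)) ≤ 5 * c)
    (hd : a + (b + (c + d)) ≤ 5 * d) : (a + (b + (c + d))) / 4 * hh F ≤ W F a b c d := by
  set s := a + (b + (c + d)) with hs
  have k := hF.sup (Fin 4) Finset.univ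
    ![(5 * a - s) / 4, (5 * b - s) / 4, (5 * c - s) / 4, (5 * d - s) / 4]
    ![![8 / 5, 4 / 5, 4 / 5, 4 / 5], ![4 / 5, 8 / 5, 4 / 5, 4 / 5], ![4 / 5, 4 / 5, 8 / 5, 4 / 5],
      ![4 / 5, 4 / 5, 4 / 5, 8 / 5]]
    (fun x _ => by fin_cases x <;> exact div_nonneg (sub_nonneg.2 ‹_›) (by norm_num))
    (fun x _ => by fin_cases x <;> exact nn4 (by norm_num) (by norm_num) (by norm_num) (by norm_num))
  rw [Fin.sum_univ_four] at k
  have e1 := W01 hF (8 / 5) (4 / 5) (4 / 5) (4 / 5)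
  have e2 := W02 hF (8 / 5) (4 / 5) (4 / 5) (4 / 5)
  have e3 := (W01 hF (8 / 5) (4 / 5) (4 / 5) (4 / 5)).trans (W13 hF _ _ _ _)
  refine le_trans (le_of_eq ?_) (k.trans (le_of_eq (congrArg F (funext fun i => ?_))))
  · change _ = (5 * a - s) / 4 * W F (8 / 5) (4 / 5) (4 / 5) (4 / 5)
      + (5 * b - s) / 4 * W F (4 / 5) (8 / 5) (4 / 5) (4 / 5)
      + (5 * c - s) / 4 * W F (4 / 5) (4 / 5) (8 / 5) (4 / 5)
      + (5 * d - s) / 4 * W F (4 / 5) (4 / 5) (4 / 5) (8 / 5)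
    rw [← e1, ← e2, ← e3, hs]
    unfold hh
    ring
  · rw [Fin.sum_univ_four]
    fin_cases i
    · show (5 * a - s) / 4 * (8 / 5) + (5 * b - s) / 4 * (4 / 5) + (5 * c - s) / 4 * (4 / 5)
        + (5 * d - s) / 4 * (4 / 5) = a
      rw [hs]; ring
    · show (5 * a - s) / 4 * (4 / 5) + (5 * b - s) / 4 * (8 / 5) + (5 * c - s) / 4 * (4 / 5)
        + (5 * d - s) / 4 * (4 / 5) = b
      rw [hs]; ring
    · show (5 * a - s) / 4 * (4 / 5) + (5 * b - s) / 4 * (4 / 5) + (5 * c - s) / 4 * (8 / 5)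
        + (5 * d - s) / 4 * (4 / 5) = c
      rw [hs]; ring
    · show (5 * a - s) / 4 * (4 / 5) + (5 * b - s) / 4 * (4 / 5) + (5 * c - s) / 4 * (4 / 5)
        + (5 * d - s) / 4 * (8 / 5) = d
      rw [hs]; ring

namespace Dn

def vx (o : It) : V := ![o.x0, o.x1, o.x2, o.x3]

theorem vx_nn (o : It) : Nn (vx o) := nnN _ _ _ _

/-- `Z` packs `G` cells of total mass at most `s` whose value is at least `B` -/
def Snd (G Z s : ℕ) (B : (V → ℝ) → ℝ) : Prop :=
  ∃ a b c d : ℕ → ℕ,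
    Z = ∑ k ∈ Finset.range G, (a k + (b k * 2 ^ 72 + (c k * 2 ^ 144 + d k * 2 ^ 216))) * (2 ^ 288) ^ k ∧
    ∑ k ∈ Finset.range G, (a k + (b k + (c k + d k))) ≤ s ∧
    ∀ F, Tst F → B F ≤ ∑ k ∈ Finset.range G, W F (a k) (b k) (c k) (d k)

variable {G : ℕ} {f : ℕ → ℕ → ℕ → ℕ → ℕ}

theorem Snd.zero : Snd G 0 0 fun _ => 0 :=
  ⟨fun _ => 0, fun _ => 0, fun _ => 0, fun _ => 0, by simp, by simp, fun F hF => by
    simp [W_zero hF]⟩

theorem Snd.add {Z Z' s s' : ℕ} {B B' : (V → ℝ) → ℝ} (h : Snd G Z s B) (h' : Snd G Z' s' B') :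
    Snd G (Nat.add Z Z') (s + s') (fun F => B F + B' F) := by
  obtain ⟨a, b, c, d, h1, h2, h3⟩ := h
  obtain ⟨x, y, z, w, h1', h2', h3'⟩ := h'
  refine ⟨fun k => a k + x k, fun k => b k + y k, fun k => c k + z k, fun k => d k + w k, ?_, ?_,
    fun F hF => ?_⟩
  · change Z + Z' = _
    rw [h1, h1', ← Finset.sum_add_distrib]
    exact Finset.sum_congr rfl fun k _ => by ring
  · refine le_trans (le_of_eq ?_) (add_le_add h2 h2')
    rw [← Finset.sum_add_distrib]
    exact Finset.sum_congr rfl fun k _ => by ring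
  · refine (add_le_add (h3 F hF) (h3' F hF)).trans ?_
    rw [← Finset.sum_add_distrib]
    refine Finset.sum_le_sum fun k _ => ?_
    push_cast
    exact W_add hF (nnN _ _ _ _) (nnN _ _ _ _)

theorem Snd.mono {Z s s' : ℕ} {B B' : (V → ℝ) → ℝ} (h : Snd G Z s B) (hs : s ≤ s')
    (hB : ∀ F, Tst F → B' F ≤ B F) : Snd G Z s' B' := by
  obtain ⟨a, b, c, d, h1, h2, h3⟩ := h
  exact ⟨a, b, c, d, h1, h2.trans hs, fun F hF => (hB F hF).trans (h3 F hF)⟩

/-- `f` points to a cell -/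
def Pt (G : ℕ) (f : ℕ → ℕ → ℕ → ℕ → ℕ) : Prop := ∀ a b c d, ∃ e < G, f a b c d = 288 * e

theorem pt_md (hG : 0 < G) (f : ℕ → ℕ → ℕ → ℕ → ℕ) : Pt G (md G f) := fun a b c d =>
  ⟨f a b c d % G, Nat.mod_lt _ hG, rfl⟩

/-- the statement for one product -/
def S1 (G Z a b c d : ℕ) : Prop :=
  Snd G Z (lo a + (lo b + (lo c + lo d))) fun F => W F (lo a) (lo b) (lo c) (lo d)

theorem snd_s6 (hf : Pt G f) (a b c d : ℕ) : S1 G (s6 f a b c d) a b c d := by
  obtain ⟨e, he, h⟩ := hf (a >>> 72) (b >>> 72) (c >>> 72) (d >>> 72)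
  have hm := Finset.mem_range.2 he
  refine ⟨fun k => if k = e then lo a else 0, fun k => if k = e then lo b else 0,
    fun k => if k = e then lo c else 0, fun k => if k = e then lo d else 0, ?_, ?_, fun F hF => ?_⟩
  · change (lo a + (lo b <<< 72 + (lo c <<< 144 + lo d <<< 216)))
      <<< f (a >>> 72) (b >>> 72) (c >>> 72) (d >>> 72) = _
    rw [h, Finset.sum_eq_single e (fun k _ hk => by simp [hk]) (fun hk => absurd hm hk)]
    simp only [Nat.shiftLeft_eq, pow_mul, if_true]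
  · rw [Finset.sum_eq_single e (fun k _ hk => by simp [hk]) (fun hk => absurd hm hk)]
    simp
  · rw [Finset.sum_eq_single e (fun k _ hk => by simp [hk, W_zero hF]) (fun hk => absurd hm hk)]
    simp

theorem snd_s5 (hf : Pt G f) (a b c d : ℕ) : S1 G (s5 f a b c d) a b c d :=
  ble_rec (P := fun Z => S1 G Z a b c d) (fun _ => Snd.mono (snd_s6 hf a c b d) (by omega)
    fun F hF => (W12 hF _ _ _ _).le) fun _ => snd_s6 hf a b c d

theorem snd_s4 (hf : Pt G f) (a b c d : ℕ) : S1 G (s4 f a b c d) a b c d :=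
  ble_rec (P := fun Z => S1 G Z a b c d) (fun _ => Snd.mono (snd_s5 hf a d c b) (by omega)
    fun F hF => (W13 hF _ _ _ _).le) fun _ => snd_s5 hf a b c d

theorem snd_s3 (hf : Pt G f) (a b c d : ℕ) : S1 G (s3 f a b c d) a b c d :=
  ble_rec (P := fun Z => S1 G Z a b c d) (fun _ => Snd.mono (snd_s4 hf c b a d) (by omega)
    fun F hF => (W02 hF _ _ _ _).le) fun _ => snd_s4 hf a b c d

theorem snd_s2 (hf : Pt G f) (a b c d : ℕ) : S1 G (s2 f a b c d) a b c d :=
  ble_rec (P := fun Z => S1 G Z a b c d) (fun _ => Snd.mono (snd_s3 hf a b d c) (by omega)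
    fun F hF => (W23 hF _ _ _ _).le) fun _ => snd_s3 hf a b c d

theorem snd_s1 (hf : Pt G f) (a b c d : ℕ) : Snd G (s1 f a b c d) (lo a + (lo b + (lo c + lo d)))
    fun F => W F (lo a) (lo b) (lo c) (lo d) :=
  ble_rec (P := fun Z => S1 G Z a b c d) (fun _ => Snd.mono (snd_s2 hf b a c d) (by omega)
    fun F hF => (W01 hF _ _ _ _).le) fun _ => snd_s2 hf a b c d

theorem lo_ky (a b : ℕ) {x y : ℕ} (hx : x < 2 ^ 36) (hy : y < 2 ^ 36) : lo (ky a x b y) = x * y := by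
  change ((a * b) <<< 72 + x * y) &&& (2 ^ 72 - 1) = _
  rw [Nat.and_two_pow_sub_one_eq_mod, Nat.shiftLeft_eq, Nat.mul_add_mod_of_lt]
  calc x * y < 2 ^ 36 * 2 ^ 36 := Nat.mul_lt_mul'' hx hy
    _ = 2 ^ 72 := by norm_num

def Bd (o : It) : Prop := o.x0 < 2 ^ 36 ∧ o.x1 < 2 ^ 36 ∧ o.x2 < 2 ^ 36 ∧ o.x3 < 2 ^ 36

instance (o : It) : Decidable (Bd o) := by
  unfold Bd
  infer_instance

def ms (o : It) : ℕ := o.x0 + (o.x1 + (o.x2 + o.x3))

noncomputable def Q (F : V → ℝ) (o o' : It) : ℝ := sy (fun x => F (vx o * x)) (vx o')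

theorem snd_k24 (hf : Pt G f) {o o' : It} (h : Bd o) (h' : Bd o') :
    Snd G (k24 f o.l0 o.l1 o.l2 o.l3 o.x0 o.x1 o.x2 o.x3 o'.l0 o'.l1 o'.l2 o'.l3 o'.x0 o'.x1 o'.x2
      o'.x3) (6 * (ms o * ms o')) fun F => Q F o o' := by
  obtain ⟨h0, h1, h2, h3⟩ := h
  obtain ⟨k0, k1, k2, k3⟩ := h'
  unfold k24 j24
  refine Snd.mono ((snd_s1 hf _ _ _ _).add ((snd_s1 hf _ _ _ _).add
    ((snd_s1 hf _ _ _ _).add ((snd_s1 hf _ _ _ _).add ((snd_s1 hf _ _ _ _).add
    ((snd_s1 hf _ _ _ _).add ((snd_s1 hf _ _ _ _).add ((snd_s1 hf _ _ _ _).add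
    ((snd_s1 hf _ _ _ _).add ((snd_s1 hf _ _ _ _).add ((snd_s1 hf _ _ _ _).add
    ((snd_s1 hf _ _ _ _).add ((snd_s1 hf _ _ _ _).add ((snd_s1 hf _ _ _ _).add
    ((snd_s1 hf _ _ _ _).add ((snd_s1 hf _ _ _ _).add ((snd_s1 hf _ _ _ _).add
    ((snd_s1 hf _ _ _ _).add ((snd_s1 hf _ _ _ _).add ((snd_s1 hf _ _ _ _).add
    ((snd_s1 hf _ _ _ _).add ((snd_s1 hf _ _ _ _).add ((snd_s1 hf _ _ _ _).add
    (snd_s1 hf _ _ _ _))))))))))))))))))))))))
    (le_of_eq ?_) fun F hF => le_of_eq ?_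
  · simp only [lo_ky, h0, h1, h2, h3, k0, k1, k2, k3, ms]
    ring
  · unfold Q vx
    rw [sy_W]
    simp only [lo_ky, h0, h1, h2, h3, k0, k1, k2, k3, Q4.permList, List.map_cons, List.map_nil,
      List.sum_cons, List.sum_nil, Nat.cast_mul, add_zero]
    rfl

def tot (X : List It) : ℕ := (X.map ms).sum

theorem snd_row (hf : Pt G f) {o : It} (h : Bd o) : ∀ X : List It, (∀ o' ∈ X, Bd o') →
    Snd G (row f o.l0 o.l1 o.l2 o.l3 o.x0 o.x1 o.x2 o.x3 X) (6 * (ms o * tot X))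
      fun F => (X.map (Q F o)).sum
  | [], _ => Snd.zero.mono (Nat.zero_le _) fun _ _ => le_rfl
  | o' :: X, hX => by
    refine Snd.mono ((snd_k24 hf h (hX o' List.mem_cons_self)).add
      (snd_row hf h X fun x hx => hX x (List.mem_cons_of_mem _ hx))) (le_of_eq ?_) fun _ _ => le_rfl
    change _ = 6 * (ms o * (ms o' + tot X))
    ring

theorem snd_sq (hf : Pt G f) : ∀ X : List It, (∀ o ∈ X, Bd o) →
    Snd G (sq f X) (6 * (tot X * tot X)) fun F => (X.map fun o => (X.map (Q F o)).sum).sum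
  | [], _ => Snd.zero.mono (Nat.zero_le _) fun _ _ => le_rfl
  | o :: X, hX => by
    have h := hX o List.mem_cons_self
    have hX' : ∀ x ∈ X, Bd x := fun x hx => hX x (List.mem_cons_of_mem _ hx)
    have r := snd_row hf h X hX'
    have r2 := r.add r
    rw [Nat.add_eq, ← two_mul] at r2
    refine Snd.mono (((snd_k24 hf h h).add r2).add (snd_sq hf X hX')) (le_of_eq ?_)
      fun F hF => le_of_eq ?_
    · change _ = 6 * ((ms o + tot X) * (ms o + tot X))
      ring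
    · simp only [List.map_cons, List.sum_cons, List.sum_map_add]
      have e : (X.map fun x => Q F x o) = X.map (Q F o) :=
        List.map_congr_left fun x _ => sy_comm hF _ _
      rw [e]
      ring

noncomputable def sm (F : V → ℝ) (X : List It) : ℝ := (X.map fun o => F (vx o)).sum

theorem dg_eq {a b c d Z : ℕ} (ha : a < 2 ^ 72) (hb : b < 2 ^ 72) (hc : c < 2 ^ 72) (hd : d < 2 ^ 72)
    {Y : ℕ} (hY : Y = a + (b * 2 ^ 72 + (c * 2 ^ 144 + d * 2 ^ 216)) + 2 ^ 288 * Z) :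
    dg Y 0 = a ∧ dg Y 72 = b ∧ dg Y 144 = c ∧ dg Y 216 = d ∧ Nat.shiftRight Y 288 = Z := by
  have e : ∀ k, dg Y k = Y / 2 ^ k % 2 ^ 72 := fun k => by
    change (Y >>> k) &&& (2 ^ 72 - 1) = _
    rw [Nat.and_two_pow_sub_one_eq_mod, Nat.shiftRight_eq_div_pow]
  have e' : Nat.shiftRight Y 288 = Y / 2 ^ 288 := Nat.shiftRight_eq_div_pow _ _
  rw [e, e, e, e, e']
  omega

theorem ck_sound {k p : ℕ} {F : V → ℝ} (hF : Tst F) : ∀ (X : List It) (G : ℕ) (a b c d : ℕ → ℕ)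
    (R T0 TT : ℕ) (T : V), X.length = G + 1 →
    (∀ j < G, a j < 2 ^ 72 ∧ b j < 2 ^ 72 ∧ c j < 2 ^ 72 ∧ d j < 2 ^ 72) → Nn T → T 0 = T0 →
    4 * mean T = TT →
    ck k p X (∑ j ∈ Finset.range G,
      (a j + (b j * 2 ^ 72 + (c j * 2 ^ 144 + d j * 2 ^ 216))) * (2 ^ 288) ^ j) R T0 TT = true →
    (k + 1 : ℝ) * ∑ j ∈ Finset.range G, W F (a j) (b j) (c j) (d j) + F T - R / 4 * hh F
      ≤ p * sm F X
  | [], _, _, _, _, _, _, _, _, _, h, _, _, _, _, _ => by simp at h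
  | [o], G, a, b, c, d, R, T0, TT, T, h, _, hT, e0, e1, hc => by
    obtain rfl : G = 0 := by simpa using h
    change c0 p o.x0 o.x1 o.x2 o.x3 R T0 TT = true at hc
    simp only [c0, Bool.and_eq_true, Nat.ble_eq, Nat.mul_eq, Nat.add_eq] at hc
    obtain ⟨⟨c1, c2, c3⟩, c4, c5, c6⟩ := hc
    have c4' : (2 : ℝ) * TT ≤ 5 * T0 := by exact_mod_cast c4
    have c5' : (R : ℝ) ≤ TT := by exact_mod_cast c5
    have c6' : (TT : ℝ) ≤ R + 4 * (p * o.x0) := by exact_mod_cast c6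
    have r1 := res1 hF hT (by linarith)
    have r2 := mul_le_mul_of_nonneg_left (hh_le hF) (show 0 ≤ mean T - R / 4 by linarith)
    have r3 := mul_le_mul_of_nonneg_right (show mean T - R / 4 ≤ p * o.x0 by linarith)
      (hF.nn 1 nn_one)
    have r4 : (o.x0 : ℝ) * F 1 ≤ F (vx o) := by
      rw [← sup_smul hF.sup (Nat.cast_nonneg _) nn_one]
      refine hF.mono (fun i => by simp) fun i => ?_
      fin_cases i <;> simp [vx] <;> assumption
    have r5 := mul_le_mul_of_nonneg_left r4 (Nat.cast_nonneg (α := ℝ) p)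
    simp only [sm, List.map_cons, List.map_nil, List.sum_cons, List.sum_nil,
      Finset.sum_range_zero]
    linarith
  | o :: o' :: X, G, a, b, c, d, R, T0, TT, T, h, hb, hT, e0, e1, hc => by
    obtain ⟨G, rfl⟩ : ∃ G', G = G' + 1 := ⟨X.length, by simp at h; omega⟩
    obtain ⟨b0, b1, b2, b3⟩ := hb 0 (by omega)
    set Z := ∑ j ∈ Finset.range (G + 1),
      (a j + (b j * 2 ^ 72 + (c j * 2 ^ 144 + d j * 2 ^ 216))) * (2 ^ 288) ^ j with hZ
    obtain ⟨g0, g1, g2, g3, g4⟩ := dg_eq b0 b1 b2 b3 (Y := Z) (Z := ∑ j ∈ Finset.range G,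
      (a (j + 1) + (b (j + 1) * 2 ^ 72 + (c (j + 1) * 2 ^ 144 + d (j + 1) * 2 ^ 216)))
        * (2 ^ 288) ^ j) (by
      rw [hZ, Finset.sum_range_succ', Finset.mul_sum, add_comm, pow_zero, mul_one]
      congr 1
      refine Finset.sum_congr rfl fun j _ => ?_
      rw [pow_succ]
      ring)
    clear_value Z
    change c1 (p * o.x0) (p * o.x1) (p * o.x2) (p * o.x3) (k * dg Z 0) (k * dg Z 72) (k * dg Z 144)
      (k * dg Z 216) R (fun R' => ck k p (o' :: X) (Nat.shiftRight Z 288) R' (T0 + dg Z 0)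
        (TT + (dg Z 0 + (dg Z 72 + (dg Z 144 + dg Z 216))))) = true at hc
    rw [g0, g1, g2, g3, g4] at hc
    simp only [c1, c2, Bool.and_eq_true, Nat.ble_eq, Nat.mul_eq, Nat.add_eq, Nat.sub_eq] at hc
    obtain ⟨⟨c1, c2, c3, c4⟩, ⟨c5, c6, c7, c8⟩, c9⟩ := hc
    obtain ⟨r0, q0⟩ := Nat.exists_eq_add_of_le c1
    obtain ⟨r1, q1⟩ := Nat.exists_eq_add_of_le c2
    obtain ⟨r2, q2⟩ := Nat.exists_eq_add_of_le c3
    obtain ⟨r3, q3⟩ := Nat.exists_eq_add_of_le c4
    rw [q0, q1, q2, q3] at c5 c6 c7 c8 c9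
    simp only [Nat.add_sub_cancel_left] at c5 c6 c7 c8 c9
    have ih := ck_sound hF (o' :: X) G (fun j => a (j + 1)) (fun j => b (j + 1)) (fun j => c (j + 1))
      (fun j => d (j + 1)) _ _ _ (T + ![(a 0 : ℝ), b 0, c 0, d 0]) (by simpa using h)
      (fun j hj => hb (j + 1) (by omega)) (fun i => add_nonneg (hT i) (nnN _ _ _ _ i))
      (by push_cast; rw [← e0]; rfl) (by
        push_cast
        rw [← e1, mean4, mean4]
        show 4 * ((T 0 + a 0 + (T 1 + b 0) + (T 2 + c 0) + (T 3 + d 0)) / 4) = _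
        ring) c9
    have s1 := sup_add hF.sup hT (nnN (a 0) (b 0) (c 0) (d 0))
    have s2 := res2 hF (a := r0) (b := r1) (c := r2) (d := r3) (by exact_mod_cast c5)
      (by exact_mod_cast c6) (by exact_mod_cast c7) (by exact_mod_cast c8)
    have s3 := W_add hF (a := k * a 0) (b := k * b 0) (c := k * c 0) (d := k * d 0)
      (nn4 (by positivity) (by positivity) (by positivity) (by positivity)) (nnN r0 r1 r2 r3)
    rw [W_smul hF (nnN _ _ _ _) (Nat.cast_nonneg _)] at s3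
    have s4 := W_smul hF (nnN o.x0 o.x1 o.x2 o.x3) (Nat.cast_nonneg (α := ℝ) p)
    rw [show (p : ℝ) * o.x0 = k * a 0 + r0 by exact_mod_cast q0,
      show (p : ℝ) * o.x1 = k * b 0 + r1 by exact_mod_cast q1,
      show (p : ℝ) * o.x2 = k * c 0 + r2 by exact_mod_cast q2,
      show (p : ℝ) * o.x3 = k * d 0 + r3 by exact_mod_cast q3] at s4
    have e : sm F (o :: o' :: X) = W F o.x0 o.x1 o.x2 o.x3 + sm F (o' :: X) := rfl
    rw [e, Finset.sum_range_succ']
    change F T + W F (a 0) (b 0) (c 0) (d 0) ≤ _ at s1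
    push_cast at ih
    linarith

/-- `Φ` is at least as informative as the list `X`, of total weight `S` -/
def Hi (S : ℝ) (X : List It) (Φ : (V → ℝ) → ℝ) : Prop := ∀ F, Tst F → S * Φ F ≤ sm F X

variable {Φ : (V → ℝ) → ℝ}

theorem list_le {α : Type} {g h : α → ℝ} (l : List α) (r : ℝ) (e : ∀ x, r * g x ≤ h x) :
    r * (l.map g).sum ≤ (l.map h).sum := by
  rw [← List.sum_map_mul_left]
  exact List.sum_le_sum fun x _ => e x

theorem hi_sq (h : Ch Φ) {S S' : ℝ} {X Y : List It} (hS : 0 ≤ S) (hX : Hi S X Φ) {k p : ℕ}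
    (hG : Y.length = G + 1) (hG0 : 0 < G) (hb : ∀ o ∈ X, Bd o) (ht : 6 * (tot X * tot X) < 2 ^ 72)
    (hp : 0 < p) (hs : (p : ℝ) * S' ≤ (k + 1) * (24 * S * S))
    (hc : ck k p Y (sq (md G f) X) 0 0 0 = true) : Hi S' Y (conv Φ Φ) := by
  intro F hF
  obtain ⟨a, b, c, d, h1, h2, h3⟩ := snd_sq (pt_md hG0 f) X hb
  rw [h1] at hc
  have k1 := ck_sound hF Y G a b c d 0 0 0 (fun _ => 0) hG (fun j hj => by
    have : a j + (b j + (c j + d j)) ≤ _ := (Finset.single_le_sum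
      (f := fun j => a j + (b j + (c j + d j))) (fun _ _ => Nat.zero_le _)
      (Finset.mem_range.2 hj)).trans h2
    omega) (fun _ => le_rfl) (by simp) (by rw [mean4]; simp) hc
  rw [sup_zero hF.sup] at k1
  have k2 : 24 * S * S * conv Φ Φ F ≤ (X.map fun o => (X.map (Q F o)).sum).sum := by
    have a1 := hX _ (h.liftc_tst hF)
    rw [← h.conv_eq h hF] at a1
    have a2 := list_le X (24 * S) (g := fun o => liftc Φ F (vx o))
      (h := fun o => (X.map (Q F o)).sum) fun o => by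
      have b1 := hX _ (tst_sy_mul hF (vx_nn o))
      rw [← lift_sy h hF.nb (vx_nn o)] at b1
      rw [liftc_eq (vx_nn o)]
      exact le_trans (le_of_eq (by ring)) b1
    have a3 := mul_le_mul_of_nonneg_left a1 (show 0 ≤ 24 * S by positivity)
    exact le_trans (le_of_eq (by ring)) (a3.trans a2)
  have k3 := mul_le_mul_of_nonneg_left (k2.trans (h3 F hF)) (show (0 : ℝ) ≤ k + 1 by positivity)
  have k4 := mul_le_mul_of_nonneg_right hs ((h.conv h).nonneg hF.nb)
  have hp' : (0 : ℝ) < p := by exact_mod_cast hp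
  refine le_of_mul_le_mul_left ?_ hp'
  simp only [Nat.cast_zero, zero_div, zero_mul] at k1
  linarith

/-- the second vector is three times the message sent by the first -/
def Ed (o o' : It) : Prop := o'.x0 = o.x1 + (o.x2 + o.x3) ∧ o'.x1 = o.x0 + (o.x2 + o.x3) ∧
  o'.x2 = o.x0 + (o.x1 + o.x3) ∧ o'.x3 = o.x0 + (o.x1 + o.x2)

instance (o o' : It) : Decidable (Ed o o') := by
  unfold Ed
  infer_instance

theorem hi_edge {S : ℝ} {X Y : List It} (hX : Hi S X Φ) (h : List.Forall₂ Ed X Y) :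
    Hi (3 * S) Y (edge (-1 / 3) Φ) := by
  intro F hF
  have a := hX _ (hF.pl p3)
  have e : sm F Y = 3 * sm (fun v => F (pl (-1 / 3) v)) X := by
    clear a hX
    induction h with
    | nil => simp [sm]
    | @cons o o' X Y h1 _ ih =>
      change F (vx o') + sm F Y = 3 * (F (pl (-1 / 3) (vx o)) + sm (fun v => F (pl (-1 / 3) v)) X)
      rw [ih, mul_add, ← sup_smul hF.sup (by norm_num) (pl_nonneg (by norm_num) p3 _ (vx_nn o))]
      unfold vx
      rw [← pl3, h1.1, h1.2.1, h1.2.2.1, h1.2.2.2]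
      push_cast
      rfl
  rw [e]
  change 3 * S * Φ (fun v => F (pl (-1 / 3) v)) ≤ _
  linarith

theorem sm_mean (X : List It) : 4 * sm mean X = tot X := by
  induction X with
  | nil => simp [sm, tot]
  | cons o X ih =>
    change 4 * (mean (vx o) + sm mean X) = ((ms o + tot X : ℕ) : ℝ)
    rw [mul_add, ih, mean4]
    unfold ms
    push_cast
    show 4 * (((o.x0 : ℝ) + o.x1 + o.x2 + o.x3) / 4) + _ = _
    ring

theorem hi_zero {S : ℝ} {X : List It} (h : 4 * S ≤ tot X) (ν : ℕ → ℝ) :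
    Hi S X (ev ν 4 (-1 / 3) 0) := by
  intro F hF
  rw [ev_zero _ _ hF]
  have a := list_le X (F e0) (g := fun o => mean (vx o)) (h := fun o => F (vx o)) fun o => by
    rw [mul_comm]; exact hF.frozen_le (vx_nn o)
  have b := sm_mean X
  have c := mul_le_mul_of_nonneg_right (show S ≤ sm mean X by linarith) (hF.nn _ nn_e0)
  exact c.trans (le_trans (le_of_eq (mul_comm _ _)) a)

def top (X : List It) : ℕ := (X.map It.x0).sum

theorem sm_tv (X : List It) : 32 * sm tv X + 4 * top X ≤ 9 * tot X := by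
  induction X with
  | nil => simp [sm, tot, top]
  | cons o X ih =>
    change 32 * (tv (vx o) + sm tv X) + 4 * ((o.x0 + top X : ℕ) : ℝ) ≤ 9 * ((ms o + tot X : ℕ) : ℝ)
    have a : 1 / 2 * (1 / 4 * (o.x0 : ℝ) - mean (vx o) / 4) ≤ anti_phi 4 (vx o) := by
      unfold anti_phi
      refine mul_le_mul_of_nonneg_left ?_ (by norm_num)
      refine le_trans (le_trans (le_of_eq ?_) (le_abs_self _)) (Finset.single_le_sum
        (f := fun i => |(1 / (4 : ℕ) : ℝ) * vx o i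
          - (∑ j : Fin 4, (1 / (4 : ℕ) : ℝ) * vx o j) * (1 / (4 : ℕ))|)
        (fun _ _ => abs_nonneg _) (Finset.mem_univ 0))
      rw [mean4, Fin.sum_univ_four]
      push_cast
      show _ = 1 / 4 * (o.x0 : ℝ) - _
      ring
    have b : mean (vx o) = ((o.x0 : ℝ) + o.x1 + o.x2 + o.x3) / 4 := mean4 _
    have e : tv (vx o) = mean (vx o) - anti_phi 4 (vx o) := rfl
    rw [e]
    unfold ms
    push_cast
    linarith

theorem rec_of_hi {ν : ℕ → ℝ} (hν : ∀ k, 0 ≤ ν k) (hs : HasSum ν 1) {S : ℕ} {X : List It}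
    (hS : 0 < S) (h0 : 4 * S ≤ tot X) (h1 : 9 * tot X ≤ 4 * top X + 31 * S)
    (step : ∀ n, Hi S X (ev ν 4 (-1 / 3) n) → Hi S X (ev ν 4 (-1 / 3) (n + 1))) :
    Reconstruction ν 4 (-1 / 3) := by
  have all : ∀ n, Hi S X (ev ν 4 (-1 / 3) n) := fun n =>
    Nat.rec (hi_zero (by exact_mod_cast h0) ν) step n
  refine reconstruction_of_le (by norm_num) (by norm_num) (by norm_num) hν hs (c := 1 / 32)
    (by norm_num) fun n => ?_
  rw [advantage_eq_tv p3 hν hs]
  have a := all n _ tst_tv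
  have b := sm_tv X
  have c : (9 : ℝ) * tot X ≤ 4 * top X + 31 * S := by exact_mod_cast h1
  have d : (0 : ℝ) < S := by exact_mod_cast hS
  have e : ev ν 4 (-1 / 3) n tv ≤ 31 / 32 := le_of_mul_le_mul_left (by linarith) d
  linarith

theorem rec_eight : Reconstruction (regularOffspring 8) 4 (-1 / 3) := by
  have hν := regular_nonneg' 8
  have hs := regular_hasSum' 8
  refine rec_of_hi hν hs (S := 2 ^ 30) (X := X0) (by norm_num) (by decide +kernel)
    (by decide +kernel) fun n h => ?_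
  have hE := (ch_ev p3 hν hs n).edge p3
  have a1 := hi_edge h (Y := X1) (by decide +kernel)
  have a2 := hi_sq hE (S' := 2 ^ 30) (by positivity) a1 rfl (by norm_num) (by decide +kernel)
    (by decide +kernel) (by norm_num) (by norm_num) run1
  have a3 := hi_sq (hE.conv hE) (S' := 2 ^ 30) (by positivity) a2 rfl (by norm_num)
    (by decide +kernel) (by decide +kernel) (by norm_num) (by norm_num) run2
  have a4 := hi_sq ((hE.conv hE).conv (hE.conv hE)) (S' := 2 ^ 30) (by positivity) a3 rfl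
    (by norm_num) (by decide +kernel) (by decide +kernel) (by norm_num) (by norm_num) run3
  intro F hF
  rw [ev_succ p3 hν hs n hF.nb, tsum_reg, show (8 : ℕ) = 1 + 1 + (1 + 1) + (1 + 1 + (1 + 1)) by rfl]
  simp only [pw_add, pw_one]
  exact_mod_cast a4 F hF

end Dn

end Vale.Agent.N154A
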