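import Vale.Agent.N154A.Dn
import Vale.Agent.P154B7.Main

/-!
# P154, four spins, negative eigenvalue: the statements for the process on a probability space
-/

set_option linter.all false

namespace Vale.Agent.N154A

open Vale.Agent.P154 Vale.Agent.P154B7

universe u

theorem pot {lam : ℝ} (h0 : -1 / 3 ≤ lam) (h1 : lam < 0) (i j : Fin 4) : 0 ≤ potts 4 lam i j :=
  anti_potts_nonneg (by norm_num) (by push_cast; linarith) (by linarith) i j

theorem below {ν ν' : ℕ → ℝ} (hν : ∀ k, 0 ≤ ν k) (hs : HasSum ν 1) (hν' : ∀ k, 0 ≤ ν' k)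
    (hs' : HasSum ν' 1) (hd : Dom ν ν') (h : Nonreconstruction ν' 4 (-1 / 3)) {lam d : ℝ}
    (h0 : -1 / 3 ≤ lam) (h1 : lam < 0) (d0 : 0 ≤ d) (d1 : d ≤ 9) : Threshold.{u} ν 4 lam d := by
  have a := nonrec_mono (μ := -3 * lam) (by linarith) (by linarith) (by ring) (pot h0 h1) p3 hν hs
    hν' hs' hd h
  have b : lam ^ 2 ≤ 1 / 9 := by nlinarith
  have c : d * lam ^ 2 ≤ 1 := by nlinarith [sq_nonneg lam]
  refine threshold_of hν hs 0 (pot h0 h1) ⟨?_, iff_of_true a c⟩
  rw [reconstruction_iff (by norm_num) (by push_cast; linarith) (by linarith) hν hs]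
  exact iff_of_false (not_not.2 a) (not_lt.2 c)

theorem colour_reg (d : ℕ) : (Reconstruction (regularOffspring d) 4 (-1 / 3) ↔ 8 ≤ d) ∧
    (Nonreconstruction (regularOffspring d) 4 (-1 / 3) ↔ d ≤ 7) := by
  have r := fun k => reconstruction_iff (q := 4) (lam := -1 / 3) (by norm_num) (by norm_num)
    (by norm_num) (reg0 k) (reg1 k)
  have m := fun (a b : ℕ) (h : a ≤ b) => nonrec_mono (μ := 1) (by norm_num) le_rfl (by ring) p3 p3
    (reg0 a) (reg1 a) (reg0 b) (reg1 b) (dom_reg h)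
  have n : Nonreconstruction (regularOffspring d) 4 (-1 / 3) ↔ d ≤ 7 :=
    ⟨fun h => by
      by_contra c
      exact (r 8).1 Dn.rec_eight (m 8 d (by omega) h), fun h => m d 7 h Up.nonrec_seven⟩
  refine ⟨?_, n⟩
  rw [r, n]
  omega

end Vale.Agent.N154A
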