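import Vale.Agent.P154.Bdl.B10

/-!
# P154, four spins: symmetric channels as positive functionals

A symmetric channel is seen through the values `Φ F` it gives to functions `F` of the likelihood
vector.  Products of independent observations, edges and mixtures over the offspring number act on
such functionals, and the broadcast process satisfies the distributional recursion.
-/

set_option linter.all false

namespace Vale.Agent.N154A

open Vale.Agent.P154 Equiv
open scoped ENNReal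

abbrev V := Fin 4 → ℝ

def Nn (v : V) : Prop := ∀ i, 0 ≤ v i

/-- nonnegative and bounded by a multiple of the mean on the cone -/
def NB (F : V → ℝ) : Prop := ∃ C : ℝ, ∀ v, Nn v → 0 ≤ F v ∧ F v ≤ C * mean v

/-- test functions: superlinear, nonnegative, symmetric -/
structure Tst (F : V → ℝ) : Prop where
  sup : SupLin F
  nn : ∀ v, Nn v → 0 ≤ F v
  sym : ∀ (τ : Perm (Fin 4)) (v : V), F (fun i => v (τ i)) = F v

theorem mean4 (v : V) : mean v = (v 0 + v 1 + v 2 + v 3) / 4 := by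
  unfold mean
  rw [Fin.sum_univ_four]
  norm_num

theorem mean_nn {v : V} (hv : Nn v) : 0 ≤ mean v := by
  rw [mean4]
  have := hv 0; have := hv 1; have := hv 2; have := hv 3
  positivity

theorem le_mean {v : V} (hv : Nn v) (i : Fin 4) : v i ≤ 4 * mean v := by
  rw [mean4]
  have := hv 0; have := hv 1; have := hv 2; have := hv 3
  fin_cases i <;> simp <;> linarith

theorem mean_perm (τ : Perm (Fin 4)) (v : V) : mean (fun i => v (τ i)) = mean v := by
  unfold mean
  rw [Equiv.sum_comp τ v]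

theorem Nn.mul {u v : V} (hu : Nn u) (hv : Nn v) : Nn (u * v) := fun i => mul_nonneg (hu i) (hv i)

theorem Nn.perm {v : V} (hv : Nn v) (τ : Perm (Fin 4)) : Nn (fun i => v (τ i)) := fun i => hv _

theorem nn_one : Nn (1 : V) := fun _ => zero_le_one

theorem mean_one : mean (1 : V) = 1 := by
  rw [mean4]; simp; norm_num

theorem mean_mul_le {u v : V} (hu : Nn u) (hv : Nn v) : mean (u * v) ≤ 4 * mean u * mean v := by
  have h : ∀ i, u i * v i ≤ 4 * mean u * v i := fun i =>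
    mul_le_mul_of_nonneg_right (le_mean hu i) (hv i)
  rw [mean4 (u * v), mean4 v]
  have := h 0; have := h 1; have := h 2; have := h 3
  simp only [Pi.mul_apply]
  linarith

/-! ### Superlinear functions -/

theorem sup_two {F : V → ℝ} (hF : SupLin F) {a b : ℝ} (ha : 0 ≤ a) (hb : 0 ≤ b) {u v : V}
    (hu : Nn u) (hv : Nn v) : a * F u + b * F v ≤ F (fun i => a * u i + b * v i) := by
  have h := hF (Fin 2) Finset.univ ![a, b] ![u, v] (fun x _ => by fin_cases x <;> assumption)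
    (fun x _ => by fin_cases x <;> assumption)
  simp only [Fin.sum_univ_two] at h
  exact h

theorem sup_zero {F : V → ℝ} (hF : SupLin F) : F (fun _ => 0) = 0 := by
  have h0 : Nn (fun _ : Fin 4 => (0 : ℝ)) := fun _ => le_rfl
  have h1 := sup_two hF zero_le_one zero_le_one h0 h0
  have h2 := sup_two hF le_rfl le_rfl h0 h0
  simp only [mul_zero, add_zero, one_mul, zero_mul] at h1 h2
  linarith

theorem sup_smul {F : V → ℝ} (hF : SupLin F) {a : ℝ} (ha : 0 ≤ a) {u : V} (hu : Nn u) :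
    F (fun i => a * u i) = a * F u := by
  rcases ha.eq_or_lt with rfl | hp
  · simp only [zero_mul]; exact sup_zero hF
  · have h1 := sup_two hF hp.le le_rfl hu hu
    have hau : Nn (fun i => a * u i) := fun i => mul_nonneg hp.le (hu i)
    have h2 := sup_two hF (inv_nonneg.2 hp.le) le_rfl hau hau
    simp only [zero_mul, add_zero] at h1 h2
    have e : (fun i => a⁻¹ * (a * u i)) = u := by
      funext i; field_simp
    rw [e] at h2
    have h3 := mul_le_mul_of_nonneg_left h2 hp.le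
    rw [← mul_assoc, mul_inv_cancel₀ hp.ne', one_mul] at h3
    linarith

theorem sup_add {F : V → ℝ} (hF : SupLin F) {u v : V} (hu : Nn u) (hv : Nn v) :
    F u + F v ≤ F (u + v) := by
  have h := sup_two hF zero_le_one zero_le_one hu hv
  simp only [one_mul] at h
  exact h

theorem sup_mono {F : V → ℝ} (hF : SupLin F) (h0 : ∀ v, Nn v → 0 ≤ F v) {u v : V} (hu : Nn u)
    (huv : ∀ i, u i ≤ v i) : F u ≤ F v := by
  have hd : Nn (v - u) := fun i => sub_nonneg.2 (huv i)
  have h := sup_add hF hu hd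
  rw [add_sub_cancel] at h
  linarith [h0 _ hd]

theorem nb_of_sup {F : V → ℝ} (hF : SupLin F) (h0 : ∀ v, Nn v → 0 ≤ F v) : NB F := by
  refine ⟨4 * F 1, fun v hv => ⟨h0 v hv, ?_⟩⟩
  have h1 := sup_mono hF h0 hv (v := fun i => (4 * mean v) * (1 : V) i)
    (fun i => by simpa using le_mean hv i)
  rw [sup_smul hF (by have := mean_nn hv; positivity) nn_one] at h1
  linarith

theorem Tst.nb {F : V → ℝ} (hF : Tst F) : NB F := nb_of_sup hF.sup hF.nn

theorem Tst.mono {F : V → ℝ} (hF : Tst F) {u v : V} (hu : Nn u) (huv : ∀ i, u i ≤ v i) :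
    F u ≤ F v := sup_mono hF.sup hF.nn hu huv

theorem sup_mul {F : V → ℝ} (hF : SupLin F) {u : V} (hu : Nn u) : SupLin (fun v => F (u * v)) := by
  intro ι s w v hw hv
  have h := hF ι s w (fun a => u * v a) hw (fun a ha i => mul_nonneg (hu i) (hv a ha i))
  refine h.trans (le_of_eq ?_)
  congr 1
  funext i
  simp only [Pi.mul_apply]
  rw [Finset.mul_sum]
  refine Finset.sum_congr rfl fun a _ => ?_
  ring

theorem sup_pl {F : V → ℝ} (hF : SupLin F) {lam : ℝ} (hp : ∀ i j : Fin 4, 0 ≤ potts 4 lam i j) :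
    SupLin (fun v => F (pl lam v)) := by
  intro ι s w v hw hv
  have h := hF ι s w (fun a => pl lam (v a)) hw
    (fun a ha => pl_nonneg (by norm_num) hp (v a) (hv a ha))
  refine h.trans (le_of_eq ?_)
  congr 1
  funext i
  unfold pl mean
  rw [Finset.mul_sum, Finset.sum_comm, Finset.sum_div, Finset.mul_sum, ← Finset.sum_add_distrib]
  refine Finset.sum_congr rfl fun a _ => ?_
  rw [← Finset.mul_sum]
  ring

theorem sup_mean : SupLin (mean : V → ℝ) := by
  intro ι s w v _ _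
  refine le_of_eq ?_
  simp only [mean4]
  rw [← Finset.sum_add_distrib, ← Finset.sum_add_distrib, ← Finset.sum_add_distrib, Finset.sum_div]
  refine Finset.sum_congr rfl fun a _ => ?_
  ring

theorem tst_mean : Tst (mean : V → ℝ) := ⟨sup_mean, fun _ hv => mean_nn hv, mean_perm⟩

theorem pl_perm' (lam : ℝ) (τ : Perm (Fin 4)) (v : V) :
    pl lam (fun i => v (τ i)) = fun i => pl lam v (τ i) := funext fun i => pl_perm v τ i

theorem Tst.pl {F : V → ℝ} (hF : Tst F) {lam : ℝ} (hp : ∀ i j : Fin 4, 0 ≤ potts 4 lam i j) :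
    Tst (fun v => F (pl lam v)) :=
  ⟨sup_pl hF.sup hp, fun v hv => hF.nn _ (pl_nonneg (by norm_num) hp v hv), fun τ v => by
    rw [pl_perm', hF.sym]⟩

/-- symmetrisation -/
noncomputable def sy (F : V → ℝ) (v : V) : ℝ := ∑ τ : Perm (Fin 4), F (fun i => v (τ i))

theorem tst_sy {F : V → ℝ} (hF : SupLin F) (h0 : ∀ v, Nn v → 0 ≤ F v) : Tst (sy F) := by
  refine ⟨?_, fun v hv => Finset.sum_nonneg fun τ _ => h0 _ (hv.perm τ), fun σ v => ?_⟩
  · intro ι s w v hw hv
    unfold sy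
    simp_rw [Finset.mul_sum]
    rw [Finset.sum_comm]
    exact Finset.sum_le_sum fun τ _ => hF ι s w (fun a i => v a (τ i)) hw fun a ha i => hv a ha _
  · unfold sy
    exact Equiv.sum_comp (Equiv.mulLeft σ) (fun τ => F fun i => v (τ i))

theorem Tst.le_const {F : V → ℝ} (hF : Tst F) {v : V} (hv : Nn v) : F v ≤ mean v * F 1 := by
  have h := hF.sup (Fin 4) Finset.univ (fun _ => 1 / 4)
    (fun a i => v ((finRotate 4 ^ (a : ℕ)) i)) (fun _ _ => by norm_num) (fun a _ i => hv _)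
  simp only [hF.sym] at h
  rw [← sup_smul hF.sup (mean_nn hv) nn_one]
  have e : (fun i => ∑ a : Fin 4, 1 / 4 * v ((finRotate 4 ^ (a : ℕ)) i))
      = fun i => mean v * (1 : V) i := by
    funext i
    rw [mean4, Fin.sum_univ_four]
    fin_cases i
    · change 1 / 4 * v 0 + 1 / 4 * v 1 + 1 / 4 * v 2 + 1 / 4 * v 3 = _ * 1
      ring
    · change 1 / 4 * v 1 + 1 / 4 * v 2 + 1 / 4 * v 3 + 1 / 4 * v 0 = _ * 1
      ring
    · change 1 / 4 * v 2 + 1 / 4 * v 3 + 1 / 4 * v 0 + 1 / 4 * v 1 = _ * 1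
      ring
    · change 1 / 4 * v 3 + 1 / 4 * v 0 + 1 / 4 * v 1 + 1 / 4 * v 2 = _ * 1
      ring
  rw [e, Fin.sum_univ_four] at h
  linarith

theorem Tst.le_pl {F : V → ℝ} (hF : Tst F) {μ : ℝ} (h0 : 0 ≤ μ) (h1 : μ ≤ 1) {v : V}
    (hv : Nn v) : F v ≤ F (P154.pl μ v) := by
  have h := sup_two hF.sup h0 (mul_nonneg (sub_nonneg.2 h1) (mean_nn hv)) hv nn_one
  have h2 := mul_le_mul_of_nonneg_left (hF.le_const hv) (sub_nonneg.2 h1)
  have e : (fun i => μ * v i + (1 - μ) * mean v * (1 : V) i) = P154.pl μ v := by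
    funext i; simp [P154.pl]
  rw [e] at h
  linarith

/-- the frozen message -/
def e0 : V := ![4, 0, 0, 0]

theorem nn_e0 : Nn e0 := fun i => by fin_cases i <;> simp [e0]

theorem Tst.frozen_le {F : V → ℝ} (hF : Tst F) {v : V} (hv : Nn v) : mean v * F e0 ≤ F v := by
  have h := hF.sup (Fin 4) Finset.univ (fun a => v a / 4)
    (fun a i => e0 (Equiv.swap 0 a i)) (fun a _ => by have := hv a; positivity)
    (fun a _ i => nn_e0 _)
  simp only [hF.sym] at h
  have e : (fun i => ∑ a : Fin 4, v a / 4 * e0 (Equiv.swap 0 a i)) = v := by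
    funext i
    rw [Fin.sum_univ_four]
    fin_cases i
    · change v 0 / 4 * 4 + v 1 / 4 * 0 + v 2 / 4 * 0 + v 3 / 4 * 0 = v 0
      ring
    · change v 0 / 4 * 0 + v 1 / 4 * 4 + v 2 / 4 * 0 + v 3 / 4 * 0 = v 1
      ring
    · change v 0 / 4 * 0 + v 1 / 4 * 0 + v 2 / 4 * 4 + v 3 / 4 * 0 = v 2
      ring
    · change v 0 / 4 * 0 + v 1 / 4 * 0 + v 2 / 4 * 0 + v 3 / 4 * 4 = v 3
      ring
  rw [e, Fin.sum_univ_four] at h
  rw [mean4]
  linarith

theorem Tst.sub_frozen {F : V → ℝ} (hF : Tst F) : Tst (fun v => F v - F e0 * mean v) := by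
  refine ⟨?_, fun v hv => ?_, fun τ v => by rw [hF.sym, mean_perm]⟩
  · intro ι s w v hw hv
    have h1 := hF.sup ι s w v hw hv
    have h2 : mean (fun i => ∑ a ∈ s, w a * v a i) = ∑ a ∈ s, w a * mean (v a) := by
      simp only [mean4]
      rw [← Finset.sum_add_distrib, ← Finset.sum_add_distrib, ← Finset.sum_add_distrib,
        Finset.sum_div]
      refine Finset.sum_congr rfl fun a _ => ?_
      ring
    have h3 : ∑ a ∈ s, w a * (F (v a) - F e0 * mean (v a))
        = ∑ a ∈ s, w a * F (v a) - F e0 * ∑ a ∈ s, w a * mean (v a) := by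
      rw [Finset.mul_sum, ← Finset.sum_sub_distrib]
      refine Finset.sum_congr rfl fun a _ => ?_
      ring
    show _ ≤ F _ - F e0 * mean _
    rw [h2, h3]
    linarith
  · have := hF.frozen_le hv
    linarith

/-! ### Bounded functions -/

theorem NB.nn {F : V → ℝ} (h : NB F) {v : V} (hv : Nn v) : 0 ≤ F v := (h.choose_spec v hv).1

theorem nb_mean : NB (mean : V → ℝ) := tst_mean.nb

theorem NB.add {F G : V → ℝ} (hF : NB F) (hG : NB G) : NB (fun v => F v + G v) := by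
  obtain ⟨C, hC⟩ := hF
  obtain ⟨D, hD⟩ := hG
  refine ⟨C + D, fun v hv => ⟨add_nonneg (hC v hv).1 (hD v hv).1, ?_⟩⟩
  have := (hC v hv).2; have := (hD v hv).2
  show F v + G v ≤ _
  linarith

theorem NB.smul {F : V → ℝ} (hF : NB F) {a : ℝ} (ha : 0 ≤ a) : NB (fun v => a * F v) := by
  obtain ⟨C, hC⟩ := hF
  refine ⟨a * C, fun v hv => ⟨mul_nonneg ha (hC v hv).1, ?_⟩⟩
  rw [mul_assoc]
  exact mul_le_mul_of_nonneg_left (hC v hv).2 ha

theorem nb_zero : NB (fun _ => 0) := ⟨0, fun _ _ => ⟨le_rfl, by simp⟩⟩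

theorem nb_sum {ι : Type} (s : Finset ι) (F : ι → V → ℝ) (h : ∀ a ∈ s, NB (F a)) :
    NB (fun v => ∑ a ∈ s, F a v) := by
  classical
  induction s using Finset.induction_on with
  | empty => simpa using nb_zero
  | insert a s ha ih =>
    simp only [Finset.sum_insert ha]
    exact (h a (Finset.mem_insert_self _ _)).add
      (ih fun b hb => h b (Finset.mem_insert_of_mem hb))

theorem NB.perm {F : V → ℝ} (hF : NB F) (τ : Perm (Fin 4)) : NB (fun v => F fun i => v (τ i)) := by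
  obtain ⟨C, hC⟩ := hF
  refine ⟨C, fun v hv => ?_⟩
  have := hC _ (hv.perm τ)
  rwa [mean_perm] at this

theorem NB.pos {F : V → ℝ} (hF : NB F) :
    ∃ C : ℝ, 0 ≤ C ∧ ∀ v, Nn v → 0 ≤ F v ∧ F v ≤ C * mean v := by
  obtain ⟨C, hC⟩ := hF
  refine ⟨C, ?_, hC⟩
  have := hC 1 nn_one
  rw [mean_one] at this
  linarith [this.1, this.2]

theorem NB.mul {F : V → ℝ} (hF : NB F) {u : V} (hu : Nn u) : NB (fun v => F (u * v)) := by
  obtain ⟨C, h0, hC⟩ := hF.pos
  refine ⟨C * (4 * mean u), fun v hv => ⟨(hC _ (hu.mul hv)).1, (hC _ (hu.mul hv)).2.trans ?_⟩⟩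
  rw [mul_assoc]
  exact mul_le_mul_of_nonneg_left (mean_mul_le hu hv) h0

theorem NB.pl {F : V → ℝ} (hF : NB F) {lam : ℝ} (hp : ∀ i j : Fin 4, 0 ≤ potts 4 lam i j) :
    NB (fun v => F (pl lam v)) := by
  obtain ⟨C, hC⟩ := hF
  refine ⟨C, fun v hv => ?_⟩
  have := hC _ (pl_nonneg (by norm_num) hp v hv)
  rwa [mean_pl (by norm_num)] at this

theorem NB.homBdd {F : V → ℝ} (hF : NB F) : ∃ C, HomBdd F C := by
  obtain ⟨C, hC⟩ := hF
  exact ⟨C, fun v hv => by rw [abs_of_nonneg (hC v hv).1]; exact (hC v hv).2⟩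

theorem nb_coord (i : Fin 4) : NB (fun v => v i) := ⟨4, fun v hv => ⟨hv i, le_mean hv i⟩⟩

theorem NB.sy {F : V → ℝ} (hF : NB F) : NB (sy F) := nb_sum _ _ fun τ _ => hF.perm τ

/-! ### Channels -/

/-- a symmetric normalised channel, as a functional -/
structure Ch (Φ : (V → ℝ) → ℝ) : Prop where
  mono : ∀ F G, NB F → NB G → (∀ v, Nn v → F v ≤ G v) → Φ F ≤ Φ G
  add : ∀ F G, NB F → NB G → Φ (fun v => F v + G v) = Φ F + Φ G
  smul : ∀ (a : ℝ) F, NB F → 0 ≤ a → Φ (fun v => a * F v) = a * Φ F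
  sym : ∀ (τ : Perm (Fin 4)) F, NB F → Φ (fun v => F fun i => v (τ i)) = Φ F
  mass : Φ mean = 1
  jen : ∀ F, NB F → SupLin F → Φ F ≤ F 1

variable {Φ Ψ : (V → ℝ) → ℝ}

theorem Ch.zero (h : Ch Φ) : Φ (fun _ => 0) = 0 := by
  have := h.smul 0 mean nb_mean le_rfl
  simpa using this

theorem Ch.nonneg (h : Ch Φ) {F : V → ℝ} (hF : NB F) : 0 ≤ Φ F := by
  rw [← h.zero]
  exact h.mono _ _ nb_zero hF fun v hv => hF.nn hv

theorem Ch.congr (h : Ch Φ) {F G : V → ℝ} (hF : NB F) (hG : NB G) (e : ∀ v, Nn v → F v = G v) :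
    Φ F = Φ G :=
  le_antisymm (h.mono _ _ hF hG fun v hv => (e v hv).le) (h.mono _ _ hG hF fun v hv => (e v hv).ge)

theorem Ch.sum (h : Ch Φ) {ι : Type} (s : Finset ι) (F : ι → V → ℝ) (hF : ∀ a ∈ s, NB (F a)) :
    Φ (fun v => ∑ a ∈ s, F a v) = ∑ a ∈ s, Φ (F a) := by
  classical
  induction s using Finset.induction_on with
  | empty => simpa using h.zero
  | insert a s ha ih =>
    simp only [Finset.sum_insert ha]
    rw [h.add _ _ (hF a (Finset.mem_insert_self _ _))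
      (nb_sum s F fun b hb => hF b (Finset.mem_insert_of_mem hb)),
      ih fun b hb => hF b (Finset.mem_insert_of_mem hb)]

theorem Ch.le_of (h : Ch Φ) {F : V → ℝ} {C : ℝ} (h0 : 0 ≤ C) (hF : NB F)
    (hC : ∀ v, Nn v → F v ≤ C * mean v) : Φ F ≤ C := by
  have := h.mono _ _ hF (nb_mean.smul h0) hC
  rwa [h.smul _ _ nb_mean h0, h.mass, mul_one] at this

theorem Ch.sy (h : Ch Φ) {F : V → ℝ} (hF : NB F) : Φ (sy F) = 24 * Φ F := by
  unfold N154A.sy
  rw [h.sum _ _ fun τ _ => hF.perm τ]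
  simp only [h.sym _ _ hF, Finset.sum_const, Finset.card_univ, Fintype.card_perm,
    Fintype.card_fin, nsmul_eq_mul]
  norm_num [Nat.factorial]

theorem Ch.coord (h : Ch Φ) (i : Fin 4) : Φ (fun v => v i) = 1 := by
  have e : ∀ j : Fin 4, Φ (fun v => v j) = Φ (fun v => v i) := by
    intro j
    have := h.sym (Equiv.swap i j) _ (nb_coord i)
    simpa only [Equiv.swap_apply_left] using this
  have h1 := h.sum Finset.univ (fun (j : Fin 4) (v : V) => v j) fun j _ => nb_coord j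
  have h2 := h.smul 4 mean nb_mean (by norm_num)
  have e2 : (fun v : V => 4 * mean v) = fun v => ∑ j, v j := by
    funext v; rw [mean4, Fin.sum_univ_four]; ring
  rw [e2, h1, h.mass, Fin.sum_univ_four, e 0, e 1, e 2, e 3] at h2
  linarith

theorem Ch.mean_mul (h : Ch Φ) {u : V} (hu : Nn u) : Φ (fun v => mean (u * v)) = mean u := by
  have e : (fun v : V => mean (u * v)) = fun v => ∑ j, (u j / 4) * v j := by
    funext v; rw [mean4, Fin.sum_univ_four]; simp only [Pi.mul_apply]; ring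
  have hj : ∀ j, 0 ≤ u j / 4 := fun j => by have := hu j; positivity
  rw [e, h.sum Finset.univ (fun (j : Fin 4) (v : V) => (u j / 4) * v j)
    fun j _ => (nb_coord j).smul (hj j)]
  simp only [h.smul _ _ (nb_coord _) (hj _), h.coord]
  rw [mean4, Fin.sum_univ_four]
  ring

/-- average of `F (u * ·)` -/
def lift (Ψ : (V → ℝ) → ℝ) (F : V → ℝ) (u : V) : ℝ := Ψ (fun w => F (u * w))

theorem Ch.lift_nb (h : Ch Ψ) {F : V → ℝ} (hF : NB F) : NB (lift Ψ F) := by
  obtain ⟨C, h0, hC⟩ := hF.pos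
  refine ⟨C, fun u hu => ⟨h.nonneg (hF.mul hu), ?_⟩⟩
  have := h.mono _ _ (hF.mul hu) ((nb_mean.mul hu).smul h0) fun v hv => (hC _ (hu.mul hv)).2
  rwa [h.smul _ _ (nb_mean.mul hu) h0, h.mean_mul hu] at this

theorem Ch.lift_sup (h : Ch Ψ) {F : V → ℝ} (hF : NB F) (hs : SupLin F) : SupLin (lift Ψ F) := by
  intro ι s w u hw hu
  unfold lift
  have hb : ∀ a ∈ s, NB (fun v => w a * F (u a * v)) := fun a ha =>
    (hF.mul (hu a ha)).smul (hw a ha)
  have e : ∑ a ∈ s, w a * Ψ (fun v => F (u a * v)) = Ψ (fun v => ∑ a ∈ s, w a * F (u a * v)) := by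
    rw [h.sum s _ hb]
    exact Finset.sum_congr rfl fun a ha => (h.smul _ _ (hF.mul (hu a ha)) (hw a ha)).symm
  rw [e]
  have hU : Nn (fun i => ∑ a ∈ s, w a * u a i) := fun i =>
    Finset.sum_nonneg fun a ha => mul_nonneg (hw a ha) (hu a ha i)
  refine h.mono _ _ (nb_sum s _ hb) (hF.mul hU) fun v hv => ?_
  refine (hs ι s w (fun a => u a * v) hw fun a ha => Nn.mul (hu a ha) hv).trans (le_of_eq ?_)
  congr 1
  funext i
  simp only [Pi.mul_apply]
  rw [Finset.sum_mul]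
  refine Finset.sum_congr rfl fun a _ => ?_
  ring

theorem Ch.lift_perm (h : Ch Ψ) {F : V → ℝ} (hF : NB F) (τ : Perm (Fin 4)) {u : V} (hu : Nn u) :
    lift Ψ F (fun i => u (τ i)) = lift Ψ (fun v => F fun i => v (τ i)) u :=
  (h.sym τ _ (hF.mul (hu.perm τ))).symm

/-- `lift`, cut off outside the cone so that it is symmetric everywhere -/
noncomputable def liftc (Ψ : (V → ℝ) → ℝ) (F : V → ℝ) (u : V) : ℝ := lift Ψ F (fun i => |u i|)

theorem liftc_eq {F : V → ℝ} {u : V} (hu : Nn u) : liftc Ψ F u = lift Ψ F u := by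
  unfold liftc
  congr 1
  funext i
  exact abs_of_nonneg (hu i)

theorem Ch.liftc_tst (h : Ch Ψ) {F : V → ℝ} (hF : Tst F) : Tst (liftc Ψ F) := by
  refine ⟨?_, fun v hv => ?_, fun τ v => ?_⟩
  · intro ι s w u hw hu
    have hU : Nn (fun i => ∑ a ∈ s, w a * u a i) := fun i =>
      Finset.sum_nonneg fun a ha => mul_nonneg (hw a ha) (hu a ha i)
    rw [liftc_eq hU]
    refine le_trans (le_of_eq ?_) (h.lift_sup hF.nb hF.sup ι s w u hw hu)
    exact Finset.sum_congr rfl fun a ha => by rw [liftc_eq (hu a ha)]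
  · rw [liftc_eq hv]; exact (h.lift_nb hF.nb).nn hv
  · unfold liftc
    have := h.lift_perm hF.nb τ (u := fun i => |v i|) fun i => abs_nonneg _
    simp only [hF.sym] at this
    exact this

/-- two independent observations -/
def conv (Φ Ψ : (V → ℝ) → ℝ) (F : V → ℝ) : ℝ := Φ (lift Ψ F)

theorem Ch.conv_eq (hΦ : Ch Φ) (h : Ch Ψ) {F : V → ℝ} (hF : Tst F) :
    conv Φ Ψ F = Φ (liftc Ψ F) :=
  hΦ.congr (h.lift_nb hF.nb) (h.liftc_tst hF).nb fun _ hv => (liftc_eq hv).symm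

theorem Ch.conv (hΦ : Ch Φ) (h : Ch Ψ) : Ch (conv Φ Ψ) where
  mono F G hF hG hle := hΦ.mono _ _ (h.lift_nb hF) (h.lift_nb hG) fun u hu =>
    h.mono _ _ (hF.mul hu) (hG.mul hu) fun v hv => hle _ (hu.mul hv)
  add F G hF hG := by
    unfold N154A.conv
    rw [← hΦ.add _ _ (h.lift_nb hF) (h.lift_nb hG)]
    exact hΦ.congr (h.lift_nb (hF.add hG)) ((h.lift_nb hF).add (h.lift_nb hG)) fun u hu =>
      h.add _ _ (hF.mul hu) (hG.mul hu)
  smul a F hF ha := by
    unfold N154A.conv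
    rw [← hΦ.smul _ _ (h.lift_nb hF) ha]
    exact hΦ.congr (h.lift_nb (hF.smul ha)) ((h.lift_nb hF).smul ha) fun u hu =>
      h.smul _ _ (hF.mul hu) ha
  sym τ F hF := by
    unfold N154A.conv
    rw [← hΦ.sym τ _ (h.lift_nb hF)]
    exact hΦ.congr (h.lift_nb (hF.perm τ)) ((h.lift_nb hF).perm τ) fun u hu =>
      (h.lift_perm hF τ hu).symm
  mass := by
    unfold N154A.conv
    rw [← hΦ.mass]
    exact hΦ.congr (h.lift_nb nb_mean) nb_mean fun u hu => h.mean_mul hu
  jen F hF hs := by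
    refine (hΦ.jen _ (h.lift_nb hF) (h.lift_sup hF hs)).trans ?_
    have := h.jen _ (hF.mul nn_one) (sup_mul hs nn_one)
    simp only [mul_one] at this
    exact this

/-- no observation -/
def unit (F : V → ℝ) : ℝ := F 1

theorem ch_unit : Ch unit where
  mono F G _ _ hle := hle 1 nn_one
  add _ _ _ _ := rfl
  smul _ _ _ _ := rfl
  sym _ _ _ := rfl
  mass := mean_one
  jen _ _ _ := le_rfl

/-- an edge in front of a channel -/
noncomputable def edge (lam : ℝ) (Φ : (V → ℝ) → ℝ) (F : V → ℝ) : ℝ := Φ (fun v => F (pl lam v))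

theorem pl_one (lam : ℝ) : pl lam (1 : V) = 1 := by
  funext i; unfold pl; rw [mean_one]; simp

theorem Ch.edge (h : Ch Φ) {lam : ℝ} (hp : ∀ i j : Fin 4, 0 ≤ potts 4 lam i j) :
    Ch (edge lam Φ) where
  mono F G hF hG hle := h.mono _ _ (hF.pl hp) (hG.pl hp) fun v hv =>
    hle _ (pl_nonneg (by norm_num) hp v hv)
  add F G hF hG := h.add _ _ (hF.pl hp) (hG.pl hp)
  smul a F hF ha := h.smul _ _ (hF.pl hp) ha
  sym τ F hF := by
    have := h.sym τ _ (hF.pl hp)
    simp only [pl_perm'] at this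
    exact this
  mass := by
    unfold N154A.edge
    simp only [mean_pl (q := 4) (by norm_num)]
    exact h.mass
  jen F hF hs := by
    have := h.jen _ (hF.pl hp) (sup_pl hs hp)
    rwa [pl_one] at this

/-- `k` independent observations -/
def pw (E : (V → ℝ) → ℝ) : ℕ → (V → ℝ) → ℝ
  | 0 => unit
  | k + 1 => conv (pw E k) E

theorem Ch.pw {E : (V → ℝ) → ℝ} (h : Ch E) : ∀ k, Ch (pw E k)
  | 0 => ch_unit
  | k + 1 => (Ch.pw h k).conv h

theorem conv_assoc (Φ Ψ X : (V → ℝ) → ℝ) : conv (conv Φ Ψ) X = conv Φ (conv Ψ X) := by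
  funext F
  unfold conv lift
  simp only [mul_assoc]

theorem conv_unit (Φ : (V → ℝ) → ℝ) : conv Φ unit = Φ := by
  funext F
  unfold conv lift unit
  simp only [mul_one]

theorem unit_conv (Φ : (V → ℝ) → ℝ) : conv unit Φ = Φ := by
  funext F
  unfold conv lift unit
  simp only [one_mul]

theorem pw_add (E : (V → ℝ) → ℝ) (j : ℕ) : ∀ k, pw E (j + k) = conv (pw E j) (pw E k)
  | 0 => (conv_unit _).symm
  | k + 1 => by
    change conv (pw E (j + k)) E = conv (pw E j) (conv (pw E k) E)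
    rw [pw_add E j k, conv_assoc]

theorem pw_one (E : (V → ℝ) → ℝ) : pw E 1 = E := unit_conv E

theorem Ch.pw_anti {E : (V → ℝ) → ℝ} (h : Ch E) {F : V → ℝ} (hF : Tst F) :
    Antitone fun k => N154A.pw E k F := by
  refine antitone_nat_of_succ_le fun k => ?_
  refine (h.pw k).mono _ _ (h.lift_nb hF.nb) hF.nb fun u hu => ?_
  have := h.jen _ (hF.nb.mul hu) (sup_mul hF.sup hu)
  simp only [mul_one] at this
  exact this

/-- `Φ` is at least as informative as `Ψ` -/
def Le (Φ Ψ : (V → ℝ) → ℝ) : Prop := ∀ F, Tst F → Φ F ≤ Ψ F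

theorem lift_sy (h : Ch Ψ) {F : V → ℝ} (hF : NB F) {u : V} (hu : Nn u) :
    24 * lift Ψ F u = Ψ (sy fun w => F (u * w)) := (h.sy (hF.mul hu)).symm

theorem tst_sy_mul {F : V → ℝ} (hF : Tst F) {u : V} (hu : Nn u) : Tst (sy fun w => F (u * w)) :=
  tst_sy (sup_mul hF.sup hu) fun _ hv => hF.nn _ (hu.mul hv)

theorem Le.conv {Φ' Ψ' : (V → ℝ) → ℝ} (h1 : Ch Φ) (h1' : Ch Φ') (h2 : Ch Ψ) (h2' : Ch Ψ')
    (l1 : Le Φ Φ') (l2 : Le Ψ Ψ') : Le (conv Φ Ψ) (conv Φ' Ψ') := by
  intro F hF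
  rw [h1.conv_eq h2 hF]
  refine (l1 _ (h2.liftc_tst hF)).trans ?_
  refine h1'.mono _ _ (h2.liftc_tst hF).nb (h2'.lift_nb hF.nb) fun u hu => ?_
  rw [liftc_eq hu]
  have a := lift_sy h2 hF.nb hu
  have b := lift_sy h2' hF.nb hu
  have c := l2 _ (tst_sy_mul hF hu)
  linarith

theorem Le.pw {E E' : (V → ℝ) → ℝ} (h : Ch E) (h' : Ch E') (l : Le E E') :
    ∀ k, Le (pw E k) (pw E' k)
  | 0 => fun _ _ => le_rfl
  | k + 1 => Le.conv (h.pw k) (h'.pw k) h h' (Le.pw h h' l k) l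

end Vale.Agent.N154A
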