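import Vale.Agent.N154A.Op

/-!
# P154, four spins: the distributional recursion and monotonicity
-/

set_option linter.all false

namespace Vale.Agent.N154A

open Vale.Agent.P154 Equiv Filter Topology
open scoped ENNReal

variable {ν : ℕ → ℝ} {lam : ℝ}

theorem ch_ev (hp : ∀ i j : Fin 4, 0 ≤ potts 4 lam i j) (hν : ∀ k, 0 ≤ ν k) (hs : HasSum ν 1)
    (n : ℕ) : Ch (ev ν 4 lam n) where
  mono F G hF hG hle := by
    obtain ⟨C, hC⟩ := hF.homBdd
    obtain ⟨D, hD⟩ := hG.homBdd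
    exact ev_mono (by norm_num) hp hν hs hC hD hle n
  add F G hF hG := by
    obtain ⟨C, hC⟩ := hF.homBdd
    obtain ⟨D, hD⟩ := hG.homBdd
    exact ev_add (by norm_num) hp hν hs hC hD n
  smul a F _ _ := ev_const_mul a F n
  sym τ F _ := by
    unfold ev
    refine tsum_congr fun t => ?_
    congr 1
    exact sum_lik_perm (by norm_num) n t τ F
  mass := ev_mean (by norm_num) hν hs n
  jen F hF hsup := by
    obtain ⟨C, hC⟩ := hF.homBdd
    have h1 : ∀ t : Tree n, tsm 4 lam F n t ≤ F 1 := by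
      intro t
      have h := hsup (Spins 4 n t) Finset.univ (fun _ => 1) (fun η i => lik 4 lam n t i η)
        (fun _ _ => zero_le_one) (fun η _ i => lik_nonneg hp n t i η)
      simp only [one_mul, lik_sum (q := 4) (by norm_num)] at h
      exact h
    have h2 := (hasSum_treeProb hν hs n).mul_right (F 1)
    rw [one_mul] at h2
    rw [← h2.tsum_eq]
    exact (summable_ev (by norm_num) hp hν hs hC n).tsum_le_tsum
      (fun t => mul_le_mul_of_nonneg_left (h1 t) (treeProb_nonneg hν n t)) h2.summable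

theorem ofReal_ev (hp : ∀ i j : Fin 4, 0 ≤ potts 4 lam i j) (hν : ∀ k, 0 ≤ ν k) (hs : HasSum ν 1)
    (n : ℕ) {F : V → ℝ} (hF : NB F) :
    ENNReal.ofReal (ev ν 4 lam n F) = expT ν n fun t => ENNReal.ofReal (tsm 4 lam F n t) := by
  obtain ⟨C, hC⟩ := hF.homBdd
  rw [ev_eq_toReal hν n (tsm_nonneg hp (fun v hv => hF.nn hv) n), ENNReal.ofReal_toReal]
  exact expT_tsm_ne_top (by norm_num) hp hν hs hC n

theorem forest (hp : ∀ i j : Fin 4, 0 ≤ potts 4 lam i j) (hν : ∀ k, 0 ≤ ν k) (hs : HasSum ν 1)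
    (n : ℕ) : ∀ (k : ℕ) (F : V → ℝ), NB F →
      ∑' t : Fin k → Tree n, (∏ c, ENNReal.ofReal (treeProb ν n (t c))) *
        ENNReal.ofReal (∑ η : (c : Fin k) → Spins 4 n (t c),
          F (fun i => ∏ c, pl lam (fun j => lik 4 lam n (t c) j (η c)) i))
      = ENNReal.ofReal (pw (edge lam (ev ν 4 lam n)) k F)
  | 0, F, _ => by
    rw [tsum_eq_single (default : Fin 0 → Tree n)
      (fun b hb => absurd (Subsingleton.elim b default) hb)]
    simp only [Finset.univ_eq_empty, Finset.prod_empty, one_mul, Finset.univ_unique,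
      Finset.sum_const, Finset.card_singleton, one_smul]
    rfl
  | k + 1, F, hF => by
    have hE := (ch_ev hp hν hs n).edge hp
    have hG := hE.lift_nb hF
    have ih := forest hp hν hs n k _ hG
    change _ = ENNReal.ofReal (pw (edge lam (ev ν 4 lam n)) k (lift (edge lam (ev ν 4 lam n)) F))
    rw [← ih, ← (Fin.consEquiv (fun _ : Fin (k + 1) => Tree n)).tsum_eq, ENNReal.tsum_prod',
      ENNReal.tsum_comm]
    refine tsum_congr fun t => ?_
    set U : ((c : Fin k) → Spins 4 n (t c)) → V :=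
      fun η i => ∏ c, pl lam (fun j => lik 4 lam n (t c) j (η c)) i with hU
    have hU0 : ∀ η, Nn (U η) := fun η i => Finset.prod_nonneg fun c _ =>
      pl_nonneg (by norm_num) hp _ (fun j => lik_nonneg hp n (t c) j (η c)) i
    have hb : ∀ η, NB (fun v => F (U η * pl lam v)) := fun η => (hF.mul (hU0 η)).pl hp
    have e1 : ∀ t0 : Tree n,
        (∑ η : (c : Fin (k + 1)) → Spins 4 n ((Fin.cons t0 t : Fin (k + 1) → Tree n) c),
          F (fun i => ∏ c, pl lam (fun j =>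
            lik 4 lam n ((Fin.cons t0 t : Fin (k + 1) → Tree n) c) j (η c)) i))
        = ∑ η, tsm 4 lam (fun v => F (U η * pl lam v)) n t0 := by
      intro t0
      rw [← Equiv.sum_comp (Fin.consEquiv fun c =>
        Spins 4 n ((Fin.cons t0 t : Fin (k + 1) → Tree n) c)), Fintype.sum_prod_type,
        Finset.sum_comm]
      refine Finset.sum_congr rfl fun η _ => ?_
      refine Finset.sum_congr rfl fun η0 _ => ?_
      congr 1
      funext i
      rw [Fin.prod_univ_succ, mul_comm]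
      rfl
    have e2 : ∀ t0 : Tree n, (∏ c, ENNReal.ofReal
        (treeProb ν n ((Fin.cons t0 t : Fin (k + 1) → Tree n) c)))
        = (∏ c, ENNReal.ofReal (treeProb ν n (t c))) * ENNReal.ofReal (treeProb ν n t0) := by
      intro t0
      rw [Fin.prod_univ_succ, mul_comm]
      rfl
    have e3 : ENNReal.ofReal (∑ η, lift (edge lam (ev ν 4 lam n)) F (U η))
        = ∑' t0 : Tree n, ENNReal.ofReal (treeProb ν n t0) *
          ENNReal.ofReal (∑ η, tsm 4 lam (fun v => F (U η * pl lam v)) n t0) := by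
      rw [ENNReal.ofReal_sum_of_nonneg fun η _ => hG.nn (hU0 η)]
      have e4 : ∀ η, ENNReal.ofReal (lift (edge lam (ev ν 4 lam n)) F (U η))
          = ∑' t0 : Tree n, ENNReal.ofReal (treeProb ν n t0) *
            ENNReal.ofReal (tsm 4 lam (fun v => F (U η * pl lam v)) n t0) := fun η =>
        ofReal_ev hp hν hs n (hb η)
      simp only [e4]
      rw [← Summable.tsum_finsetSum fun _ _ => ENNReal.summable]
      refine tsum_congr fun t0 => ?_
      rw [← Finset.mul_sum, ENNReal.ofReal_sum_of_nonneg fun η _ =>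
        tsm_nonneg hp (fun v hv => (hb η).nn hv) n t0]
    rw [e3, ← ENNReal.tsum_mul_left]
    refine tsum_congr fun t0 => ?_
    rw [← mul_assoc, ← e1, ← e2]
    rfl

theorem summable_pw {E : (V → ℝ) → ℝ} (hE : Ch E) (hν : ∀ k, 0 ≤ ν k) (hs : HasSum ν 1)
    {F : V → ℝ} (hF : NB F) : Summable fun k => ν k * pw E k F := by
  obtain ⟨C, h0, hC⟩ := hF.pos
  refine Summable.of_nonneg_of_le (fun k => mul_nonneg (hν k) ((hE.pw k).nonneg hF))
    (fun k => mul_le_mul_of_nonneg_left ((hE.pw k).le_of h0 hF fun v hv => (hC v hv).2) (hν k))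
    (hs.summable.mul_right C)

/-- **The distributional recursion.** -/
theorem ev_succ (hp : ∀ i j : Fin 4, 0 ≤ potts 4 lam i j) (hν : ∀ k, 0 ≤ ν k) (hs : HasSum ν 1)
    (n : ℕ) {F : V → ℝ} (hF : NB F) :
    ev ν 4 lam (n + 1) F = ∑' k, ν k * pw (edge lam (ev ν 4 lam n)) k F := by
  have hE := (ch_ev hp hν hs n).edge hp
  have h0 : ∀ k, 0 ≤ ν k * pw (edge lam (ev ν 4 lam n)) k F := fun k =>
    mul_nonneg (hν k) ((hE.pw k).nonneg hF)
  rw [← ENNReal.ofReal_eq_ofReal_iff ((ch_ev hp hν hs (n + 1)).nonneg hF) (tsum_nonneg h0),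
    ofReal_ev hp hν hs _ hF, ENNReal.ofReal_tsum_of_nonneg h0 (summable_pw hE hν hs hF),
    expT_succ hν]
  refine tsum_congr fun k => ?_
  rw [ENNReal.ofReal_mul (hν k), ← forest hp hν hs n k F hF]
  congr 1
  refine tsum_congr fun t => ?_
  congr 2
  change ∑ η : ((c : Fin k) → Spins 4 n (t c)), F (fun i => lik 4 lam (n + 1) ⟨k, t⟩ i η) = _
  refine Finset.sum_congr rfl fun η _ => ?_
  congr 1
  funext i
  exact lik_succ_eq (by norm_num) n k t η i

theorem ev_zero (ν : ℕ → ℝ) (lam : ℝ) {F : V → ℝ} (hF : Tst F) : ev ν 4 lam 0 F = F e0 := by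
  unfold ev
  rw [tsum_eq_single (default : Tree 0) (fun b hb => absurd (Subsingleton.elim b default) hb)]
  change 1 * ∑ η : Fin 4, F (fun i => if i = η then (1 : ℝ) else 0) = _
  have e : ∀ η : Fin 4, F (fun i => if i = η then (1 : ℝ) else 0) = 1 / 4 * F e0 := by
    intro η
    rw [← hF.sym (Equiv.swap 0 η) e0, ← sup_smul hF.sup (by norm_num) (nn_e0.perm _)]
    congr 1
    funext i
    fin_cases η <;> fin_cases i <;> simp [e0, Equiv.swap_apply_def]
  simp only [e, Fin.sum_univ_four]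
  ring

theorem pl_pl4 (a b : ℝ) (v : V) : pl a (pl b v) = pl (a * b) v := by
  funext i
  have := mean_pl (q := 4) (by norm_num) b v
  unfold pl at this ⊢
  rw [this]
  ring

/-- `ν'` is stochastically larger than `ν` -/
def Dom (ν ν' : ℕ → ℝ) : Prop :=
  ∀ h : ℕ → ℝ, Antitone h → (∀ k, 0 ≤ h k) → ∑' k, ν' k * h k ≤ ∑' k, ν k * h k

/-- **Monotonicity**: more children and a stronger channel of the same sign give more
information. -/
theorem le_ev {ν' : ℕ → ℝ} {lam' μ : ℝ} (h0 : 0 ≤ μ) (h1 : μ ≤ 1) (hlam : lam = μ * lam')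
    (hp : ∀ i j : Fin 4, 0 ≤ potts 4 lam i j) (hp' : ∀ i j : Fin 4, 0 ≤ potts 4 lam' i j)
    (hν : ∀ k, 0 ≤ ν k) (hs : HasSum ν 1) (hν' : ∀ k, 0 ≤ ν' k) (hs' : HasSum ν' 1)
    (hd : Dom ν ν') : ∀ n, Le (ev ν' 4 lam' n) (ev ν 4 lam n)
  | 0 => fun F hF => by rw [ev_zero _ _ hF, ev_zero _ _ hF]
  | n + 1 => fun F hF => by
    have ih := le_ev h0 h1 hlam hp hp' hν hs hν' hs' hd n
    have hE := (ch_ev hp hν hs n).edge hp
    have hE' := (ch_ev hp' hν' hs' n).edge hp'
    have l : Le (edge lam' (ev ν' 4 lam' n)) (edge lam (ev ν 4 lam n)) := by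
      intro G hG
      refine (ih _ (hG.pl hp')).trans ?_
      refine (ch_ev hp hν hs n).mono _ _ (hG.nb.pl hp') (hG.nb.pl hp) fun v hv => ?_
      rw [hlam, ← pl_pl4]
      exact hG.le_pl h0 h1 (pl_nonneg (by norm_num) hp' v hv)
    rw [ev_succ hp hν hs n hF.nb, ev_succ hp' hν' hs' n hF.nb]
    refine le_trans ?_ (hd _ (hE.pw_anti hF) fun k => (hE.pw k).nonneg hF.nb)
    exact (summable_pw hE' hν' hs' hF.nb).tsum_le_tsum
      (fun k => mul_le_mul_of_nonneg_left (Le.pw hE' hE l k F hF) (hν' k))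
      (summable_pw hE hν' hs' hF.nb)

theorem phi_le {v : V} (hv : Nn v) : anti_phi 4 v ≤ mean v := by
  unfold anti_phi
  have h := mean_nn hv
  have e : ∑ j : Fin 4, (1 / (4 : ℕ) : ℝ) * v j = mean v := by
    rw [mean4, Fin.sum_univ_four]; push_cast; ring
  rw [e]
  have h1 : ∀ i, |(1 / (4 : ℕ) : ℝ) * v i - mean v * (1 / (4 : ℕ))| ≤ 1 / 4 * v i + mean v / 4 := by
    intro i
    have := hv i
    push_cast
    rw [abs_le]
    constructor <;> linarith
  have h2 := Finset.sum_le_sum (s := Finset.univ) fun i _ => h1 i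
  rw [Fin.sum_univ_four (fun i => 1 / 4 * v i + mean v / 4)] at h2
  have := mean4 v
  linarith

/-- the test function of the advantage -/
noncomputable def tv (v : V) : ℝ := mean v - anti_phi 4 v

theorem tst_tv : Tst tv := by
  refine ⟨?_, fun v hv => sub_nonneg.2 (phi_le hv), fun τ v => ?_⟩
  · intro ι s w v hw hv
    have h1 := anti_phi_sum_le s w hw v
    have h2 := sup_mean ι s w v hw hv
    unfold tv
    simp only [mul_sub]
    rw [Finset.sum_sub_distrib]
    linarith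
  · unfold tv anti_phi
    rw [mean_perm, Equiv.sum_comp τ fun j => (1 / (4 : ℕ) : ℝ) * v j,
      Equiv.sum_comp τ fun i => |(1 / (4 : ℕ) : ℝ) * v i
        - (∑ j : Fin 4, (1 / (4 : ℕ) : ℝ) * v j) * (1 / (4 : ℕ))|]

theorem nb_phi : NB (anti_phi 4) :=
  ⟨1, fun v hv => ⟨anti_phi_nonneg v, by rw [one_mul]; exact phi_le hv⟩⟩

theorem advantage_eq_tv (hp : ∀ i j : Fin 4, 0 ≤ potts 4 lam i j) (hν : ∀ k, 0 ≤ ν k)
    (hs : HasSum ν 1) (n : ℕ) : advantage ν 4 lam n = 1 - ev ν 4 lam n tv := by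
  have e : advantage ν 4 lam n = ev ν 4 lam n (anti_phi 4) := by
    unfold advantage ev
    refine tsum_congr fun t => ?_
    rw [anti_G_eq (by norm_num) hp]
    rfl
  have h := (ch_ev hp hν hs n).add _ _ tst_tv.nb nb_phi
  have e2 : (fun v => tv v + anti_phi 4 v) = mean := by
    funext v; unfold tv; ring
  rw [e2, (ch_ev hp hν hs n).mass] at h
  linarith

theorem advantage_mono {ν' : ℕ → ℝ} {lam' μ : ℝ} (h0 : 0 ≤ μ) (h1 : μ ≤ 1) (hlam : lam = μ * lam')
    (hp : ∀ i j : Fin 4, 0 ≤ potts 4 lam i j) (hp' : ∀ i j : Fin 4, 0 ≤ potts 4 lam' i j)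
    (hν : ∀ k, 0 ≤ ν k) (hs : HasSum ν 1) (hν' : ∀ k, 0 ≤ ν' k) (hs' : HasSum ν' 1)
    (hd : Dom ν ν') (n : ℕ) : advantage ν 4 lam n ≤ advantage ν' 4 lam' n := by
  rw [advantage_eq_tv hp hν hs, advantage_eq_tv hp' hν' hs']
  linarith [le_ev h0 h1 hlam hp hp' hν hs hν' hs' hd n _ tst_tv]

theorem nonrec_mono {ν' : ℕ → ℝ} {lam' μ : ℝ} (h0 : 0 ≤ μ) (h1 : μ ≤ 1) (hlam : lam = μ * lam')
    (hp : ∀ i j : Fin 4, 0 ≤ potts 4 lam i j) (hp' : ∀ i j : Fin 4, 0 ≤ potts 4 lam' i j)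
    (hν : ∀ k, 0 ≤ ν k) (hs : HasSum ν 1) (hν' : ∀ k, 0 ≤ ν' k) (hs' : HasSum ν' 1)
    (hd : Dom ν ν') (h : Nonreconstruction ν' 4 lam') : Nonreconstruction ν 4 lam := by
  refine squeeze_zero (fun n => ?_) (advantage_mono h0 h1 hlam hp hp' hν hs hν' hs' hd) h
  rw [advantage_eq hν hp]
  exact ENNReal.toReal_nonneg

theorem tsum_reg (d : ℕ) (h : ℕ → ℝ) : ∑' k, regularOffspring d k * h k = h d := by
  rw [tsum_eq_single d]
  · simp [regularOffspring]
  · intro k hk
    simp [regularOffspring, hk]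

theorem dom_reg {d d' : ℕ} (hd : d ≤ d') : Dom (regularOffspring d) (regularOffspring d') := by
  intro h hh _
  rw [tsum_reg, tsum_reg]
  exact hh hd

theorem dom_poi {d d' : ℝ} (h0 : 0 ≤ d) (hd : d ≤ d') :
    Dom (poissonOffspring d) (poissonOffspring d') := by
  intro h hh hn
  have := tsum_poisson_mono (h := fun k => -h k) (fun a b hab => neg_le_neg (hh hab)) (C := h 0)
    (fun j => by rw [abs_neg, abs_of_nonneg (hn j)]; exact hh (Nat.zero_le j)) h0 hd
  simp only [mul_neg, tsum_neg] at this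
  linarith

end Vale.Agent.N154A
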