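import Mathlib.Data.Nat.Basic

/-!
# P154, four spins, proper colourings: density evolution on a grid (upper bounds), the computation

A symmetric channel is stored as the list of the weights (out of `2 ^ 24`) of the 56 vectors
`(5, a, b, c)`, `5 ≥ a ≥ b ≥ c ≥ 0`; 57 numbers below `2 ^ 96` are packed into one natural number.
-/

set_option linter.all false

namespace Vale.Agent.N154A.Up

/-- the 16-bit entry number `49 a + 7 b + c` is `96` times the number of the orbit of `(5, a, b, c)` -/
def TT : Nat := 9259811804410890952170724663929795418580543932463283779351633438340952351363516411944962833881407080713779127432314754640412391041257950951300801970355410600634762657483471227341582677566049601360028472528217638954281303167620585254030600972718743832495643836787039917937167062245115107169473287336240638751221211930755635299577889295969734348137322456502080354732384398006612750189260614588559778003551699965486255973228923420003726882304558012763366581793215042753479041710135473411667208426604538531363951558657546978972345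420785996824442869508744496838961201086764152260864745375356066749238556650924566267733110058047630864432510809033673782260023232643941254197276327353874156819994371804518797163396383112715432745048035674590340992763491221108095581391068329094275913556910491465553786001410495190756655788843788232382790437687444266557904030154573057273614249954067429324412635603057086470173646894002624060250411100725605095119482741718658399412246363086920083610312279440623358001999944940478949168036197573189990732334821032970600657735143539147097944182288286745828068024005497461209858688617735304393856697484101665516550283643349833613100128940114586957389306095936658773736132837300414448300700416991444176021746168402483079872817198505422505242127358528826618919385758856323262450746189420918599524028323682711396046291673089843002501317773863259982247586647098005799561634270681299071863864439368229494260031496961357457868540632830698304244202166253030933959079175001975151280228208280607138729232203290614702657555598036875372089398654992692911371295984954906906250557080661977931572892034485301891403743032768499286452855088611328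

def tm (w p : Nat) : Nat := Nat.shiftLeft w (Nat.land (Nat.shiftRight TT p) 65535)

def lf (M p f1 s1 f2 s2 f3 : Nat) : Nat :=
  Nat.add (tm (Nat.sub M f1) p) (Nat.add (tm (Nat.sub f1 f2) (Nat.add p s1))
    (Nat.add (tm (Nat.sub f2 f3) (Nat.add p s2)) (tm f3 (Nat.add p 912))))

noncomputable def srt (M p x y z : Nat) : Nat :=
  Bool.rec (motive := fun _ => Nat)
    (Bool.rec (motive := fun _ => Nat) (lf M p z 16 y 128 x)
      (Bool.rec (motive := fun _ => Nat) (lf M p y 112 z 128 x) (lf M p y 112 x 896 z)
        (Nat.ble z x)) (Nat.ble z y))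
    (Bool.rec (motive := fun _ => Nat) (lf M p z 16 x 800 y)
      (Bool.rec (motive := fun _ => Nat) (lf M p x 784 z 800 y) (lf M p x 784 y 896 z)
        (Nat.ble z y)) (Nat.ble z x))
    (Nat.ble y x)

noncomputable def sq3 (M x y z : Nat) : Nat :=
  srt M (Nat.add (Nat.mul 784 (Nat.div x M)) (Nat.add (Nat.mul 112 (Nat.div y M)) (Nat.mul 16 (Nat.div z M))))
    (Nat.mod x M) (Nat.mod y M) (Nat.mod z M)

noncomputable def sp3 (M x y z : Nat) : Nat := sq3 M (Nat.mul 5 x) (Nat.mul 5 y) (Nat.mul 5 z)

noncomputable def mx2 (a b c d : Nat) : Nat :=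
  Bool.rec (motive := fun _ => Nat) (sp3 c a b d) (sp3 a b c d) (Nat.ble c a)

/-- split the vector `(a, b, c, d)` onto the grid -/
noncomputable def sp4 (a b c d : Nat) : Nat :=
  Bool.rec (motive := fun _ => Nat)
    (Bool.rec (motive := fun _ => Nat) (mx2 b a d c) (mx2 b a c d) (Nat.ble d c))
    (Bool.rec (motive := fun _ => Nat) (mx2 a b d c) (mx2 a b c d) (Nat.ble d c))
    (Nat.ble b a)

noncomputable def k24 (a b c d w0 w1 w2 w3 : Nat) : Nat :=
  Nat.add (sp4 (Nat.mul a w0) (Nat.mul b w1) (Nat.mul c w2) (Nat.mul d w3)) (Nat.add (sp4 (Nat.mul a w0) (Nat.mul b w1) (Nat.mul c w3) (Nat.mul d w2)) (Nat.add (sp4 (Nat.mul a w0) (Nat.mul b w2) (Nat.mul c w1) (Nat.mul d w3)) (Nat.add (sp4 (Nat.mul a w0) (Nat.mul b w2) (Nat.mul c w3) (Nat.mul d w1)) (Nat.add (sp4 (Nat.mul a w0) (Nat.mul b w3) (Nat.mul c w1) (Nat.mul d w2)) (Nat.add (sp4 (Nat.mul a w0) (Nat.mul b w3) (Nat.mul c w2) (Nat.mul d w1)) (Nat.add (sp4 (Nat.mul a w1) (Nat.mul b w0) (Nat.mul c w2) (Nat.mul d w3)) (Nat.add (sp4 (Nat.mul a w1) (Nat.mul b w0) (Nat.mul c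 w3) (Nat.mul d w2)) (Nat.add (sp4 (Nat.mul a w1) (Nat.mul b w2) (Nat.mul c w0) (Nat.mul d w3)) (Nat.add (sp4 (Nat.mul a w1) (Nat.mul b w2) (Nat.mul c w3) (Nat.mul d w0)) (Nat.add (sp4 (Nat.mul a w1) (Nat.mul b w3) (Nat.mul c w0) (Nat.mul d w2)) (Nat.add (sp4 (Nat.mul a w1) (Nat.mul b w3) (Nat.mul c w2) (Nat.mul d w0)) (Nat.add (sp4 (Nat.mul a w2) (Nat.mul b w0) (Nat.mul c w1) (Nat.mul d w3)) (Nat.add (sp4 (Nat.mul a w2) (Nat.mul b w0) (Nat.mul c w3) (Nat.mul d w1)) (Nat.add (sp4 (Nat.mul a w2) (Nat.mul b w1) (Nat.mul c w0) (Nat.mul d w3)) (Nat.add (sp4 (Nat.mul a w2) (Nat.mul b w1) (Nat.mul c w3) (Nat.mul d w0)) (Nat.add (sp4 (Nat.mul a w2) (Nat.mul b w3) (Nat.mul c w0) (Nat.mul d w1)) (Nat.add (sp4 (Nat.mul a w2) (Nat.mul b w3) (Nat.mul c w1) (Nat.mul d w0)) (Nat.add (sp4 (Nat.mul a w3) (Nat.mul b w0) (Nat.mul c w1) (Nat.mul d w2)) (Nat.add (sp4 (Nat.mul a w3) (Nat.mul b w0) (Nat.mul c w2) (Nat.mul d w1)) (Nat.add (sp4 (Nat.mul a w3) (Nat.mul b w1) (Nat.mul c w0) (Nat.mul d w2)) (Nat.add (sp4 (Nat.mul a w3) (Nat.mul b w1)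 (Nat.mul c w2) (Nat.mul d w0)) (Nat.add (sp4 (Nat.mul a w3) (Nat.mul b w2) (Nat.mul c w0) (Nat.mul d w1)) (sp4 (Nat.mul a w3) (Nat.mul b w2) (Nat.mul c w1) (Nat.mul d w0))))))))))))))))))))))))

/-- a grid point times the message sent by a grid point -/
noncomputable def kk (b c d x y z : Nat) : Nat :=
  k24 5 b c d (Nat.add x (Nat.add y z)) (Nat.add 5 (Nat.add y z)) (Nat.add 5 (Nat.add x z))
    (Nat.add 5 (Nat.add x y))

abbrev O := Nat × Nat × Nat

def orbs : List O := [(0, 0, 0), (1, 0, 0), (1, 1, 0), (1, 1, 1), (2, 0, 0), (2, 1, 0), (2, 1, 1), (2, 2, 0), (2, 2, 1), (2, 2, 2), (3, 0, 0), (3, 1, 0), (3, 1, 1), (3, 2, 0), (3, 2, 1), (3, 2, 2), (3, 3, 0), (3, 3, 1), (3, 3, 2), (3, 3, 3), (4, 0, 0), (4, 1, 0), (4, 1, 1), (4, 2, 0), (4, 2, 1), (4, 2, 2), (4, 3, 0), (4, 3, 1), (4, 3, 2), (4, 3, 3), (4, 4, 0), (4, 4, 1), (4, 4, 2), (4, 4, 3), (4, 4, 4), (5, 0, 0), (5, 1, 0), (5, 1, 1), (5, 2, 0), (5, 2, 1), (5, 2, 2), (5, 3, 0), (5, 3, 1), (5, 3, 2), (5, 3, 3), (5, 4, 0), (5, 4, 1), (5, 4, 2), (5, 4, 3), (5, 4, 4), (5, 5, 0),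 (5, 5, 1), (5, 5, 2), (5, 5, 3), (5, 5, 4), (5, 5, 5)]

noncomputable def row (b c d : Nat) (os : List O) : List Nat → Nat :=
  List.rec (motive := fun _ => List Nat → Nat) (fun _ => 0)
    (fun o _ ih ms => List.rec (motive := fun _ => Nat) 0
      (fun m ms' _ => Prod.rec (motive := fun _ => Nat) (fun x yz => Prod.rec (motive := fun _ => Nat)
        (fun y z => Nat.add (Nat.mul m (kk b c d x y z)) (ih ms')) yz) o) ms) os

noncomputable def rows (ms : List Nat) (os : List O) : List Nat :=
  List.rec (motive := fun _ => List Nat) []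
    (fun o _ ih => Prod.rec (motive := fun _ => List Nat) (fun b cd => Prod.rec
      (motive := fun _ => List Nat) (fun c d => row b c d orbs ms :: ih) cd) o) os

noncomputable def dot (l : List Nat) : List Nat → Nat :=
  List.rec (motive := fun _ => List Nat → Nat) (fun _ => 0)
    (fun a _ ih ms => List.rec (motive := fun _ => Nat) 0
      (fun m ms' _ => Nat.add (Nat.mul a m) (ih ms')) ms) l

noncomputable def unpack (den : Nat) (n : Nat) : Nat → List Nat :=
  Nat.rec (motive := fun _ => Nat → List Nat) (fun _ => [])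
    (fun _ ih Z => Nat.div (Nat.land Z 79228162514264337593543950335) den :: ih (Nat.shiftRight Z 96)) n

noncomputable def force (n : Nat) (f : Nat → Nat) : Nat :=
  Nat.rec (motive := fun _ => Nat) (f 0) (fun p _ => f (Nat.succ p)) n

/-- mixture over the offspring number -/
noncomputable def mix (R : List Nat) (ps : List Nat) : Nat → Nat :=
  List.rec (motive := fun _ => Nat → Nat) (fun _ => 0)
    (fun p ps' ih Z => List.rec (motive := fun _ => Nat) (Nat.mul p Z)
      (fun _ _ _ => Nat.add (Nat.mul p Z) (force (dot (unpack 6039797760 56 Z) R) ih)) ps') ps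

def sums : List Nat := [5, 6, 7, 8, 7, 8, 9, 9, 10, 11, 8, 9, 10, 10, 11, 12, 11, 12, 13, 14, 9, 10, 11, 11, 12, 13, 12, 13, 14, 15, 13, 14, 15, 16, 17, 10, 11, 12, 12, 13, 14, 13, 14, 15, 16, 14, 15, 16, 17, 18, 15, 16, 17, 18, 19, 20]

noncomputable def refill (l : List Nat) : List Nat :=
  List.rec (motive := fun _ => List Nat) []
    (fun a l' _ => Nat.add a (Nat.div (Nat.sub 67108864 (dot l sums)) 5) :: l') l

noncomputable def msZ (Z : Nat) : List Nat := refill (unpack 6333186975989760 56 Z)

noncomputable def level (ps : List Nat) (Z : Nat) : Nat :=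
  mix (rows (msZ Z) orbs) ps (Nat.shiftLeft 20266198323167232 5280)

noncomputable def iter (f : Nat → Nat) (n : Nat) : Nat → Nat :=
  Nat.rec (motive := fun _ => Nat → Nat) (fun s => s) (fun _ ih s => force (f s) ih) n

def mcs : List Nat := [0, 36408, 68656, 98304, 62415, 92842, 121362, 116508, 144179, 166818, 81920, 111653, 139810, 135441, 162847, 185685, 154903, 182044, 205010, 224694, 97090, 126702, 154903, 150931, 178403, 201649, 171121, 198288, 221574, 241755, 188205, 215332, 238842, 259413, 277564, 109226, 139015, 167480, 163840, 191566, 215332, 184845, 212211, 235929, 256682, 202849, 230104, 253952, 274994, 293698, 218453, 245760, 269854, 291271, 310433, 327680]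


def ps7 : List Nat := [0, 0, 0, 0, 0, 0, 0, 1048576]

def psP : List Nat := [956, 6693, 23426, 54661, 95657, 133920, 156240, 156240, 136710, 106330, 74431,
  47365, 27629, 14877, 7438, 3471, 1518, 625, 243, 89, 31, 10, 3]

set_option maxRecDepth 100000 in
theorem run7 : Nat.ble 992000000000 (dot (msZ (iter (level ps7) 44 0)) mcs) = true := by
  decide +kernel

set_option maxRecDepth 100000 in
theorem runP : Nat.ble 992000000000 (dot (msZ (iter (level psP) 38 0)) mcs) = true := by
  decide +kernel

end Vale.Agent.N154A.Up
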