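import Vale.Agent.N154A.Basin
import Vale.Agent.N154A.UpC

/-!
# P154, four spins, proper colourings: soundness of the density evolution on the grid
-/

set_option linter.all false

namespace Vale.Agent.N154A

open Vale.Agent.P154 Equiv

/-- value at an explicit vector -/
def W (F : V → ℝ) (a b c d : ℝ) : ℝ := F ![a, b, c, d]

theorem nn4 {a b c d : ℝ} (ha : 0 ≤ a) (hb : 0 ≤ b) (hc : 0 ≤ c) (hd : 0 ≤ d) :
    Nn ![a, b, c, d] := fun i => by fin_cases i <;> assumption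

section
variable {F : V → ℝ} (hF : Tst F) (a b c d : ℝ)
include hF

theorem W01 : W F a b c d = W F b a c d := by
  unfold W
  rw [← hF.sym (Equiv.swap 0 1)]
  exact congrArg F (funext fun i => by fin_cases i <;> rfl)

theorem W12 : W F a b c d = W F a c b d := by
  unfold W
  rw [← hF.sym (Equiv.swap 1 2)]
  exact congrArg F (funext fun i => by fin_cases i <;> rfl)

theorem W23 : W F a b c d = W F a b d c := by
  unfold W
  rw [← hF.sym (Equiv.swap 2 3)]
  exact congrArg F (funext fun i => by fin_cases i <;> rfl)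

end

theorem sy_W (F : V → ℝ) (a b c d : ℝ) (w : V) : sy (fun x => F (![a, b, c, d] * x)) w =
    (Q4.permList.map fun t =>
      W F (a * w t.1) (b * w t.2.1) (c * w t.2.2.1) (d * w t.2.2.2)).sum := by
  rw [← Q4.sum_perm4 (fun i j k l => W F (a * w i) (b * w j) (c * w k) (d * w l))]
  refine Finset.sum_congr rfl fun τ _ => ?_
  exact congrArg F (funext fun i => by fin_cases i <;> rfl)

theorem sy_smul {F : V → ℝ} (hF : SupLin F) {u w : V} (hu : Nn u) (hw : Nn w) {r : ℝ} (hr : 0 ≤ r) :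
    sy (fun x => F (u * x)) (fun i => r * w i) = r * sy (fun x => F (u * x)) w := by
  unfold sy
  rw [Finset.mul_sum]
  refine Finset.sum_congr rfl fun τ _ => ?_
  rw [← sup_smul hF hr (hu.mul (hw.perm τ))]
  refine congrArg F (funext fun i => ?_)
  show u i * (r * w (τ i)) = r * (u i * w (τ i))
  ring

theorem pl3 (a b c d : ℝ) : (![b + (c + d), a + (c + d), a + (b + d), a + (b + c)] : V)
    = fun i => 3 * pl (-1 / 3) ![a, b, c, d] i := by
  funext i
  unfold pl
  rw [mean4]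
  fin_cases i <;> simp <;> ring

theorem ble_rec {P : ℕ → Prop} {a b x y : ℕ} (h1 : b < a → P x) (h2 : a ≤ b → P y) :
    P (Bool.rec (motive := fun _ => Nat) x y (Nat.ble a b)) := by
  cases h : Nat.ble a b
  · exact h1 (Nat.lt_of_not_le (Nat.not_le_of_not_ble_eq_true (by simp [h])))
  · exact h2 (Nat.le_of_ble_eq_true h)

namespace Up

/-- the grid point of an orbit -/
def gv (o : O) : V := ![5, o.1, o.2.1, o.2.2]

theorem gv_nn (o : O) : Nn (gv o) := nn4 (by norm_num) (by positivity) (by positivity) (by positivity)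

def ob (k : ℕ) : O := orbs.getD k (0, 0, 0)

/-- `Z` is a packed vector of weights whose value is at most `B` -/
def Snd (Z : ℕ) (B : (V → ℝ) → ℝ) : Prop :=
  ∃ c : ℕ → ℕ, Z = ∑ k ∈ Finset.range 57, c k * (2 ^ 96) ^ k ∧
    ∀ F, Tst F → ∑ k ∈ Finset.range 56, (c k : ℝ) * F (gv (ob k)) ≤ B F

theorem Snd.zero {B : (V → ℝ) → ℝ} (h : ∀ F, Tst F → 0 ≤ B F) : Snd 0 B :=
  ⟨fun _ => 0, by simp, fun F hF => by simpa using h F hF⟩

theorem Snd.add {Z Z' : ℕ} {B B' : (V → ℝ) → ℝ} (h : Snd Z B) (h' : Snd Z' B') :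
    Snd (Nat.add Z Z') (fun F => B F + B' F) := by
  obtain ⟨c, h1, h3⟩ := h
  obtain ⟨c', h1', h3'⟩ := h'
  refine ⟨fun k => c k + c' k, ?_, fun F hF => ?_⟩
  · change Z + Z' = _
    rw [h1, h1', ← Finset.sum_add_distrib]
    exact Finset.sum_congr rfl fun k _ => by ring
  · refine le_trans (le_of_eq ?_) (add_le_add (h3 F hF) (h3' F hF))
    rw [← Finset.sum_add_distrib]
    exact Finset.sum_congr rfl fun k _ => by push_cast; ring

theorem Snd.smul {Z : ℕ} {B : (V → ℝ) → ℝ} (m : ℕ) (h : Snd Z B) :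
    Snd (Nat.mul m Z) (fun F => m * B F) := by
  obtain ⟨c, h1, h3⟩ := h
  refine ⟨fun k => m * c k, ?_, fun F hF => ?_⟩
  · change m * Z = _
    rw [h1, Finset.mul_sum]
    exact Finset.sum_congr rfl fun k _ => by ring
  · refine le_trans (le_of_eq ?_) (mul_le_mul_of_nonneg_left (h3 F hF) (Nat.cast_nonneg m))
    rw [Finset.mul_sum]
    exact Finset.sum_congr rfl fun k _ => by push_cast; ring

theorem Snd.mono {Z : ℕ} {B B' : (V → ℝ) → ℝ} (h : Snd Z B) (hB : ∀ F, Tst F → B F ≤ B' F) :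
    Snd Z B' := by
  obtain ⟨c, h1, h3⟩ := h
  exact ⟨c, h1, fun F hF => (h3 F hF).trans (hB F hF)⟩

theorem snd_single (w : ℕ) {e : ℕ} (he : e < 57) {B : (V → ℝ) → ℝ}
    (h : ∀ F, Tst F → (if e < 56 then (w : ℝ) * F (gv (ob e)) else 0) ≤ B F) :
    Snd (Nat.shiftLeft w (96 * e)) B := by
  refine ⟨fun k => if k = e then w else 0, ?_, fun F hF => ?_⟩
  · change w <<< (96 * e) = _
    rw [Nat.shiftLeft_eq, pow_mul, Finset.sum_eq_single e]
    · simp
    · intro k _ hk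
      simp [hk]
    · intro hk
      exact absurd (Finset.mem_range.2 he) hk
  · refine le_trans (le_of_eq ?_) (h F hF)
    split_ifs with h1
    · rw [Finset.sum_eq_single e]
      · simp
      · intro k _ hk
        simp [hk]
      · intro hk
        exact absurd (Finset.mem_range.2 h1) hk
    · refine Finset.sum_eq_zero fun k hk => ?_
      have : k ≠ e := by have := Finset.mem_range.1 hk; omega
      simp [this]

def en (a b c : ℕ) : ℕ := Nat.land (Nat.shiftRight TT (784 * a + 112 * b + 16 * c)) 65535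

def EnOk (a b c : ℕ) : Prop := en a b c = 96 * (en a b c / 96) ∧
    (en a b c / 96 = 56 ∨ (en a b c / 96 < 56 ∧ ob (en a b c / 96) ∈
      [(a, b, c), (a, c, b), (b, a, c), (b, c, a), (c, a, b), (c, b, a)]))

instance (a b c : ℕ) : Decidable (EnOk a b c) := by
  unfold EnOk
  infer_instance

theorem en_ok : ∀ a < 7, ∀ b < 7, ∀ c < 7, EnOk a b c := by
  decide +kernel

theorem snd_tm (w : ℕ) {a b c p : ℕ} (ha : a < 7) (hb : b < 7) (hc : c < 7)
    (hp : p = 784 * a + 112 * b + 16 * c) : Snd (tm w p) (fun F => w * W F 5 a b c) := by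
  obtain ⟨h1, h2⟩ := en_ok a ha b hb c hc
  subst hp
  change Snd (Nat.shiftLeft w (en a b c)) _
  rw [h1]
  refine snd_single w (by omega) fun F hF => ?_
  rcases h2 with h2 | ⟨h2, h3⟩
  · rw [if_neg (by omega)]
    exact mul_nonneg (Nat.cast_nonneg w)
      (hF.nn _ (nn4 (by norm_num) (by positivity) (by positivity) (by positivity)))
  · rw [if_pos h2]
    refine le_of_eq (congrArg _ ?_)
    simp only [List.mem_cons, List.not_mem_nil, or_false] at h3
    rcases h3 with h | h | h | h | h | h <;> rw [h]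
    · rfl
    · exact W23 hF _ _ _ _
    · exact W12 hF _ _ _ _
    · exact (W23 hF _ _ _ _).trans (W12 hF _ _ _ _)
    · exact (W12 hF _ _ _ _).trans (W23 hF _ _ _ _)
    · exact (W12 hF _ _ _ _).trans ((W23 hF _ _ _ _).trans (W12 hF _ _ _ _))

theorem snd_lf {M f1 f2 f3 a b c i1 j1 k1 i2 j2 k2 s1 s2 : ℕ} {X Y Z : ℝ} (h1 : f1 ≤ M)
    (h2 : f2 ≤ f1) (h3 : f3 ≤ f2) (ha : a ≤ 5) (hb : b ≤ 5) (hc : c ≤ 5)
    (d1 : i1 ≤ 1 ∧ j1 ≤ 1 ∧ k1 ≤ 1 ∧ s1 = 784 * i1 + 112 * j1 + 16 * k1)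
    (d2 : i2 ≤ 1 ∧ j2 ≤ 1 ∧ k2 ≤ 1 ∧ s2 = 784 * i2 + 112 * j2 + 16 * k2)
    (hX : X = M * a + (f1 - f2) * i1 + (f2 - f3) * i2 + f3)
    (hY : Y = M * b + (f1 - f2) * j1 + (f2 - f3) * j2 + f3)
    (hZ : Z = M * c + (f1 - f2) * k1 + (f2 - f3) * k2 + f3) :
    Snd (lf M (784 * a + 112 * b + 16 * c) f1 s1 f2 s2 f3) (fun F => W F (5 * M) X Y Z) := by
  obtain ⟨d11, d12, d13, rfl⟩ := d1
  obtain ⟨d21, d22, d23, rfl⟩ := d2
  refine ((snd_tm (M - f1) (a := a) (b := b) (c := c) (by omega) (by omega) (by omega) rfl).add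
    ((snd_tm (f1 - f2) (a := a + i1) (b := b + j1) (c := c + k1) (by omega) (by omega) (by omega)
      (by rw [Nat.add_eq]; omega)).add
    ((snd_tm (f2 - f3) (a := a + i2) (b := b + j2) (c := c + k2) (by omega) (by omega) (by omega)
      (by rw [Nat.add_eq]; omega)).add
    (snd_tm f3 (a := a + 1) (b := b + 1) (c := c + 1) (by omega) (by omega) (by omega)
      (by rw [Nat.add_eq]; omega))))).mono fun F hF => ?_
  have k := hF.sup (Fin 4) Finset.univ
    ![((M - f1 : ℕ) : ℝ), ((f1 - f2 : ℕ) : ℝ), ((f2 - f3 : ℕ) : ℝ), (f3 : ℝ)]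
    ![![5, (a : ℝ), b, c], ![5, ((a + i1 : ℕ) : ℝ), ((b + j1 : ℕ) : ℝ), ((c + k1 : ℕ) : ℝ)],
      ![5, ((a + i2 : ℕ) : ℝ), ((b + j2 : ℕ) : ℝ), ((c + k2 : ℕ) : ℝ)],
      ![5, ((a + 1 : ℕ) : ℝ), ((b + 1 : ℕ) : ℝ), ((c + 1 : ℕ) : ℝ)]]
    (fun x _ => by fin_cases x <;> exact Nat.cast_nonneg _)
    (fun x _ => by
      fin_cases x <;> exact nn4 (by norm_num) (by positivity) (by positivity) (by positivity))
  rw [Fin.sum_univ_four] at k
  refine le_trans (le_of_eq ?_) (k.trans (le_of_eq (congrArg F (funext fun i => ?_))))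
  · simp only [add_assoc]
    rfl
  · rw [Fin.sum_univ_four]
    fin_cases i
    · show ((M - f1 : ℕ) : ℝ) * 5 + ((f1 - f2 : ℕ) : ℝ) * 5 + ((f2 - f3 : ℕ) : ℝ) * 5 + f3 * 5 = 5 * M
      push_cast [h1, h2, h3]
      ring
    · show ((M - f1 : ℕ) : ℝ) * a + ((f1 - f2 : ℕ) : ℝ) * ((a + i1 : ℕ) : ℝ)
        + ((f2 - f3 : ℕ) : ℝ) * ((a + i2 : ℕ) : ℝ) + f3 * ((a + 1 : ℕ) : ℝ) = X
      rw [hX]
      push_cast [h1, h2, h3]
      ring
    · show ((M - f1 : ℕ) : ℝ) * b + ((f1 - f2 : ℕ) : ℝ) * ((b + j1 : ℕ) : ℝ)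
        + ((f2 - f3 : ℕ) : ℝ) * ((b + j2 : ℕ) : ℝ) + f3 * ((b + 1 : ℕ) : ℝ) = Y
      rw [hY]
      push_cast [h1, h2, h3]
      ring
    · show ((M - f1 : ℕ) : ℝ) * c + ((f1 - f2 : ℕ) : ℝ) * ((c + k1 : ℕ) : ℝ)
        + ((f2 - f3 : ℕ) : ℝ) * ((c + k2 : ℕ) : ℝ) + f3 * ((c + 1 : ℕ) : ℝ) = Z
      rw [hZ]
      push_cast [h1, h2, h3]
      ring

theorem snd_srt {M x y z a b c : ℕ} (hx : x ≤ M) (hy : y ≤ M) (hz : z ≤ M) (ha : a ≤ 5)
    (hb : b ≤ 5) (hc : c ≤ 5) : Snd (srt M (784 * a + 112 * b + 16 * c) x y z)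
      (fun F => W F (5 * M) (M * a + x) (M * b + y) (M * c + z)) := by
  unfold srt
  refine ble_rec (P := fun Z => Snd Z _) (fun h1 => ble_rec (P := fun Z => Snd Z _) (fun h2 => ?_)
    fun h2 => ble_rec (P := fun Z => Snd Z _) (fun h3 => ?_) fun h3 => ?_)
    fun h1 => ble_rec (P := fun Z => Snd Z _) (fun h2 => ?_)
    fun h2 => ble_rec (P := fun Z => Snd Z _) (fun h3 => ?_) fun h3 => ?_
  · exact snd_lf (i1 := 0) (j1 := 0) (k1 := 1) (i2 := 0) (j2 := 1) (k2 := 1) hz h2.le h1.le ha hb hc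
      (by decide) (by decide) (by push_cast; ring) (by push_cast; ring) (by push_cast; ring)
  · exact snd_lf (i1 := 0) (j1 := 1) (k1 := 0) (i2 := 0) (j2 := 1) (k2 := 1) hy h2 h3.le ha hb hc
      (by decide) (by decide) (by push_cast; ring) (by push_cast; ring) (by push_cast; ring)
  · exact snd_lf (i1 := 0) (j1 := 1) (k1 := 0) (i2 := 1) (j2 := 1) (k2 := 0) hy h1.le h3 ha hb hc
      (by decide) (by decide) (by push_cast; ring) (by push_cast; ring) (by push_cast; ring)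
  · exact snd_lf (i1 := 0) (j1 := 0) (k1 := 1) (i2 := 1) (j2 := 0) (k2 := 1) hz h2.le h1 ha hb hc
      (by decide) (by decide) (by push_cast; ring) (by push_cast; ring) (by push_cast; ring)
  · exact snd_lf (i1 := 1) (j1 := 0) (k1 := 0) (i2 := 1) (j2 := 0) (k2 := 1) hx h2 h3.le ha hb hc
      (by decide) (by decide) (by push_cast; ring) (by push_cast; ring) (by push_cast; ring)
  · exact snd_lf (i1 := 1) (j1 := 0) (k1 := 0) (i2 := 1) (j2 := 1) (k2 := 0) hx h1 h3 ha hb hc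
      (by decide) (by decide) (by push_cast; ring) (by push_cast; ring) (by push_cast; ring)

theorem dm {M x : ℕ} (h : x ≤ M) : 5 * x % M ≤ M ∧ 5 * x / M ≤ 5 ∧
    (M : ℝ) * ((5 * x / M : ℕ) : ℝ) + ((5 * x % M : ℕ) : ℝ) = 5 * x := by
  refine ⟨?_, ?_, by exact_mod_cast Nat.div_add_mod (5 * x) M⟩
  · rcases Nat.eq_zero_or_pos M with h0 | h0
    · have : x = 0 := by omega
      simp [this]
    · exact (Nat.mod_lt _ h0).le
  · exact Nat.div_le_of_le_mul (by nlinarith)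

theorem snd_sp3 {M x y z : ℕ} (hx : x ≤ M) (hy : y ≤ M) (hz : z ≤ M) :
    Snd (sp3 M x y z) (fun F => 5 * W F M x y z) := by
  have k := snd_srt (dm hx).1 (dm hy).1 (dm hz).1 (dm hx).2.1 (dm hy).2.1 (dm hz).2.1
  rw [(dm hx).2.2, (dm hy).2.2, (dm hz).2.2, Nat.add_assoc] at k
  refine Snd.mono k fun F hF => le_of_eq ?_
  unfold W
  rw [← sup_smul hF.sup (by norm_num)
    (nn4 (by positivity) (by positivity) (by positivity) (by positivity))]
  exact congrArg F (funext fun i => by fin_cases i <;> rfl)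

theorem snd_mx2 {a b c d : ℕ} (h1 : b ≤ a) (h2 : d ≤ c) :
    Snd (mx2 a b c d) (fun F => 5 * W F a b c d) := by
  unfold mx2
  refine ble_rec (P := fun Z => Snd Z _) (fun h => ?_) fun h => snd_sp3 h1 h (h2.trans h)
  refine (snd_sp3 h.le (h1.trans h.le) h2).mono fun F hF => le_of_eq (congrArg _ ?_)
  exact (W01 hF _ _ _ _).trans (W12 hF _ _ _ _)

theorem snd_sp4 (a b c d : ℕ) : Snd (sp4 a b c d) (fun F => 5 * W F a b c d) := by
  unfold sp4
  refine ble_rec (P := fun Z => Snd Z _) (fun h1 => ble_rec (P := fun Z => Snd Z _) (fun h2 => ?_)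
    fun h2 => ?_) fun h1 => ble_rec (P := fun Z => Snd Z _) (fun h2 => ?_) fun h2 => snd_mx2 h1 h2
  · exact (snd_mx2 h1.le h2.le).mono fun F hF => le_of_eq (congrArg _
      ((W01 hF _ _ _ _).trans (W23 hF _ _ _ _)))
  · exact (snd_mx2 h1.le h2).mono fun F hF => le_of_eq (congrArg _ (W01 hF _ _ _ _))
  · exact (snd_mx2 h1 h2.le).mono fun F hF => le_of_eq (congrArg _ (W23 hF _ _ _ _))

theorem snd_k24 (a b c d w0 w1 w2 w3 : ℕ) : Snd (k24 a b c d w0 w1 w2 w3)
    (fun F => 5 * sy (fun x => F (![(a : ℝ), b, c, d] * x)) ![(w0 : ℝ), w1, w2, w3]) := by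
  unfold k24
  refine Snd.mono ((snd_sp4 _ _ _ _).add ((snd_sp4 _ _ _ _).add
    ((snd_sp4 _ _ _ _).add ((snd_sp4 _ _ _ _).add ((snd_sp4 _ _ _ _).add
    ((snd_sp4 _ _ _ _).add ((snd_sp4 _ _ _ _).add ((snd_sp4 _ _ _ _).add
    ((snd_sp4 _ _ _ _).add ((snd_sp4 _ _ _ _).add ((snd_sp4 _ _ _ _).add
    ((snd_sp4 _ _ _ _).add ((snd_sp4 _ _ _ _).add ((snd_sp4 _ _ _ _).add
    ((snd_sp4 _ _ _ _).add ((snd_sp4 _ _ _ _).add ((snd_sp4 _ _ _ _).add
    ((snd_sp4 _ _ _ _).add ((snd_sp4 _ _ _ _).add ((snd_sp4 _ _ _ _).add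
    ((snd_sp4 _ _ _ _).add ((snd_sp4 _ _ _ _).add ((snd_sp4 _ _ _ _).add
    (snd_sp4 _ _ _ _))))))))))))))))))))))))
    fun F hF => le_of_eq ?_
  rw [sy_W]
  simp only [Q4.permList, List.map_cons, List.map_nil, List.sum_cons, List.sum_nil, Nat.mul_eq,
    Nat.cast_mul, mul_add, add_zero]
  rfl

/-- a grid point against the message of a grid point -/
noncomputable def Q (F : V → ℝ) (o o' : O) : ℝ := sy (fun x => F (gv o * x)) (pl (-1 / 3) (gv o'))

theorem snd_kk (b c d x y z : ℕ) : Snd (kk b c d x y z) (fun F => 15 * Q F (b, c, d) (x, y, z)) := by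
  refine (snd_k24 _ _ _ _ _ _ _ _).mono fun F hF => le_of_eq ?_
  simp only [Nat.add_eq, Nat.cast_add]
  rw [pl3, sy_smul hF.sup (nn4 (by positivity) (by positivity) (by positivity) (by positivity))
    (pl_nonneg (by norm_num) p3 _ (nn4 (by positivity) (by positivity) (by positivity)
      (by positivity))) (by norm_num), ← mul_assoc]
  norm_num [Q, gv]

/-- weighted sum over two lists -/
noncomputable def zs (f : O → ℝ) : List ℕ → List O → ℝ
  | m :: ms, o :: os => m * f o + zs f ms os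
  | _, _ => 0

theorem zs_nil (f : O → ℝ) (ms : List ℕ) : zs f ms [] = 0 := by cases ms <;> rfl

theorem zs_mul (a : ℝ) (f : O → ℝ) : ∀ (ms : List ℕ) (os : List O),
    zs (fun o => a * f o) ms os = a * zs f ms os
  | [], os => by simp [zs]
  | m :: ms, [] => by simp [zs]
  | m :: ms, o :: os => by
    change m * (a * f o) + zs (fun o => a * f o) ms os = a * (m * f o + zs f ms os)
    rw [zs_mul a f ms os]
    ring

theorem zs_sub (f g : O → ℝ) : ∀ (ms : List ℕ) (os : List O),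
    zs (fun o => f o - g o) ms os = zs f ms os - zs g ms os
  | [], os => by simp [zs]
  | m :: ms, [] => by simp [zs]
  | m :: ms, o :: os => by
    change m * (f o - g o) + zs (fun o => f o - g o) ms os = m * f o + zs f ms os - (m * g o + zs g ms os)
    rw [zs_sub f g ms os]
    ring

theorem zs_le {f g : O → ℝ} (h : ∀ o, f o ≤ g o) : ∀ (ms : List ℕ) (os : List O),
    zs f ms os ≤ zs g ms os
  | [], os => by simp [zs]
  | m :: ms, [] => by simp [zs]
  | m :: ms, o :: os =>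
    add_le_add (mul_le_mul_of_nonneg_left (h o) (Nat.cast_nonneg m)) (zs_le h ms os)

theorem snd_row (b c d : ℕ) : ∀ (os : List O) (ms : List ℕ),
    Snd (row b c d os ms) (fun F => 15 * zs (Q F (b, c, d)) ms os)
  | [], ms => Snd.zero fun F _ => by rw [zs_nil]; simp
  | _ :: _, [] => Snd.zero fun F _ => by simp [zs]
  | (x, y, z) :: os, m :: ms => by
    refine (((snd_kk b c d x y z).smul m).add (snd_row b c d os ms)).mono fun F _ => le_of_eq ?_
    change _ = 15 * (m * Q F (b, c, d) (x, y, z) + zs (Q F (b, c, d)) ms os)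
    ring

theorem snd_dot (ms : List ℕ) : ∀ (os : List O) (us : List ℕ),
    Snd (dot us (rows ms os)) (fun F => zs (fun o => 15 * zs (Q F o) ms orbs) us os)
  | [], [] => Snd.zero fun F _ => le_rfl
  | [], _ :: _ => Snd.zero fun F _ => le_rfl
  | _ :: _, [] => Snd.zero fun F _ => le_rfl
  | (b, c, d) :: os, u :: us => ((snd_row b c d orbs ms).smul u).add (snd_dot ms os us)

/-- the list of weights `l` is at least as informative as `Φ` -/
def Lo (l : List ℕ) (Φ : (V → ℝ) → ℝ) : Prop :=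
  ∀ F, Tst F → zs (fun o => F (gv o)) l orbs ≤ 2 ^ 24 * Φ F

variable {Φ Ψ : (V → ℝ) → ℝ}

theorem snd_prod {us ms : List ℕ} (h1 : Ch Φ) (h2 : Ch Ψ) (l1 : Lo us Φ) (l2 : Lo ms Ψ) :
    Snd (dot us (rows ms orbs)) (fun F => 360 * 2 ^ 48 * conv Φ (edge (-1 / 3) Ψ) F) := by
  refine (snd_dot ms orbs us).mono fun F hF => ?_
  have hE := h2.edge p3
  have k : ∀ o, 15 * zs (Q F o) ms orbs ≤ 360 * 2 ^ 24 * liftc (edge (-1 / 3) Ψ) F (gv o) := by
    intro o
    have a := l2 _ ((tst_sy_mul hF (gv_nn o)).pl p3)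
    have b := lift_sy hE hF.nb (gv_nn o)
    rw [liftc_eq (gv_nn o)]
    change zs (Q F o) ms orbs ≤ 2 ^ 24 * edge (-1 / 3) Ψ (sy fun w => F (gv o * w)) at a
    rw [← b] at a
    linarith
  refine (zs_le k us orbs).trans ?_
  rw [zs_mul, h1.conv_eq hE hF]
  have := l1 _ (hE.liftc_tst hF)
  linarith

def tab : ℕ → (ℕ → ℕ) → List ℕ
  | 0, _ => []
  | n + 1, h => h 0 :: tab n (fun k => h (k + 1))

theorem zs_tab (f : O → ℝ) : ∀ (n : ℕ) (h : ℕ → ℕ) (os : List O), os.length = n →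
    zs f (tab n h) os = ∑ k ∈ Finset.range n, (h k : ℝ) * f (os.getD k (0, 0, 0))
  | 0, _, os, _ => by simp [tab, zs]
  | n + 1, h, o :: os, ho => by
    change (h 0 : ℝ) * f o + zs f (tab n fun k => h (k + 1)) os = _
    rw [zs_tab f n (fun k => h (k + 1)) os (by simpa using ho), Finset.sum_range_succ', add_comm]
    rfl

theorem unpack_eq (den : ℕ) : ∀ (n : ℕ) (c : ℕ → ℕ), (∀ k < n, c k < 2 ^ 96) →
    unpack den n (∑ k ∈ Finset.range (n + 1), c k * (2 ^ 96) ^ k) = tab n (fun k => c k / den)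
  | 0, _, _ => rfl
  | n + 1, c, h => by
    have e : ∑ k ∈ Finset.range (n + 1 + 1), c k * (2 ^ 96) ^ k
        = c 0 + 2 ^ 96 * ∑ k ∈ Finset.range (n + 1), c (k + 1) * (2 ^ 96) ^ k := by
      rw [Finset.sum_range_succ', Finset.mul_sum, add_comm]
      congr 1
      · ring
      · refine Finset.sum_congr rfl fun k _ => ?_
        rw [pow_succ]
        ring
    have h0 : c 0 < 2 ^ 96 := h 0 (by omega)
    change ((∑ k ∈ Finset.range (n + 1 + 1), c k * (2 ^ 96) ^ k) &&& (2 ^ 96 - 1)) / den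
      :: unpack den n ((∑ k ∈ Finset.range (n + 1 + 1), c k * (2 ^ 96) ^ k) >>> 96)
      = c 0 / den :: tab n (fun k => c (k + 1) / den)
    rw [Nat.and_two_pow_sub_one_eq_mod, e, Nat.add_mul_mod_self_left, Nat.mod_eq_of_lt h0,
      Nat.shiftRight_eq_div_pow, Nat.add_mul_div_left _ _ (by positivity), Nat.div_eq_of_lt h0,
      zero_add, unpack_eq den n (fun k => c (k + 1)) (fun k hk => h (k + 1) (by omega))]

theorem lo_unpack {Z den : ℕ} (h : Ch Φ) (hd : (den : ℝ) ≤ 2 ^ 72)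
    (hZ : Snd Z fun F => den * 2 ^ 24 * Φ F) : Lo (unpack den 56 Z) Φ := by
  obtain ⟨c, h1, h3⟩ := hZ
  have hc : ∀ k < 56, c k < 2 ^ 96 := by
    intro k hk
    have a : _ ≤ (den : ℝ) * 2 ^ 24 * Φ mean := h3 _ tst_mean
    rw [h.mass] at a
    have b := Finset.single_le_sum (f := fun k => (c k : ℝ) * mean (gv (ob k)))
      (fun k _ => mul_nonneg (Nat.cast_nonneg _) (mean_nn (gv_nn _))) (Finset.mem_range.2 hk)
    have e := le_mean (gv_nn (ob k)) 0
    have e' : gv (ob k) 0 = 5 := rfl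
    have : (c k : ℝ) * (5 / 4) ≤ (c k : ℝ) * mean (gv (ob k)) :=
      mul_le_mul_of_nonneg_left (by linarith) (Nat.cast_nonneg _)
    have : (c k : ℝ) < 2 ^ 96 := by linarith
    exact_mod_cast this
  intro F hF
  rw [h1, unpack_eq den 56 c hc, zs_tab _ 56 _ orbs rfl]
  rcases Nat.eq_zero_or_pos den with h0 | h0
  · subst h0
    simp only [Nat.div_zero, Nat.cast_zero, zero_mul, Finset.sum_const_zero]
    exact mul_nonneg (by positivity) (h.nonneg hF.nb)
  · have hp : (0 : ℝ) < den := by exact_mod_cast h0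
    refine le_of_mul_le_mul_left ?_ hp
    rw [← mul_assoc]
    refine le_trans ?_ (h3 F hF)
    rw [Finset.mul_sum]
    refine Finset.sum_le_sum fun k _ => ?_
    rw [← mul_assoc]
    refine mul_le_mul_of_nonneg_right ?_ (hF.nn _ (gv_nn _))
    exact_mod_cast Nat.mul_div_le (c k) den

theorem force_eq (n : ℕ) (f : ℕ → ℕ) : force n f = f n := by cases n <;> rfl

noncomputable def msum : List ℕ → (ℕ → ℝ) → ℝ
  | [], _ => 0
  | p :: ps, h => p * h 0 + msum ps fun k => h (k + 1)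

theorem snd_mix {ms : List ℕ} (h2 : Ch Ψ) (l2 : Lo ms Ψ) : ∀ (ps : List ℕ) (k Z : ℕ),
    Snd Z (fun F => 360 * 2 ^ 48 * pw (edge (-1 / 3) Ψ) k F) →
    Snd (mix (rows ms orbs) ps Z)
      (fun F => 360 * 2 ^ 48 * msum ps fun j => pw (edge (-1 / 3) Ψ) (k + j) F)
  | [], _, _, _ => Snd.zero fun F _ => by simp [msum]
  | [p], k, Z, h => (h.smul p).mono fun F _ => le_of_eq (by simp only [msum]; ring_nf)
  | p :: p' :: ps, k, Z, h => by
    have hk := (h2.edge p3).pw k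
    have l1 : Lo (unpack 6039797760 56 Z) (pw (edge (-1 / 3) Ψ) k) :=
      lo_unpack hk (by norm_num) (h.mono fun F _ => le_of_eq (by norm_num))
    have a := snd_mix h2 l2 (p' :: ps) (k + 1) _ (snd_prod hk h2 l1 l2)
    change Snd (Nat.add (Nat.mul p Z) (force (dot (unpack 6039797760 56 Z) (rows ms orbs))
      (mix (rows ms orbs) (p' :: ps)))) _
    rw [force_eq]
    refine ((h.smul p).add a).mono fun F _ => le_of_eq ?_
    have e : (fun j => pw (edge (-1 / 3) Ψ) (k + 1 + j) F)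
        = fun j => pw (edge (-1 / 3) Ψ) (k + (j + 1)) F := by
      funext j; rw [add_assoc, add_comm 1 j]
    rw [e]
    change _ = 360 * 2 ^ 48 * (p * pw (edge (-1 / 3) Ψ) k F + _)
    ring

theorem msum_le : ∀ (ps : List ℕ) (g h : ℕ → ℝ), (∀ k, 0 ≤ g k) → (∀ k, 0 ≤ h k) →
    (∀ k, (ps.getD k 0 : ℝ) ≤ g k) → msum ps h ≤ ∑ k ∈ Finset.range ps.length, g k * h k
  | [], _, _, _, _, _ => by simp [msum]
  | p :: ps, g, h, hg, hh, hp => by
    rw [List.length_cons, Finset.sum_range_succ', add_comm]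
    exact add_le_add (mul_le_mul_of_nonneg_right (hp 0) (hh 0))
      (msum_le ps (fun k => g (k + 1)) (fun k => h (k + 1)) (fun _ => hg _) (fun _ => hh _)
        fun k => hp (k + 1))

theorem dot_le (f : O → ℝ) : ∀ (l s : List ℕ) (os : List O),
    List.Forall₂ (fun (x : ℕ) o => (x : ℝ) ≤ f o) s os → (dot l s : ℝ) ≤ zs f l os
  | [], _, _, _ => by simp [dot, zs]
  | _ :: _, [], [], _ => by simp [dot, zs]
  | a :: l, x :: s, o :: os, List.Forall₂.cons h1 h2 => by
    change ((a * x + dot l s : ℕ) : ℝ) ≤ a * f o + zs f l os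
    push_cast
    exact add_le_add (mul_le_mul_of_nonneg_left h1 (Nat.cast_nonneg a)) (dot_le f l s os h2)

theorem le_dot (f : O → ℝ) : ∀ (l s : List ℕ) (os : List O),
    List.Forall₂ (fun (x : ℕ) o => f o ≤ (x : ℝ)) s os → zs f l os ≤ (dot l s : ℝ)
  | [], _, _, _ => by simp [dot, zs]
  | _ :: _, [], [], _ => by simp [dot, zs]
  | a :: l, x :: s, o :: os, List.Forall₂.cons h1 h2 => by
    change a * f o + zs f l os ≤ ((a * x + dot l s : ℕ) : ℝ)
    push_cast
    exact add_le_add (mul_le_mul_of_nonneg_left h1 (Nat.cast_nonneg a)) (le_dot f l s os h2)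

theorem sums_ok : List.Forall₂ (fun (x : ℕ) (o : O) => 5 + o.1 + o.2.1 + o.2.2 ≤ x) sums orbs := by
  decide +kernel

theorem mcs_ok : List.Forall₂ (fun (x : ℕ) (o : O) =>
    x * (3 * (5 + o.1 + o.2.1 + o.2.2)) + 65536 * (25 + o.1 ^ 2 + o.2.1 ^ 2 + o.2.2 ^ 2)
      ≤ 65536 * (5 + o.1 + o.2.1 + o.2.2) ^ 2) mcs orbs := by
  decide +kernel

theorem lo_refill (h : Ch Φ) : ∀ l : List ℕ, Lo l Φ → Lo (refill l) Φ
  | [], hl => hl
  | a :: l, hl => by
    intro F hF
    set t := (67108864 - dot (a :: l) sums) / 5 with ht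
    have e : zs (fun o => F (gv o)) (refill (a :: l)) orbs
        = zs (fun o => F (gv o)) (a :: l) orbs + t * F (gv (0, 0, 0)) := by
      change ((a + t : ℕ) : ℝ) * F (gv (0, 0, 0)) + zs _ l orbs.tail
        = a * F (gv (0, 0, 0)) + zs _ l orbs.tail + _
      push_cast
      ring
    have e1 : F (gv (0, 0, 0)) = 5 / 4 * F e0 := by
      rw [← sup_smul hF.sup (by norm_num) nn_e0]
      exact congrArg F (funext fun i => by fin_cases i <;> simp [gv, e0])
    have k := hl _ hF.sub_frozen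
    have f0 := hF.nn _ nn_e0
    have e2 := h.add _ _ hF.sub_frozen.nb (nb_mean.smul f0)
    simp only [sub_add_cancel] at e2
    rw [h.smul _ _ nb_mean f0, h.mass] at e2
    rw [zs_sub (fun o => F (gv o)) (fun o => F e0 * mean (gv o)), zs_mul] at k
    have k2 := le_dot (fun o => 4 * mean (gv o)) (a :: l) sums orbs (sums_ok.imp fun x o hx => by
      rw [mean4]
      have : ((5 + o.1 + o.2.1 + o.2.2 : ℕ) : ℝ) ≤ x := by exact_mod_cast hx
      push_cast at this
      show 4 * ((5 + (o.1 : ℝ) + o.2.1 + o.2.2) / 4) ≤ _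
      linarith)
    rw [zs_mul] at k2
    rw [e, e1]
    rcases le_total (dot (a :: l) sums) 67108864 with h1 | h1
    · have k3 : (t : ℝ) * 5 ≤ 67108864 - dot (a :: l) sums := by
        have := Nat.div_mul_le_self (67108864 - dot (a :: l) sums) 5
        rw [← ht] at this
        exact_mod_cast (by omega : (t * 5 : ℤ) ≤ 67108864 - (dot (a :: l) sums : ℕ))
      have k4 := mul_le_mul_of_nonneg_right (show (t : ℝ) * (5 / 4)
        ≤ 2 ^ 24 - zs (fun o => mean (gv o)) (a :: l) orbs by linarith) f0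
      have e3 : Φ F = Φ (fun v => F v - F e0 * mean v) + F e0 * 1 := e2
      rw [e3]
      linarith
    · have : t = 0 := by rw [ht, Nat.sub_eq_zero_of_le h1]
      rw [this]
      simpa using hl F hF

variable {ν : ℕ → ℝ}

theorem lo_msZ {Z : ℕ} (h : Ch Φ) (hZ : Snd Z fun F => 360 * 2 ^ 68 * Φ F) : Lo (msZ Z) Φ :=
  lo_refill h _ (lo_unpack h (by norm_num) (hZ.mono fun F _ => le_of_eq (by norm_num)))

theorem snd_level (hν : ∀ k, 0 ≤ ν k) (hs : HasSum ν 1) {ps : List ℕ}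
    (hp : ∀ k, (ps.getD k 0 : ℝ) ≤ 2 ^ 20 * ν k) {n Z : ℕ}
    (hZ : Snd Z fun F => 360 * 2 ^ 68 * ev ν 4 (-1 / 3) n F) :
    Snd (level ps Z) fun F => 360 * 2 ^ 68 * ev ν 4 (-1 / 3) (n + 1) F := by
  have hc := ch_ev p3 hν hs n
  have hE := hc.edge p3
  have h0 : Snd (Nat.shiftLeft 20266198323167232 (96 * 55))
      fun F => 360 * 2 ^ 48 * pw (edge (-1 / 3) (ev ν 4 (-1 / 3) n)) 0 F := by
    refine snd_single _ (by norm_num) fun F hF => le_of_eq ?_
    rw [if_pos (by norm_num)]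
    have e : F (gv (ob 55)) = 5 * F 1 := by
      rw [← sup_smul hF.sup (by norm_num) nn_one]
      have : ob 55 = (5, 5, 5) := by decide +kernel
      rw [this]
      exact congrArg F (funext fun i => by fin_cases i <;> simp [gv])
    rw [e]
    change _ = 360 * 2 ^ 48 * F 1
    push_cast
    ring
  refine (snd_mix hc (lo_msZ hc hZ) ps 0 _ h0).mono fun F hF => ?_
  simp only [zero_add]
  have hn : ∀ k, 0 ≤ pw (edge (-1 / 3) (ev ν 4 (-1 / 3) n)) k F := fun k => (hE.pw k).nonneg hF.nb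
  have a := msum_le ps (fun k => 2 ^ 20 * ν k) _ (fun k => by have := hν k; positivity) hn hp
  have b := (summable_pw hE hν hs hF.nb).sum_le_tsum (Finset.range ps.length)
    fun k _ => mul_nonneg (hν k) (hn k)
  rw [← ev_succ p3 hν hs n hF.nb] at b
  simp only [mul_assoc] at a
  rw [← Finset.mul_sum] at a
  linarith

theorem snd_iter (hν : ∀ k, 0 ≤ ν k) (hs : HasSum ν 1) {ps : List ℕ}
    (hp : ∀ k, (ps.getD k 0 : ℝ) ≤ 2 ^ 20 * ν k) : ∀ (k n Z : ℕ),
    (Snd Z fun F => 360 * 2 ^ 68 * ev ν 4 (-1 / 3) n F) →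
    Snd (iter (level ps) k Z) fun F => 360 * 2 ^ 68 * ev ν 4 (-1 / 3) (n + k) F
  | 0, _, _, h => h
  | k + 1, n, Z, h => by
    change Snd (force (level ps Z) (iter (level ps) k)) _
    rw [force_eq, ← add_assoc, add_right_comm]
    exact snd_iter hν hs hp k (n + 1) _ (snd_level hν hs hp h)

theorem nonrec_of_run (hν : ∀ k, 0 ≤ ν k) (hs : HasSum ν 1) (hg : GenLe ν 7) {ps : List ℕ}
    (hp : ∀ k, (ps.getD k 0 : ℝ) ≤ 2 ^ 20 * ν k) {n : ℕ}
    (hr : Nat.ble 992000000000 (dot (msZ (iter (level ps) n 0)) mcs) = true) :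
    Nonreconstruction ν 4 (-1 / 3) := by
  have hc := ch_ev p3 hν hs n
  have h1 := snd_iter hν hs hp n 0 0 (Snd.zero fun F hF =>
    mul_nonneg (by positivity) ((ch_ev p3 hν hs 0).nonneg hF.nb))
  rw [zero_add] at h1
  have h2 := lo_msZ hc h1 _ tst_mc
  have h3 := dot_le (fun o => 65536 * mc (gv o)) (msZ (iter (level ps) n 0)) mcs orbs
    (mcs_ok.imp fun x o hx => by
      have hx' : (x : ℝ) * (3 * (5 + o.1 + o.2.1 + o.2.2))
          + 65536 * (25 + (o.1 : ℝ) ^ 2 + (o.2.1 : ℝ) ^ 2 + (o.2.2 : ℝ) ^ 2)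
          ≤ 65536 * (5 + (o.1 : ℝ) + o.2.1 + o.2.2) ^ 2 := by exact_mod_cast hx
      have hs : (0 : ℝ) < 5 + o.1 + o.2.1 + o.2.2 := by positivity
      have e : mc (gv o) = ((5 + (o.1 : ℝ) + o.2.1 + o.2.2) ^ 2
          - (25 + (o.1 : ℝ) ^ 2 + (o.2.1 : ℝ) ^ 2 + (o.2.2 : ℝ) ^ 2))
          / (3 * (5 + o.1 + o.2.1 + o.2.2)) := by
        unfold mc
        rw [mean4, chi4]
        show (5 + (o.1 : ℝ) + o.2.1 + o.2.2) / 4 - ((5 ^ 2 + (o.1 : ℝ) ^ 2 + (o.2.1 : ℝ) ^ 2
          + (o.2.2 : ℝ) ^ 2) / (5 + o.1 + o.2.1 + o.2.2) - (5 + (o.1 : ℝ) + o.2.1 + o.2.2) / 4) / 3 = _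
        field_simp
        ring
      show (x : ℝ) ≤ 65536 * mc (gv o)
      rw [e, ← mul_div_assoc, le_div_iff₀ (by positivity)]
      linarith)
  rw [zs_mul] at h3
  have h4 : (992000000000 : ℝ) ≤ dot (msZ (iter (level ps) n 0)) mcs := by
    exact_mod_cast Nat.le_of_ble_eq_true hr
  refine nonrec_of_small hν hs (d := 7) (t := 47 / 100) (by norm_num) hg (by norm_num)
    (by norm_num) (by norm_num) (n := n) ?_
  rw [hc.mc_eq]
  linarith

theorem nonrec_seven : Nonreconstruction (regularOffspring 7) 4 (-1 / 3) := by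
  refine nonrec_of_run (regular_nonneg' 7) (regular_hasSum' 7) (by exact_mod_cast genLe_reg 7)
    (fun k => ?_) run7
  unfold regularOffspring
  split_ifs with h
  · subst h; norm_num [ps7]
  · have : ps7.getD k 0 = 0 := by
      rcases Nat.lt_or_ge k 8 with h1 | h1
      · interval_cases k <;> first | rfl | exact absurd rfl h
      · exact List.getD_eq_default _ _ h1
    rw [this]; simp

theorem psP_ok : ∀ k < 23, psP.getD k 0 * (k.factorial * 10966332) ≤ 2 ^ 20 * 7 ^ k * 10000 := by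
  decide +kernel

theorem nonrec_poi_seven : Nonreconstruction (poissonOffspring 7) 4 (-1 / 3) := by
  have h0 : ∀ k, 0 ≤ poissonOffspring 7 k := poissonOffspring_nonneg (by norm_num)
  refine nonrec_of_run h0 (poissonOffspring_hasSum 7) (genLe_poi 7) (fun k => ?_) runP
  rcases Nat.lt_or_ge k 23 with h1 | h1
  · have a : (psP.getD k 0 : ℝ) * (k.factorial * 10966332) ≤ 2 ^ 20 * 7 ^ k * 10000 := by
      exact_mod_cast psP_ok k h1
    have b : Real.exp 7 ≤ 10966332 / 10000 := by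
      have := Real.exp_one_lt_d9
      rw [show (7 : ℝ) = (7 : ℕ) * 1 by norm_num, Real.exp_nat_mul]
      refine (pow_le_pow_left₀ (Real.exp_pos 1).le this.le 7).trans (by norm_num)
    have c : (0 : ℝ) < k.factorial := by positivity
    have d := Real.exp_pos 7
    unfold poissonOffspring
    rw [Real.exp_neg, ← mul_div_assoc, le_div_iff₀ c, inv_mul_eq_div, ← mul_div_assoc,
      le_div_iff₀ d]
    have e := mul_le_mul_of_nonneg_left b
      (show (0 : ℝ) ≤ psP.getD k 0 * k.factorial by positivity)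
    linarith
  · have : psP.getD k 0 = 0 := List.getD_eq_default _ _ h1
    rw [this]
    have := h0 k
    push_cast
    positivity

end Up

end Vale.Agent.N154A
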